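import Crest.Agent.N207.H.St
import Crest.Agent.N207.G.Tr

-- ▼ part N207/H/Inv
section

/-!
# Row 207, block H: the leaf `INV` (helper66)
-/

set_option autoImplicit false

open scoped ContDiff Topology
open Set Filter Metric
open Crest.Agent.N207.Sk

noncomputable section

namespace Crest.Agent.N207.H

lemma isOpen_sh (a b : ℝ) : IsOpen (shell a b) :=
  (isOpen_lt continuous_const continuous_norm).inter (isOpen_lt continuous_norm continuous_const)

lemma exists_perp (x x' : E4) {r : ℝ} (hr : 0 < r) :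
    ∃ z : E4, ‖z‖ = r ∧ inner ℝ x z = 0 ∧ inner ℝ z x' = 0 := by
  have h : LinearMap.ker ((innerSL ℝ x).toLinearMap.prod (innerSL ℝ x').toLinearMap) ≠ ⊥ :=
    LinearMap.ker_ne_bot_of_finrank_lt (by simp)
  obtain ⟨v, hv, h0⟩ := Submodule.exists_mem_ne_zero_of_ne_bot h
  have h1 : inner ℝ x v = 0 ∧ inner ℝ x' v = 0 := by simpa [Prod.ext_iff] using hv
  have hn := norm_pos_iff.2 h0
  refine ⟨(r / ‖v‖) • v, ?_, ?_, ?_⟩
  · rw [norm_smul, Real.norm_of_nonneg (by positivity), div_mul_cancel₀ _ hn.ne']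
  · rw [inner_smul_right, h1.1, mul_zero]
  · rw [real_inner_comm, inner_smul_right, h1.2, mul_zero]

section
variable {θ : E4 → E4 →L[ℝ] E4} {A B η : ℝ}

lemma osc_perp (hη : 0 ≤ η) (hA : 0 < A)
    (h : ∀ x ∈ shell A B, DifferentiableAt ℝ θ x ∧ ‖fderiv ℝ θ x‖ * ‖x‖ ≤ η) {p q : E4} {m : ℝ}
    (hpq : inner ℝ p q = 0) (hp : m ≤ 21 / 20 * ‖p‖) (hq : m ≤ 21 / 20 * ‖q‖)
    (hp' : ‖p‖ < B) (hq' : ‖q‖ < B) (hA' : 3 / 2 * A < m) :
    ‖θ q - θ p‖ ≤ 3 / 2 * η / m * ‖q - p‖ := by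
  have hm0 : 0 < m := by linarith
  have key : ∀ y ∈ segment ℝ p q, 2 / 3 * m ≤ ‖y‖ ∧ ‖y‖ < B := by
    intro y hy
    refine ⟨?_, mem_ball_zero_iff.1 ((convex_ball (0 : E4) B).segment_subset
      (mem_ball_zero_iff.2 hp') (mem_ball_zero_iff.2 hq') hy)⟩
    obtain ⟨a, b, ha, hb, hab, rfl⟩ := hy
    refine abs_le_of_sq_le_sq' ?_ (norm_nonneg _) |>.2
    rw [norm_add_sq_real, inner_smul_left, inner_smul_right, hpq, norm_smul, norm_smul,
      Real.norm_of_nonneg ha, Real.norm_of_nonneg hb]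
    have h1 : a * m ≤ 21 / 20 * (a * ‖p‖) := by nlinarith
    have h2 : b * m ≤ 21 / 20 * (b * ‖q‖) := by nlinarith
    have h3 := pow_le_pow_left₀ (mul_nonneg ha hm0.le) h1 2
    have h4 := pow_le_pow_left₀ (mul_nonneg hb hm0.le) h2 2
    have h5 : m ^ 2 / 2 ≤ (a * m) ^ 2 + (b * m) ^ 2 := by
      have : m = a * m + b * m := by rw [← add_mul, hab, one_mul]
      nlinarith [sq_nonneg (a * m - b * m)]
    simp only [mul_zero]
    nlinarith [sq_nonneg m]
  have hs : ∀ y ∈ segment ℝ p q, y ∈ shell A B := fun y hy =>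
    ⟨by linarith [(key y hy).1], (key y hy).2⟩
  refine (convex_segment p q).norm_image_sub_le_of_norm_fderiv_le (𝕜 := ℝ)
    (fun y hy => (h y (hs y hy)).1) (fun y hy => ?_) (left_mem_segment _ _ _)
    (right_mem_segment _ _ _)
  rw [le_div_iff₀ hm0]
  have := (h y (hs y hy)).2
  nlinarith [(key y hy).1, norm_nonneg (fderiv ℝ θ y)]

end

theorem inv : INV := by
  refine ⟨1 / 1000, by norm_num, fun θ Yt A B hA hsm h => ?_⟩
  have hd : ∀ x ∈ shell A B, ContDiffAt ℝ ∞ Yt x := fun x hx =>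
    hsm.contDiffAt ((isOpen_sh A B).mem_nhds hx)
  have nrm : ∀ x ∈ shell A B, |‖Yt x‖ - ‖x‖| ≤ ‖x‖ / 500 := fun x hx => by
    obtain ⟨-, -, a, -, b⟩ := h x hx
    have c := abs_le.1 (a x)
    have d := abs_le.1 ((abs_norm_sub_norm_le _ _).trans b)
    exact abs_le.2 ⟨by linarith [c.1, d.1], by linarith [c.2, d.2]⟩
  have sub : shell (2 * A) (B / 2) ⊆ shell A B := fun x hx =>
    ⟨by linarith [hx.1], by linarith [hx.2, norm_nonneg x]⟩
  have hθ : ∀ x ∈ shell A B, DifferentiableAt ℝ θ x ∧ ‖fderiv ℝ θ x‖ * ‖x‖ ≤ 1 / 1000 :=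
    fun x hx => ⟨(h x hx).1, (h x hx).2.1⟩
  have inj : InjOn Yt (shell (2 * A) (B / 2)) := by
    intro x hx x' hx' e
    have n1 := abs_le.1 (nrm x (sub hx))
    have n2 := abs_le.1 (nrm x' (sub hx'))
    rw [← e] at n2
    have r0 : 0 < ‖x‖ := by linarith [hx.1]
    obtain ⟨z, hz, p1, p2⟩ := exists_perp x x' r0
    have o1 := osc_perp (by norm_num) hA hθ p1 (m := ‖x‖) (by linarith) (by linarith)
      (sub hx).2 (hz ▸ (sub hx).2) (by linarith [hx.1])
    have o2 := osc_perp (by norm_num) hA hθ p2 (m := ‖x‖) (by linarith)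
      (by linarith [n1.1, n1.2, n2.1, n2.2]) (hz ▸ (sub hx).2) (sub hx').2 (by linarith [hx.1])
    have l1 : ‖z - x‖ ≤ 2 * ‖x‖ := by linarith [norm_sub_le z x]
    have l2 : ‖x' - z‖ ≤ 3 * ‖x‖ := by linarith [norm_sub_le x' z, n1.1, n1.2, n2.1, n2.2]
    have c0 : 0 ≤ 3 / 2 * (1 / 1000) / ‖x‖ := by positivity
    have o3 : ‖θ x' - θ x‖ ≤ 1 / 100 := by
      have a := o1.trans (mul_le_mul_of_nonneg_left l1 c0)
      have b := o2.trans (mul_le_mul_of_nonneg_left l2 c0)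
      have e1 : 3 / 2 * (1 / 1000) / ‖x‖ * (2 * ‖x‖) = 3 / 1000 := by field_simp
      have e2 : 3 / 2 * (1 / 1000) / ‖x‖ * (3 * ‖x‖) = 9 / 2000 := by field_simp; norm_num1
      linarith [norm_sub_le_norm_sub_add_norm_sub (θ x') (θ z) (θ x)]
    have low : ∀ u, 999 / 1000 * ‖u‖ ≤ ‖θ x u‖ := fun u => by
      linarith [(abs_le.1 ((h x (sub hx)).2.2.1 u)).1]
    have close : ‖x' - x‖ ≤ ‖x‖ / 10 := by
      have a := (h x (sub hx)).2.2.2.2
      have b := (h x' (sub hx')).2.2.2.2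
      have c : ‖(θ x' - θ x) x'‖ ≤ 1 / 100 * ‖x'‖ :=
        ((θ x' - θ x).le_opNorm x').trans (mul_le_mul_of_nonneg_right o3 (norm_nonneg _))
      have d : θ x (x' - x) = (Yt x - θ x x) - (Yt x' - θ x' x') - (θ x' - θ x) x' := by
        rw [e, map_sub, sub_apply]; abel
      have f := low (x' - x)
      rw [d] at f
      have g := norm_sub_le ((Yt x - θ x x) - (Yt x' - θ x' x')) ((θ x' - θ x) x')
      have i := norm_sub_le (Yt x - θ x x) (Yt x' - θ x' x')
      linarith [n1.1, n1.2, n2.1, n2.2]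
    have hb : ∀ y ∈ closedBall x (‖x‖ / 10), y ∈ shell A B ∧ 9 / 10 * ‖x‖ ≤ ‖y‖ := fun y hy => by
      have := abs_le.1 ((abs_norm_sub_norm_le y x).trans (mem_closedBall_iff_norm.1 hy))
      exact ⟨⟨by linarith [hx.1, this.1], by linarith [hx.2, this.2]⟩, by linarith [this.1]⟩
    have o4 : ∀ y ∈ closedBall x (‖x‖ / 10), ‖θ y - θ x‖ ≤ 1 / 1000 := fun y hy => by
      have a := (convex_closedBall x (‖x‖ / 10)).norm_image_sub_le_of_norm_fderiv_le (𝕜 := ℝ)
        (C := 1 / 100 / ‖x‖) (fun y hy => (hθ y (hb y hy).1).1) (fun y hy => ?_)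
        (mem_closedBall_self (by positivity)) hy
      · refine a.trans ((mul_le_mul_of_nonneg_left (mem_closedBall_iff_norm.1 hy)
          (by positivity)).trans_eq ?_)
        field_simp; norm_num
      · rw [le_div_iff₀ r0]
        nlinarith [(hθ y (hb y hy).1).2, (hb y hy).2, norm_nonneg (fderiv ℝ θ y)]
    have mv := (convex_closedBall x (‖x‖ / 10)).norm_image_sub_le_of_norm_fderiv_le' (𝕜 := ℝ)
      (f := Yt) (φ := θ x) (C := 1 / 500)
      (fun y hy => (hd y (hb y hy).1).differentiableAt (by simp))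
      (fun y hy => by
        linarith [norm_sub_le_norm_sub_add_norm_sub (fderiv ℝ Yt y) (θ y) (θ x),
          (h y (hb y hy).1).2.2.2.1, o4 y hy])
      (mem_closedBall_self (by positivity)) (mem_closedBall_iff_norm.2 close)
    rw [e, sub_self, zero_sub, norm_neg] at mv
    have : ‖x' - x‖ ≤ 0 := by linarith [low (x' - x), norm_nonneg (x' - x)]
    exact (sub_eq_zero.1 (norm_le_zero_iff.1 this)).symm
  have eqv : ∀ x ∈ shell A B, ∃ L : E4 ≃L[ℝ] E4, HasFDerivAt Yt (L : E4 →L[ℝ] E4) x := by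
    intro x hx
    have hi : Function.Injective (fderiv ℝ Yt x).toLinearMap := by
      refine (injective_iff_map_eq_zero _).2 fun u hu => ?_
      have a : ‖(fderiv ℝ Yt x - θ x) u‖ ≤ 1 / 1000 * ‖u‖ :=
        (ContinuousLinearMap.le_opNorm _ u).trans
          (mul_le_mul_of_nonneg_right (h x hx).2.2.2.1 (norm_nonneg _))
      have b : fderiv ℝ Yt x u = 0 := hu
      rw [sub_apply, b, zero_sub, norm_neg] at a
      have c := (abs_le.1 ((h x hx).2.2.1 u)).1
      exact norm_le_zero_iff.1 (by linarith [norm_nonneg u])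
    refine ⟨(LinearEquiv.ofInjectiveEndo _ hi).toContinuousLinearEquiv, ?_⟩
    exact ((hd x hx).differentiableAt (by simp)).hasFDerivAt
  have opn : IsOpen (Yt '' shell (2 * A) (B / 2)) := by
    refine isOpen_iff_mem_nhds.2 ?_
    rintro _ ⟨x, hx, rfl⟩
    obtain ⟨L, hL⟩ := eqv x (sub hx)
    rw [← ((hd x (sub hx)).hasStrictFDerivAt' hL (by simp)).map_nhds_eq_of_equiv]
    exact image_mem_map ((isOpen_sh _ _).mem_nhds hx)
  have onto : shell (4 * A) (B / 4) ⊆ Yt '' shell (2 * A) (B / 2) := by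
    intro y hy
    have hB : 16 * A < B := by linarith [hy.1, hy.2]
    have hK : ∀ x ∈ closedBall (0 : E4) (B / 3) \ ball 0 (3 * A), x ∈ shell (2 * A) (B / 2) :=
      fun x hx => by
        have a := mem_closedBall_zero_iff.1 hx.1
        have b := not_lt.1 (mt mem_ball_zero_iff.2 hx.2)
        exact ⟨by linarith, by linarith⟩
    have cK : IsClosed (Yt '' (closedBall (0 : E4) (B / 3) \ ball 0 (3 * A))) :=
      (((isCompact_closedBall _ _).diff isOpen_ball).image_of_continuousOn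
        (hsm.continuousOn.mono fun x hx => sub (hK x hx))).isClosed
    have hr : 1 < Module.rank ℝ E4 := by
      rw [← Module.finrank_eq_rank, finrank_euclideanSpace_fin]; norm_num
    refine (isPreconnected_sphere hr 0 ‖y‖).subset_of_closure_inter_subset opn ?_ ?_
      (mem_sphere_zero_iff_norm.2 rfl)
    · obtain ⟨v, hv, -⟩ := exists_perp 0 0 one_pos
      have hn : ∀ s ∈ Icc (3 * A) (B / 3), ‖s • v‖ = s := fun s hs => by
        rw [norm_smul, hv, mul_one, Real.norm_of_nonneg (by linarith [hs.1])]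
      have hm : ∀ s ∈ Icc (3 * A) (B / 3), s • v ∈ shell (2 * A) (B / 2) := fun s hs =>
        ⟨by rw [hn s hs]; linarith [hs.1], by rw [hn s hs]; linarith [hs.2]⟩
      have hc : ContinuousOn (fun s : ℝ => ‖Yt (s • v)‖) (Icc (3 * A) (B / 3)) :=
        (hsm.continuousOn.comp (by fun_prop) fun s hs => sub (hm s hs)).norm
      have i1 : 3 * A ∈ Icc (3 * A) (B / 3) := ⟨le_rfl, by linarith⟩
      have i2 : B / 3 ∈ Icc (3 * A) (B / 3) := ⟨by linarith, le_rfl⟩
      have a := abs_le.1 (nrm _ (sub (hm _ i1)))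
      have b := abs_le.1 (nrm _ (sub (hm _ i2)))
      rw [hn _ i1] at a
      rw [hn _ i2] at b
      obtain ⟨s, hs, e⟩ := intermediate_value_Icc i1.2 hc
        (show ‖y‖ ∈ Icc _ _ from ⟨by linarith [hy.1, a.2], by linarith [hy.2, b.1]⟩)
      exact ⟨Yt (s • v), mem_sphere_zero_iff_norm.2 e, _, hm s hs, rfl⟩
    · rintro w ⟨h1, h2⟩
      have hw : w ∈ shell (4 * A) (B / 4) := by
        rw [shell, mem_ofPred_eq, mem_sphere_zero_iff_norm.1 h2]; exact hy
      have h3 := (isOpen_sh (4 * A) (B / 4)).inter_closure ⟨hw, h1⟩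
      refine image_mono hK (cK.closure_subset_iff.2 ?_ h3)
      rintro _ ⟨a, x, hx, rfl⟩
      have n := abs_le.1 (nrm x (sub hx))
      exact ⟨x, ⟨mem_closedBall_zero_iff.2 (by linarith [a.2, n.1, norm_nonneg x]),
        fun c => by linarith [mem_ball_zero_iff.1 c, a.1, n.2]⟩, rfl⟩
  refine ⟨Function.invFunOn Yt (shell (2 * A) (B / 2)), hsm,
    fun x hx => (nrm x hx).trans (by linarith [norm_nonneg x]), inj, fun y hy => ?_,
    fun y hy => ⟨Function.invFunOn_mem (onto hy), Function.invFunOn_eq (onto hy)⟩⟩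
  obtain ⟨x, hx, rfl⟩ := onto hy
  obtain ⟨L, hL⟩ := eqv x (sub hx)
  refine ContDiffAt.contDiffWithinAt
    (((hd x (sub hx)).to_localInverse hL (by simp)).congr_of_eventuallyEq ?_)
  exact ((hd x (sub hx)).hasStrictFDerivAt' hL (by simp)).localInverse_unique
    (mem_of_superset ((isOpen_sh _ _).mem_nhds hx) inj.leftInvOn_invFunOn)

end Crest.Agent.N207.H

end
end

-- ▼ part N207/H/Tops

/-!
# Row 207, block H: the leaf `TOPS` (helper66)
-/

set_option autoImplicit false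

open scoped ContDiff Manifold Topology
open Set Filter Metric
open Crest.Agent.N207.Sk

noncomputable section

namespace Crest.Agent.N207.H

/-- the region inside a level set of `‖Yt‖` -/
def DD (Yt : E4 → E4) (a a' B : ℝ) (p : ℝ → Prop) : Set E4 :=
  {x | a < ‖x‖ ∧ (‖x‖ ≤ a' / 2 ∨ (‖x‖ < B / 2 ∧ p ‖Yt x‖))}

theorem tops (M : Type*) [TopologicalSpace M] [ChartedSpace E4 M] [IsManifold 𝓘(ℝ, E4) ∞ M]
    [T2Space M] : TOPS M := by
  intro N Yt Z A B a' b' hN hA hB hI heq h1 h2 h3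
  have a0 := hN.a_pos
  have sAB : shell A B ⊆ shell N.a N.b := fun x hx => ⟨hA.trans_lt hx.1, hx.2.trans_le hB⟩
  have s2 : shell (2 * A) (B / 2) ⊆ shell A B := fun x hx =>
    ⟨by linarith [hx.1], by linarith [hx.2]⟩
  have s4 : ∀ y : E4, a' < ‖y‖ → ‖y‖ ≤ b' → y ∈ shell (4 * A) (B / 4) := fun y u v =>
    ⟨by linarith, by linarith⟩
  have nr : ∀ x : E4, A < ‖x‖ → ‖x‖ < B → 19 / 20 * ‖x‖ ≤ ‖Yt x‖ ∧ ‖Yt x‖ ≤ 21 / 20 * ‖x‖ :=
    fun x u v => by
      have := abs_le.1 (hI.nrm x ⟨u, v⟩)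
      exact ⟨by linarith [this.1], by linarith [this.2]⟩
  have sD : ∀ p, DD Yt N.a a' B p ⊆ shell N.a N.b := fun p x hx =>
    ⟨hx.1, hx.2.elim (fun u => by linarith) fun u => by linarith [u.1]⟩
  have key : ∀ p : ℝ → Prop, (∀ s, s ≤ a' → p s) → (∀ s, p s → s ≤ b') →
      (N.In ∪ N.Ψ '' DD Yt N.a a' B (· ≤ a')) ∪
        (fun y => N.Ψ (Z y)) '' {y | a' < ‖y‖ ∧ p ‖y‖} = N.In ∪ N.Ψ '' DD Yt N.a a' B p := by
    intro p p1 p2
    refine Subset.antisymm (union_subset (union_subset_union_right _ (image_mono fun x hx =>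
      ⟨hx.1, hx.2.imp_right fun u => ⟨u.1, p1 _ u.2⟩⟩)) ?_) (union_subset
        (subset_union_left.trans subset_union_left) ?_)
    · rintro _ ⟨y, hy, rfl⟩
      obtain ⟨u, v⟩ := hI.inv y (s4 y hy.1 (p2 _ hy.2))
      exact Or.inr ⟨Z y, ⟨(sAB (s2 u)).1, Or.inr ⟨u.2, by rw [v]; exact hy.2⟩⟩, rfl⟩
    · rintro _ ⟨x, hx, rfl⟩
      rcases le_or_gt ‖x‖ (a' / 2) with u | u
      · exact Or.inl (Or.inr ⟨x, ⟨hx.1, Or.inl u⟩, rfl⟩)
      obtain ⟨v, w⟩ := hx.2.resolve_left (not_le.2 u)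
      rcases le_or_gt ‖Yt x‖ a' with z | z
      · exact Or.inl (Or.inr ⟨x, ⟨hx.1, Or.inr ⟨v, z⟩⟩, rfl⟩)
      obtain ⟨c, d⟩ := hI.inv _ (s4 _ z (p2 _ w))
      exact Or.inr ⟨Yt x, ⟨z, w⟩, congrArg N.Ψ (hI.inj c ⟨by linarith, v⟩ d)⟩
  have om : ∀ r, a' < r → r ≤ b' → (⟨N.Γ, fun y => N.Ψ (Z y),
      N.In ∪ N.Ψ '' DD Yt N.a a' B (· ≤ a'), a', b'⟩ : Nk M).Om r =
        N.In ∪ N.Ψ '' DD Yt N.a a' B (· < r) := fun r u v =>
    key (· < r) (fun s hs => hs.trans_lt u) fun s hs => hs.le.trans v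
  have hc : ContinuousOn (fun x => ‖Yt x‖) (shell A B) := hI.sm.continuousOn.norm
  refine ⟨⟨N.Γ, fun y => N.Ψ (Z y), N.In ∪ N.Ψ '' DD Yt N.a a' B (· ≤ a'), a', b'⟩,
    ⟨hN.grp, by linarith, h2, ?_, ?_, ?_, ?_, ?_, hN.ne.mono subset_union_left⟩, rfl, rfl, rfl, rfl,
    subset_union_left, union_subset_union_right _ (image_mono fun x hx => ⟨hx.1, ?_⟩), ?_⟩
  · refine Gs.par_comp hN.par (isOpen_sh _ _) (hI.smZ.mono fun y hy => s4 y hy.1 hy.2.le)
      (fun y hy => sAB (s2 (hI.inv y (s4 y hy.1 hy.2.le)).1)) fun y hy => ?_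
    have hy' := (isOpen_sh _ _).mem_nhds (s4 y hy.1 hy.2.le)
    have d1 := ((hI.smZ.contDiffAt hy').differentiableAt (by simp)).hasFDerivAt
    have d2 := ((hI.sm.contDiffAt ((isOpen_sh _ _).mem_nhds
      (s2 (hI.inv y (s4 y hy.1 hy.2.le)).1))).differentiableAt (by simp)).hasFDerivAt
    have e : (fun z : E4 => z) =ᶠ[𝓝 y] Yt ∘ Z :=
      mem_of_superset hy' fun z hz => (hI.inv z hz).2.symm
    have := (hasFDerivAt_id y).unique ((d2.comp y d1).congr_of_eventuallyEq e)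
    refine Function.Injective.of_comp (f := fderiv ℝ Yt (Z y)) fun u v huv => ?_
    exact (congrArg (fun L : E4 →L[ℝ] E4 => L u) this).trans
      (huv.trans (congrArg (fun L : E4 →L[ℝ] E4 => L v) this).symm)
  · intro y hy y' hy'
    obtain ⟨u, v⟩ := hI.inv y (s4 y hy.1 hy.2.le)
    obtain ⟨u', v'⟩ := hI.inv y' (s4 y' hy'.1 hy'.2.le)
    refine (hN.fib _ (sAB (s2 u)) _ (sAB (s2 u'))).trans (exists_congr fun γ =>
      and_congr_right fun hγ => ⟨fun e => ?_, fun e => ?_⟩)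
    · rw [← v, ← heq γ hγ _ (s2 u), e, v']
    · refine hI.inj ⟨by rw [γ.norm_map]; exact u.1, by rw [γ.norm_map]; exact u.2⟩ u' ?_
      rw [heq γ hγ _ (s2 u), v, v', e]
  · rintro y hy (hin | ⟨x, hx, e⟩)
    · exact hN.disj _ (sAB (s2 (hI.inv y (s4 y hy.1 hy.2.le)).1)) hin
    obtain ⟨u, v⟩ := hI.inv y (s4 y hy.1 hy.2.le)
    obtain ⟨γ, hγ, f⟩ := (hN.fib _ (sD _ hx) _ (sAB (s2 u))).1 e
    have n1 : ‖Z y‖ = ‖x‖ := by rw [← f, γ.norm_map]
    have n2 := (nr _ (s2 u).1 (s2 u).2).2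
    have y1 : a' < ‖y‖ := hy.1
    rw [v, n1] at n2
    obtain ⟨-, w⟩ := hx.2.resolve_left (by linarith)
    have : ‖y‖ = ‖Yt x‖ := by
      rw [← v, ← f, heq γ hγ x ⟨n1 ▸ (s2 u).1, n1 ▸ (s2 u).2⟩, γ.norm_map]
    exact absurd w (by simp only [not_le]; linarith)
  · intro r hr
    have r1 : a' < r := hr.1
    rw [om r hr.1 hr.2]
    have e : DD Yt N.a a' B (· < r) = shell N.a (3 / 4 * a') ∪
        (shell (a' / 2) (B / 2) ∩ (fun x => ‖Yt x‖) ⁻¹' Iio r) := by
      ext x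
      refine ⟨fun hx => ?_, fun hx => hx.elim (fun u => ⟨u.1, ?_⟩) fun u =>
        ⟨by linarith [u.1.1], Or.inr ⟨u.1.2, u.2⟩⟩⟩
      · rcases le_or_gt ‖x‖ (a' / 2) with u | u
        · exact Or.inl ⟨hx.1, by linarith⟩
        · obtain ⟨v, w⟩ := hx.2.resolve_left (not_le.2 u)
          exact Or.inr ⟨⟨u, v⟩, w⟩
      · refine (le_or_gt ‖x‖ (a' / 2)).imp_right fun v => ⟨by linarith [u.2], ?_⟩
        linarith [(nr x (by linarith) (by linarith [u.2])).2, u.2]
    have s5 : shell (a' / 2) (B / 2) ⊆ shell A B := fun x hx =>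
      ⟨by linarith [hx.1], by linarith [hx.2]⟩
    rw [e, image_union, ← union_assoc]
    exact (hN.opn (3 / 4 * a') ⟨by linarith, by linarith⟩).union (Gs.par_isOpen hN.par
      ((hc.mono s5).isOpen_inter_preimage (isOpen_sh _ _) isOpen_Iio) fun x hx => sAB (s5 hx.1))
  · intro r hr
    have r1 : a' < r := hr.1
    have r2 : r < b' := hr.2
    have := key (· ≤ r) (fun s hs => hs.trans r1.le) fun s hs => hs.trans r2.le
    refine this ▸ ?_
    have s6 : closedBall (0 : E4) (B / 4) \ ball 0 (a' / 2) ⊆ shell A B := fun x hx => by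
      have a := mem_closedBall_zero_iff.1 hx.1
      have b := not_lt.1 (mt mem_ball_zero_iff.2 hx.2)
      exact ⟨by linarith, by linarith⟩
    have cK := (isCompact_closedBall (0 : E4) (B / 4)).diff (isOpen_ball (x := 0) (ε := a' / 2))
    have e : DD Yt N.a a' B (· ≤ r) = {x | N.a < ‖x‖ ∧ ‖x‖ ≤ a' / 2} ∪
        ((closedBall (0 : E4) (B / 4) \ ball 0 (a' / 2)) ∩ (fun x => ‖Yt x‖) ⁻¹' Iic r) := by
      ext x
      refine ⟨fun hx => ?_, fun hx => hx.elim (fun u => ⟨u.1, Or.inl u.2⟩) fun u =>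
        ⟨(sAB (s6 u.1)).1, Or.inr ⟨by linarith [mem_closedBall_zero_iff.1 u.1.1], u.2⟩⟩⟩
      rcases le_or_gt ‖x‖ (a' / 2) with u | u
      · exact Or.inl ⟨hx.1, u⟩
      · obtain ⟨v, w⟩ := hx.2.resolve_left (not_le.2 u)
        have w' : ‖Yt x‖ ≤ r := w
        exact Or.inr ⟨⟨mem_closedBall_zero_iff.2
          (by linarith [(nr x (by linarith) (by linarith)).1]),
          fun c => by linarith [mem_ball_zero_iff.1 c]⟩, w⟩
    rw [e, image_union, ← union_assoc]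
    refine (hN.cls (a' / 2) ⟨by linarith, by linarith⟩).union (IsCompact.isClosed ?_)
    exact (cK.of_isClosed_subset ((hc.mono s6).preimage_isClosed_of_isClosed cK.isClosed
      isClosed_Iic) inter_subset_left).image_of_continuousOn
      ((Gs.par_cont hN.par).mono fun x hx => sAB (s6 hx.1))
  · rcases le_or_gt ‖x‖ (a' / 2) with u | u
    · linarith
    · obtain ⟨v, w⟩ := hx.2.resolve_left (not_le.2 u)
      have w' : ‖Yt x‖ ≤ a' := w
      linarith [(nr x (by linarith) (by linarith)).1]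
  · intro r hr
    have r1 := hr.1
    have r2 := hr.2
    constructor
    · rw [om r (by linarith) r2]
      refine union_subset_union_right _ (image_mono fun x hx => ⟨hx.1, ?_⟩)
      refine (le_or_gt ‖x‖ (a' / 2)).imp_right fun v => ⟨by linarith [hx.2], ?_⟩
      linarith [(nr x (by linarith) (by linarith [hx.2])).2, hx.2]
    · refine Subset.trans (b := (⟨N.Γ, fun y => N.Ψ (Z y),
        N.In ∪ N.Ψ '' DD Yt N.a a' B (· ≤ a'), a', b'⟩ : Nk M).Om (3 / 4 * r))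
        (union_subset_union_right _ (image_mono fun x hx => ⟨hx.1, by linarith [hx.2]⟩)) ?_
      rw [om _ (by linarith) (by linarith)]
      refine union_subset_union_right _ (image_mono fun x hx => ⟨hx.1, ?_⟩)
      rcases le_or_gt ‖x‖ (a' / 2) with u | u
      · linarith
      · obtain ⟨v, w⟩ := hx.2.resolve_left (not_le.2 u)
        have w' : ‖Yt x‖ < 3 / 4 * r := w
        linarith [(nr x (by linarith) (by linarith)).1]

end Crest.Agent.N207.H

end
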