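import Crest.Agent.N207.H.St2
import Crest.Agent.N207.H.Tops
import Crest.Agent.N207.G.Tr

/-!
# Row 207, block H (helper39): assembly of `HDEC` from the leaves
-/

set_option autoImplicit false
set_option linter.unusedSectionVars false

open scoped ContDiff Manifold Topology
open Set Filter Metric MeasureTheory
open Crest.GeometryTopology.CoordMetric
open Crest.Agent.R202.Tens Crest.Agent.N207.Sk

noncomputable section

namespace Crest.Agent.N207.H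

section flat

variable {G : MetricField 4} {Γ : Subgroup (E4 ≃ₗᵢ[ℝ] E4)} {a b η a' b' η' : ℝ}
  {θ : E4 → E4 →L[ℝ] E4} {Y : E4 → E4}

theorem sh_mono (ha : a ≤ a') (hb : b' ≤ b) : shell a' b' ⊆ shell a b :=
  fun _ hx => ⟨ha.trans_lt hx.1, hx.2.trans_le hb⟩

theorem RM.mono (h : RM G Γ a b η) (ha : a ≤ a') (hb : b' ≤ b) (hη : η ≤ η') :
    RM G Γ a' b' η' := by
  have s := sh_mono ha hb
  refine ⟨h.fin, h.a_pos.trans_le ha, ⟨isOpen_sh _ _, fun i j => (h.riem.contDiffOn i j).mono s,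
    fun x hx => h.riem.posDef x (s hx)⟩, fun γ hγ x hx => h.inv γ hγ x (s hx),
    fun x hx u v => (h.near x (s hx) u v).trans (by gcongr), fun x hx => (h.gam x (s hx)).trans hη⟩

theorem FD.mono (h : FD G Γ a b η θ Y) (ha : a ≤ a') (hb0 : 0 < b') (hb : b' ≤ b) (h0 : 0 ≤ η)
    (hη : η ≤ η') : FD G Γ a' b' η' θ Y := by
  have s := sh_mono ha hb
  have w : ∀ x, η * wt a b x ≤ η' * wt a' b' x := fun x =>
    mul_le_mul hη (wt_mono x ha hb0 hb) (wt_nonneg _ _ _) (h0.trans hη)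
  exact ⟨h.toRM.mono ha hb hη, fun x hx => h.dθ x (s hx), fun x hx => h.dY x (s hx),
    fun γ hγ x hx => h.eθ γ hγ x (s hx), fun γ hγ x hx => h.eY γ hγ x (s hx),
    fun x hx u v => (h.par x (s hx) u v).trans (by gcongr ?_ * _ * _; exact w x),
    fun x hx u v => (h.iso x (s hx) u v).trans (by gcongr ?_ * _ * _; exact w x),
    fun x hx => (h.der x (s hx)).trans (w x), fun x hx => (h.val x (s hx)).trans (by gcongr)⟩

theorem FD.nrm (h : FD G Γ a b η θ Y) (h0 : 0 ≤ η) {x : E4} (hx : x ∈ shell a b) (u : E4) :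
    |‖θ x u‖ - ‖u‖| ≤ 3 * η * ‖u‖ := by
  have h1 := abs_le.1 (h.iso x hx u u)
  have h2 := abs_le.1 (h.near x hx u u)
  rw [real_inner_self_eq_norm_sq] at h1 h2
  have h3 : η * wt a b x * ‖u‖ * ‖u‖ ≤ η * 2 * ‖u‖ * ‖u‖ := by
    gcongr; exact wt_le_two h.a_pos hx
  rcases (norm_nonneg u).eq_or_lt with e | e
  · rw [← e] at h1 h2 ⊢
    have : ‖θ x u‖ ^ 2 = 0 := by linarith [h1.1, h1.2, h2.1, h2.2]
    simp [pow_eq_zero_iff two_ne_zero |>.1 this]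
  · have k : |‖θ x u‖ - ‖u‖| * (‖θ x u‖ + ‖u‖) ≤ 3 * η * ‖u‖ * ‖u‖ := by
      rw [← abs_of_nonneg (by positivity : 0 ≤ ‖θ x u‖ + ‖u‖), ← abs_mul, abs_le]
      constructor <;> nlinarith [h1.1, h1.2, h2.1, h2.2]
    refine le_of_mul_le_mul_right (le_trans ?_ k) e
    gcongr
    linarith [norm_nonneg (θ x u)]

theorem FD.dle (h : FD G Γ a b η θ Y) (h0 : 0 ≤ η) (h1 : η ≤ 1 / 100) {x : E4}
    (hx : x ∈ shell a b) : ‖fderiv ℝ θ x‖ * ‖x‖ ≤ 4 * η := by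
  have hx0 : 0 < ‖x‖ := h.a_pos.trans hx.1
  rw [← le_div_iff₀ hx0]
  refine ContinuousLinearMap.opNorm_le_bound₂ _ (by positivity) fun u v => ?_
  rw [div_mul_eq_mul_div, div_mul_eq_mul_div, le_div_iff₀ hx0]
  have k1 := h.par x hx u v
  have k2 := (abs_le.1 (h.nrm h0 hx (Gam G x u v))).2
  have k3 : ‖Gam G x u v‖ * ‖x‖ ≤ η * ‖u‖ * ‖v‖ :=
    calc _ ≤ ‖Gam G x‖ * ‖u‖ * ‖v‖ * ‖x‖ := by gcongr; exact (Gam G x).le_opNorm₂ u v
      _ = ‖Gam G x‖ * ‖x‖ * ‖u‖ * ‖v‖ := by ring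
      _ ≤ _ := by gcongr; exact h.gam x hx
  have k4 : η * wt a b x * ‖u‖ * ‖v‖ ≤ η * 2 * ‖u‖ * ‖v‖ := by
    gcongr; exact wt_le_two h.a_pos hx
  have k5 : ‖θ x (Gam G x u v)‖ * ‖x‖ ≤ 2 * ‖Gam G x u v‖ * ‖x‖ := by
    gcongr; nlinarith [norm_nonneg (Gam G x u v)]
  have k6 : ‖fderiv ℝ θ x u v‖ * ‖x‖ ≤
      (‖fderiv ℝ θ x u v - θ x (Gam G x u v)‖ + ‖θ x (Gam G x u v)‖) * ‖x‖ := by
    gcongr; exact norm_le_norm_sub_add _ _
  nlinarith

theorem wt_scale {s : ℝ} (x : E4) (hs : 0 ≤ s) (hb : 0 < b) (hb' : 0 < b') (h1 : a ≤ s ^ 2 * a')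
    (h2 : b' ≤ s ^ 2 * b) : wt a b x ≤ s * wt a' b' x := by
  have k : ∀ u v : ℝ, u ≤ s ^ 2 * v → √u ≤ s * √v := fun u v h => by
    rw [← Real.sqrt_sq hs, ← Real.sqrt_mul (sq_nonneg s)]; exact Real.sqrt_le_sqrt h
  have a1 := k (a / ‖x‖) (a' / ‖x‖) (by rw [← mul_div_assoc]; gcongr)
  have a2 := k (‖x‖ / b) (‖x‖ / b') (by
    rw [← mul_div_assoc, div_le_div_iff₀ hb hb']; nlinarith [norm_nonneg x])
  unfold wt; linarith

theorem wt_pos {x : E4} (ha : 0 < a) (hx : x ∈ shell a b) : 0 < wt a b x := by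
  have := ha.trans hx.1
  unfold wt; positivity

theorem exists_s {c w0 η : ℝ} (hc : 0 ≤ c) (hw : 0 < w0) (hη : 0 < η) :
    ∃ s : ℝ, 0 < s ∧ s ^ 2 ≤ 1 / 4 ∧ 2 * s ≤ w0 ∧ c * (2 * s) ≤ η / 2 := by
  have h0 : 0 < min (1 / 2) (min (w0 / 2) (η / (4 * (c + 1)))) := by positivity
  have h1 := min_le_left (1 / 2) (min (w0 / 2) (η / (4 * (c + 1))))
  have h2 := (min_le_right (1 / 2) _).trans (min_le_left (w0 / 2) (η / (4 * (c + 1))))
  have h3 := (le_div_iff₀ (by positivity)).1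
    ((min_le_right (1 / 2) _).trans (min_le_right (w0 / 2) (η / (4 * (c + 1)))))
  exact ⟨_, h0, by nlinarith, by linarith, by nlinarith⟩

theorem exists_σ (C : ℕ → ℝ) (m : ℕ) {ε : ℝ} (hε : 0 < ε) :
    ∃ σ : ℝ, 0 < σ ∧ σ ≤ 1 ∧ ∀ k ≤ m, 2 ^ k * |C k| * (2 * σ) ≤ ε := by
  set S := ∑ k ∈ Finset.range (m + 1), 2 ^ k * |C k| with hS
  have S0 : 0 ≤ S := Finset.sum_nonneg fun _ _ => by positivity
  refine ⟨min 1 (ε / (2 * (S + 1))), by positivity, min_le_left _ _, fun k hk => ?_⟩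
  have h1 : 2 ^ k * |C k| ≤ S := Finset.single_le_sum (f := fun k => 2 ^ k * |C k|)
    (fun _ _ => by positivity) (Finset.mem_range.2 (Nat.lt_succ_of_le hk))
  have h2 := (le_div_iff₀ (by positivity)).1 (min_le_right 1 (ε / (2 * (S + 1))))
  have : 0 < min 1 (ε / (2 * (S + 1))) := by positivity
  nlinarith

theorem exists_K (V W : ℝ) {s σ : ℝ} (hs : 0 < s) (hσ : 0 < σ) :
    ∃ K : ℝ, 40 ≤ K ∧ V ≤ K ∧ W ≤ K ∧ 128 ≤ s ^ 2 * K ∧ 16 ≤ σ ^ 2 * K := by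
  have p1 : 0 < 128 / s ^ 2 := by positivity
  have p2 : 0 < 16 / σ ^ 2 := by positivity
  refine ⟨40 + |V| + |W| + 128 / s ^ 2 + 16 / σ ^ 2, ?_, ?_, ?_, ?_, ?_⟩
  · linarith [abs_nonneg V, abs_nonneg W]
  · linarith [le_abs_self V, abs_nonneg W]
  · linarith [abs_nonneg V, le_abs_self W]
  · rw [mul_comm, ← div_le_iff₀ (by positivity)]; linarith [abs_nonneg V, abs_nonneg W]
  · rw [mul_comm, ← div_le_iff₀ (by positivity)]; linarith [abs_nonneg V, abs_nonneg W]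

theorem radii {K s σ : ℝ} (ha : 0 < a) (K1 : 40 ≤ K) (hs : 0 < s) (ss : s ^ 2 ≤ 1 / 4)
    (K4 : 128 ≤ s ^ 2 * K) (K5 : 16 ≤ σ ^ 2 * K) (hK : K ^ 3 * a ≤ b) :
    40 * a ≤ K * a ∧ 40 * (K * a) ≤ b / K ∧ 40 * (b / K) ≤ b ∧ 64 * a ≤ 16 * a / s ^ 2 ∧
      s ^ 2 * (b / 4) ≤ b / 16 ∧ 8 * (16 * a / s ^ 2) ≤ K * a ∧ 8 * (b / K) ≤ s ^ 2 * (b / 4) ∧
      16 * a ≤ σ ^ 2 * (K * a) ∧ b / K ≤ σ ^ 2 * (b / 4) := by
  have K0 : 0 < K := by linarith
  have b0 : 0 < b := lt_of_lt_of_le (by positivity) hK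
  refine ⟨by gcongr, ?_, ?_, ?_, by nlinarith, ?_, ?_, by nlinarith, ?_⟩
  · rw [le_div_iff₀ K0]; nlinarith [mul_pos K0 (mul_pos K0 ha)]
  · rw [← mul_div_assoc, div_le_iff₀ K0]; nlinarith
  · rw [le_div_iff₀ (by positivity)]; nlinarith
  · rw [← mul_div_assoc, div_le_iff₀ (by positivity)]; nlinarith
  · rw [← mul_div_assoc, div_le_iff₀ K0]; nlinarith
  · rw [div_le_iff₀ K0]; nlinarith

theorem vol_num {K V : ℝ} (K1 : 40 ≤ K) (K2 : V ≤ K) :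
    V * a ^ 4 + 3 * ((11 / 10 * (K * a)) ^ 4 - a ^ 4) ≤ 6 * (K * a) ^ 4 := by
  have q1 : 0 ≤ a ^ 4 := by positivity
  have q2 : K ≤ K ^ 4 := le_self_pow₀ (by linarith) (by norm_num)
  have q3 : V * a ^ 4 ≤ K ^ 4 * a ^ 4 := by gcongr; linarith
  rw [mul_pow, mul_pow]
  nlinarith [mul_nonneg (by positivity : 0 ≤ K ^ 4) q1]

end flat

variable {M : Type*} [TopologicalSpace M] [ChartedSpace E4 M] [IsManifold 𝓘(ℝ, E4) ∞ M]
  [CompactSpace M] [T3Space M] [ConnectedSpace M] [MeasurableSpace M] [BorelSpace M]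

theorem rough_mono {g : Met 4 M} {N : Nk M} {m m' : ℕ} {η η' V : ℝ} (h : Rough g N m η V)
    (hm : m' ≤ m) (hη : η ≤ η') : Rough g N m' η' V :=
  ⟨fun x hx k hk i j => (h.jet x hx k (hk.trans hm) i j).trans hη, h.vol⟩

/-- the frame data and the curvature bounds on a rough neck -/
theorem asm_fd {F : Flow M} (hF : FRAME') (hB : BR M) (hC : CURV F) {η : ℝ} (hη : 0 < η) :
    ∃ (η1 r1 : ℝ) (Ck : ℕ → ℝ), 0 < η1 ∧ η1 ≤ 1 / 100 ∧ 0 < r1 ∧
      ∀ t ∈ late F, ∀ (N : Nk M) (V : ℝ), N.Top → Rough (F.m t) N 2 η1 V → N.b ≤ r1 →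
        1600 * N.a ≤ N.b →
        (∃ θ Y, FD ((F.m t).pm N.Ψ) N.Γ (16 * N.a) (N.b / 4) η θ Y) ∧
        ∀ p ∈ shell (32 * N.a) (N.b / 8), ∀ k, ∀ y ∈ ball p (‖p‖ / 4), (F.m t).rm k (N.Ψ y) ≤
          (Ck k * wt (16 * N.a) (N.b / 4) p / ‖p‖ ^ (k + 2)) ^ 2 := by
  obtain ⟨η0, h0, hF⟩ := hF η hη
  obtain ⟨ηB, hηB, hB1⟩ := hB.1 (min η0 (1 / 100)) (by positivity)
  obtain ⟨ηC, r1, Ck, hηC, hr1, hC⟩ := hC (η0 / 2) (by positivity)
  refine ⟨min (min ηB ηC) (1 / 100), r1, fun k => |Ck k| * 2 * 2 ^ (k + 2), by positivity,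
    min_le_right _ _, hr1, fun t ht N V hT hR hb hab => ?_⟩
  have a0 := hT.a_pos
  have R := hB1 _ N V hT (rough_mono hR one_le_two ((min_le_left _ _).trans (min_le_left _ _)))
  have C := hC t ht N V hT (rough_mono hR le_rfl ((min_le_left _ _).trans (min_le_right _ _))) hb
  constructor
  · obtain ⟨θ, Y, h⟩ := hF _ N.Γ (2 * N.a) (N.b / 2)
      (R.mono (by linarith) (by linarith) (min_le_left _ _)) (by linarith) (fun x hx u v w => by
        have x0 : 0 < ‖x‖ := by linarith [hx.1]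
        have w0 := wt_nonneg N.a N.b x
        have := hB.2 _ N hT (R.mono le_rfl le_rfl (min_le_right _ _)) x
          (sh_mono (by linarith) (by linarith) hx) _ (by positivity) (C x hx).1 u v w
        calc _ ≤ 2 * (η0 / 2 * wt N.a N.b x / ‖x‖ ^ 2) * ‖u‖ * ‖v‖ * ‖w‖ * ‖x‖ ^ 2 := by gcongr
          _ = η0 * wt N.a N.b x * ‖u‖ * ‖v‖ * ‖w‖ := by field_simp
          _ ≤ _ := by gcongr; exact wt_mono x (by linarith) (by linarith) (by linarith))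
    exact ⟨θ, Y, h.mono (by linarith) (by linarith) (by linarith) hη.le le_rfl⟩
  · intro p hp k y hy
    have p0 : 0 < ‖p‖ := by linarith [hp.1]
    have n1 := abs_le.1 ((abs_norm_sub_norm_le y p).trans (mem_ball_iff_norm.1 hy).le)
    have y0 : 0 < ‖y‖ := by linarith [n1.1]
    refine ((C y ⟨by linarith [n1.1, hp.1], by linarith [n1.2, hp.2]⟩).2 k).trans ?_
    have w1 : wt N.a N.b y ≤ 2 * wt (16 * N.a) (N.b / 4) p :=
      (wt_mono y (by linarith) (by linarith) (by linarith)).trans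
        (wt_cmp (by linarith) (by linarith) p0 (by linarith [n1.1]) (by linarith [n1.2]))
    have w0 := wt_nonneg N.a N.b y
    have w2 := wt_nonneg (16 * N.a) (N.b / 4) p
    rw [← sq_abs, abs_div, abs_mul, abs_of_nonneg w0, abs_of_pos (pow_pos y0 _)]
    gcongr ?_ ^ 2
    calc _ ≤ |Ck k| * (2 * wt (16 * N.a) (N.b / 4) p) / (‖p‖ / 2) ^ (k + 2) := by
          gcongr
          linarith [n1.1]
      _ = _ := by rw [div_pow]; field_simp

theorem hdec_of {F : Flow M} (hF : FRAME') (hS : SMOOTH) (hJ : JETS) (hL : LOC M) (hBR : BR M)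
    (hC : CURV F) (hB : Base F) (hV : VOLN F) : HDEC F := by
  obtain ⟨ηS, hηS, hS⟩ := hS
  obtain ⟨ηI, hηI, hI⟩ := inv
  obtain ⟨η, η0, e1, e2, e3⟩ : ∃ η : ℝ, 0 < η ∧ η ≤ ηS ∧ 4 * η ≤ ηI ∧ η ≤ 1 / 100 :=
    ⟨min ηS (min (ηI / 4) (1 / 100)), by positivity, min_le_left _ _,
      by linarith [(min_le_right ηS _).trans (min_le_left (ηI / 4) (1 / 100))],
      (min_le_right _ _).trans (min_le_right _ _)⟩
  obtain ⟨η1, r1, Ck, hη1, hη1', hr1, hA⟩ := asm_fd hF hBR hC η0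
  refine ⟨η1, hη1, fun V m ε hε => ?_⟩
  obtain ⟨n0, Kv, rv, hrv, hV2⟩ := hV.2 V
  obtain ⟨c, Cs, hc, hL⟩ := hL n0 Ck
  obtain ⟨C, hS⟩ := hS c Cs hc
  obtain ⟨w0, C', hw0, hJ⟩ := hJ C
  have c0 := abs_nonneg (C 0)
  obtain ⟨s, s0, ss, s2, s3⟩ := exists_s c0 hw0 hηI
  obtain ⟨σ, σ0, σ1, σ2⟩ := exists_σ C' m hε
  obtain ⟨K, K1, K2, K3, K4, K5⟩ := exists_K V Kv s0 σ0
  refine ⟨K, min r1 rv, fun k => 2 ^ k * |C' k| * 2, by linarith, by positivity,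
    fun t ht N hT hR hb hK => ?_⟩
  have a0 := hT.a_pos
  have b0 : 0 < N.b := a0.trans hT.a_lt
  obtain ⟨k1, k2, k3, A11, B11, t1, t3, t4, t5⟩ := radii a0 K1 s0 ss K4 K5 hK
  have k4 : Kv * N.a ≤ K * N.a := by gcongr
  have R0 := rough_mono hR (Nat.zero_le 2) hη1'
  obtain ⟨⟨θ, Y, hD⟩, hk⟩ := hA t ht N V hT hR (hb.trans (min_le_left _ _)) (by linarith)
  have hn := hV2 t ht N hT R0 (hb.trans (min_le_right _ _)) (by linarith)
  have hA1 : 16 * N.a ≤ s ^ 2 * (16 * N.a / s ^ 2) := le_of_eq (by field_simp)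
  have B10 : 0 < s ^ 2 * (N.b / 4) := by positivity
  obtain ⟨A1, eA1⟩ : ∃ A1, 16 * N.a / s ^ 2 = A1 := ⟨_, rfl⟩
  obtain ⟨B1, eB1⟩ : ∃ B1, s ^ 2 * (N.b / 4) = B1 := ⟨_, rfl⟩
  rw [eA1] at A11 t1 hA1
  rw [eB1] at B11 t3 B10
  have A0 : 0 < 16 * N.a := by positivity
  have B0 : 0 < N.b / 4 := by positivity
  have A10 : 0 < A1 := by linarith
  obtain ⟨Yt, y1, y2, y3⟩ := hS _ N.Γ _ _ θ Y (hD.mono le_rfl B0 le_rfl η0.le e1) fun p hp => by
    have hp' : p ∈ shell (16 * N.a) (N.b / 4) := sh_mono (by linarith) (by linarith) hp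
    exact hL _ N V hT R0 hn p (sh_mono (by linarith) (by linarith) hp) _ (wt_pos A0 hp')
      (wt_le_two A0 hp') fun k => hk p (sh_mono (by linarith) (by linarith) hp) k
  have s4 : shell A1 B1 ⊆ shell (4 * (16 * N.a)) (N.b / 4 / 4) :=
    sh_mono (by linarith) (by linarith)
  have s5 : shell A1 B1 ⊆ shell (16 * N.a) (N.b / 4) := sh_mono (by linarith) (by linarith)
  have ws : ∀ p ∈ shell A1 B1, wt (16 * N.a) (N.b / 4) p ≤ 2 * s := fun p hp =>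
    (wt_scale p s0.le B0 B10 hA1 eB1.ge).trans (by
      rw [mul_comm 2]; exact mul_le_mul_of_nonneg_left (wt_le_two A10 hp) s0.le)
  have wc : ∀ p ∈ shell A1 B1, C 0 * wt (16 * N.a) (N.b / 4) p ≤ ηI / 2 := fun p hp =>
    le_trans (mul_le_mul (le_abs_self _) (ws p hp) (wt_nonneg _ _ _) c0) s3
  obtain ⟨Z, hZ⟩ := hI θ Yt A1 B1 A10 (y1.mono s4) fun x hx => by
    obtain ⟨v1, v2, -⟩ := y3 x (s4 hx)
    refine ⟨hD.dθ x (s5 hx), (hD.dle η0.le e3 (s5 hx)).trans e2, fun u =>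
      (hD.nrm η0.le (s5 hx) u).trans (by gcongr; linarith), by linarith [wc x hx], ?_⟩
    have v3 := hD.val x (s5 hx)
    have v4 := norm_sub_le_norm_sub_add_norm_sub (Yt x) (Y x) (θ x x)
    have v5 := mul_le_mul_of_nonneg_right (wc x hx) (norm_nonneg x)
    have v6 := mul_le_mul_of_nonneg_right (by linarith : η ≤ ηI / 2) (norm_nonneg x)
    linarith
  obtain ⟨N', hT', na, nb, -, nΨ, i1, i2, cm⟩ := tops M N Yt Z A1 B1 (K * N.a) (N.b / K) hT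
    (by linarith) (by linarith) hZ (fun γ hγ x hx => y2 γ hγ x (s4 hx)) t1 (by linarith) t3
  have bK : 0 < N.b / K := by linarith
  have key : ∀ y ∈ shell N'.a N'.b, ∀ k i j, J1 k (dv ((F.m t).pm N'.Ψ) i j) y ‖y‖
      (2 ^ k * |C' k| * (2 * σ) * wt N'.a N'.b y) := by
    intro y hy k i j
    rw [na, nb] at hy ⊢
    have hy' : y ∈ shell (4 * A1) (B1 / 4) := sh_mono (by linarith) (by linarith) hy
    have nb := (isOpen_sh _ _).mem_nhds hy'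
    obtain ⟨z1, z2⟩ := hZ.inv y hy'
    have s6 : shell (2 * A1) (B1 / 2) ⊆ shell A1 B1 := sh_mono (by linarith) (by linarith)
    have z3 := s6 z1
    have p0 : 0 < ‖Z y‖ := A10.trans z3.1
    obtain ⟨-, -, φ, G', L, hf⟩ := y3 _ (s4 z3)
    have jj := hJ _ G' ((F.m t).pm N'.Ψ) Yt Z φ L (Z y) _ _ (norm_pos_iff.1 p0) (wt_pos A0 (s5 z3))
      ((ws _ z3).trans s2) hf (hZ.sm.contDiffAt ((isOpen_sh _ _).mem_nhds z3))
      (by rw [z2]; exact hZ.smZ.contDiffAt nb) (by rw [z2])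
      (by rw [z2]; filter_upwards [nb] with y' h' using (hZ.inv y' h').2)
      (by
        rw [z2, nΨ]
        filter_upwards [nb] with y' h' u v
        exact Gs.pm_comp_bil _ (Gs.par_md hT.par
          (sh_mono (by linarith) (by linarith) (s5 (s6 (hZ.inv y' h').1))))
          ((hZ.smZ.contDiffAt ((isOpen_sh _ _).mem_nhds h')).differentiableAt (by simp)) u v) k i j
    rw [z2] at jj
    have n1 := abs_le.1 (hZ.nrm _ z3)
    rw [z2] at n1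
    have w1 : wt (16 * N.a) (N.b / 4) (Z y) ≤ 2 * (σ * wt (K * N.a) (N.b / K) y) :=
      (wt_cmp A0.le B0.le (by linarith [n1.1]) (by linarith [n1.2]) (by linarith [n1.1])).trans
        (mul_le_mul_of_nonneg_left (wt_scale y σ0.le B0 bK t4 t5) zero_le_two)
    unfold J1 at jj ⊢
    calc _ ≤ ‖iteratedFDeriv ℝ k (dv ((F.m t).pm N'.Ψ) i j) y‖ * (2 * ‖Z y‖) ^ k := by
          gcongr; linarith [n1.2]
      _ = 2 ^ k * (‖iteratedFDeriv ℝ k (dv ((F.m t).pm N'.Ψ) i j) y‖ * ‖Z y‖ ^ k) := by ring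
      _ ≤ 2 ^ k * (|C' k| * (2 * (σ * wt (K * N.a) (N.b / K) y))) := by
          gcongr _ * ?_
          exact jj.trans (mul_le_mul (le_abs_self _) w1 (wt_nonneg _ _ _) (abs_nonneg _))
      _ = _ := by ring
  refine ⟨N', hT', na, nb, i1, ⟨fun y hy k hk i j => (key y hy k i j).trans ?_,
    fun y hy k i j => (key y hy k i j).trans ?_, ?_⟩, by rw [na, nb]; exact cm⟩
  · exact mul_le_mul_of_nonneg_right (σ2 k hk) (wt_nonneg _ _ _)
  · have := wt_nonneg N'.a N'.b y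
    gcongr
    linarith
  · have : IsFiniteMeasure (F.m t).vol := hB.ok.int.fin t ⟨(half_pos F.hT).trans_le ht.1, ht.2⟩
    refine (measureReal_mono i2).trans ((hV.1 t ht N V hT R0 _ ⟨by linarith, by linarith⟩).trans ?_)
    rw [na]
    exact vol_num K1 K2

end Crest.Agent.N207.H

end
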