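import Crest.Agent.N207.H.Fr1
import Crest.Agent.N207.H.St2
import Crest.Agent.N207.H.St
import Crest.Agent.N207.I.Met
import Crest.Agent.N207.G.Jb
import Crest.Agent.N207.F.Stat
import Crest.Agent.N207.G.Tr
import Crest.Agent.N207.T.Lo1
import Crest.Agent.N207.Rad.Crd
import Crest.Agent.N207.AI.Par2
import Crest.Agent.R247.Bo3_84
import Crest.Agent.R226.EucMin_77
import Crest.Agent.N207.C.DistM
import Crest.Agent.N207.D.QLoc
import Crest.Agent.N207.Sk.Defs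
import Crest.Agent.N207.Rad.Crd2
import Mathlib
import Crest.Agent.N207.A.Tg3
import Crest.Agent.N207.A.Co3
import Crest.Agent.N207.A.Arr
import Crest.Agent.N207.AI.Lin

-- ▼ part N207/H/Fr2
section

/-!
# Row 207, block H, FRAME 2: the two cap frames
-/

set_option autoImplicit false
set_option linter.unusedSectionVars false

open scoped ContDiff Topology RealInnerProductSpace
open Set Filter Metric
open Crest.GeometryTopology.CoordMetric
open Crest.Agent.R202.Tens Crest.Agent.R247.Bo84 Crest.Agent.N207.Sk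

noncomputable section

namespace Crest.Agent.N207.H

/-- the hypotheses of `FRAME` -/
structure HY (G : MetricField 4) (Γ : Subgroup (E4 ≃ₗᵢ[ℝ] E4)) (a b η : ℝ) : Prop
    extends RM G Γ a b η where
  pos : 0 < η
  le : η ≤ 1 / 100
  crv : ∀ x ∈ shell a b, ∀ u v w,
    ‖curv (Gam G) x u v w‖ * ‖x‖ ^ 2 ≤ η * wt a b x * ‖u‖ * ‖v‖ * ‖w‖

variable {G : MetricField 4} {Γ : Subgroup (E4 ≃ₗᵢ[ℝ] E4)} {a b η : ℝ}

theorem RM.sq (h : RM G Γ a b η) (hη : η ≤ 1 / 100) {x : E4} (hx : x ∈ shell a b) (u : E4) :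
    99 / 100 * ‖u‖ ^ 2 ≤ bil (G x) u u ∧ bil (G x) u u ≤ 101 / 100 * ‖u‖ ^ 2 := by
  have := abs_le.1 (h.near x hx u u)
  rw [real_inner_self_eq_norm_sq] at this
  have h2 : η * ‖u‖ * ‖u‖ ≤ 1 / 100 * ‖u‖ ^ 2 := by nlinarith [sq_nonneg ‖u‖]
  constructor <;> linarith [this.1, this.2]

theorem IsoF.bd (h : RM G Γ a b η) (hη : η ≤ 1 / 100) {m x : E4} (hm : m ∈ shell a b)
    (hx : x ∈ shell a b) {φ : E4 →L[ℝ] E4} (hφ : IsoF G m x φ) (u : E4) :
    9 / 10 * ‖u‖ ≤ ‖φ u‖ ∧ ‖φ u‖ ≤ 11 / 10 * ‖u‖ := by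
  have h1 := h.sq hη hm (φ u)
  have h2 := h.sq hη hx u
  rw [hφ u u] at h1
  constructor
  · refine (pow_le_pow_iff_left₀ (by positivity) (norm_nonneg _) two_ne_zero).1 ?_
    nlinarith [sq_nonneg ‖u‖]
  · refine (pow_le_pow_iff_left₀ (by positivity) (by positivity) two_ne_zero).1 ?_
    nlinarith [sq_nonneg ‖u‖]

theorem IsoF.norm_le (h : RM G Γ a b η) (hη : η ≤ 1 / 100) {m x : E4} (hm : m ∈ shell a b)
    (hx : x ∈ shell a b) {φ : E4 →L[ℝ] E4} (hφ : IsoF G m x φ) : ‖φ‖ ≤ 11 / 10 :=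
  φ.opNorm_le_bound (by norm_num) fun u => (hφ.bd h hη hm hx u).2

theorem RM.gam_le (h : RM G Γ a b η) {y : E4} (hy : y ∈ shell a b) : ‖Gam G y‖ ≤ η / ‖y‖ :=
  (le_div_iff₀ (h.a_pos.trans hy.1)).2 (h.gam y hy)

theorem HY.crv_le (h : HY G Γ a b η) {y : E4} (hy : y ∈ shell a b) (u v : E4) :
    ‖H.crv (Gam G) y u v‖ ≤ η * wt a b y / ‖y‖ ^ 2 * ‖u‖ * ‖v‖ := by
  have h0 : 0 < ‖y‖ := h.a_pos.trans hy.1
  have := h.pos
  have := wt_nonneg a b y
  refine ContinuousLinearMap.opNorm_le_bound _ (by positivity) fun w => ?_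
  have e : H.crv (Gam G) y u v w = curv (Gam G) y u v w := rfl
  rw [e, ← mul_le_mul_iff_left₀ (pow_pos h0 2)]
  refine (h.crv y hy u v w).trans (le_of_eq ?_)
  field_simp

theorem segD_shell (ha : 0 < a) {p x : E4} {r : ℝ} (h1 : 2 * a < r) (h2 : r < b) (hp : ‖p‖ = r)
    (hx : ‖x‖ = r) (h : -(r * r) / 2 ≤ ⟪p, x⟫) : (p, x) ∈ segD (shell a b) := fun t ht =>
  ⟨lt_of_lt_of_le (by linarith) (seg_lower (by linarith) hp.ge hx.ge (by rwa [hp, hx]) ht),
    (seg_upper hp.le hx.le ht).trans_lt h2⟩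

/-- a smooth isometric coframe along `q` with small defect -/
structure FrA (G : MetricField 4) (m : E4) (q : E4 → E4) (φ : E4 → E4 →L[ℝ] E4) (z : E4)
    (d : ℝ) : Prop where
  sm : ContDiffAt ℝ ∞ φ z
  iso : IsoF G m (q z) (φ z)
  dfc : ∀ v, ‖dfc (Gam G) q φ z v‖ ≤ d * ‖v‖

theorem HY.step (h : HY G Γ a b η) {m : E4} (hm : m ∈ shell a b) {p q : E4 → E4}
    {φ : E4 → E4 →L[ℝ] E4} {z : E4} {d : ℝ} (h1 : 2 * a < ‖z‖) (h2 : ‖z‖ < b)
    (hp : ContDiffAt ℝ ∞ p z) (hq : ContDiffAt ℝ ∞ q z) (np : ‖p z‖ = ‖z‖) (nq : ‖q z‖ = ‖z‖)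
    (hpq : -(‖z‖ * ‖z‖) / 2 ≤ ⟪p z, q z⟫) (dp : ∀ v, ‖fderiv ℝ p z v‖ ≤ ‖v‖)
    (dq : ∀ v, ‖fderiv ℝ q z v‖ ≤ ‖v‖) (hφ : FrA G m p φ z d) :
    FrA G m q (fun z => φ z * trp (Gam G) (p z, q z)) z
      (2 * (d + 32 * (η * wt a b z / ‖z‖))) := by
  have ha := h.a_pos
  have hU := h.riem.isOpen
  have hΓ := cdGam h.riem
  have hr : 0 < ‖z‖ := by linarith
  have hs := segD_shell ha h1 h2 np nq hpq
  have hη := h.pos
  have hw := wt_nonneg a b z
  refine ⟨hφ.sm.mul (ContDiffAt.comp (g := trp (Gam G)) z (contDiffAt_trp hU hΓ hs)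
    (hp.prodMk hq)), hφ.iso.mul (isoF_trp h.riem hs), fun v => ?_⟩
  have lo : ∀ t ∈ Icc (0 : ℝ) 1, ‖z‖ / 2 ≤ ‖p z + t • (q z - p z)‖ := fun t ht =>
    seg_lower hr.le np.ge nq.ge (by rwa [np, nq]) ht
  have up : ∀ t ∈ Icc (0 : ℝ) 1, ‖p z + t • (q z - p z)‖ ≤ ‖z‖ := fun t ht =>
    seg_upper np.le nq.le ht
  have nd : ‖q z - p z‖ ≤ 2 * ‖z‖ := (norm_sub_le _ _).trans (by linarith)
  have := dfc_step hU hΓ hp hq hφ.sm hs v (K := 1 / 25) (ρ := 32 * (η * wt a b z / ‖z‖) * ‖v‖)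
    (by norm_num) (by positivity) (fun t ht => by
      refine ((Gam G _).le_opNorm _).trans ?_
      calc _ ≤ η / (‖z‖ / 2) * (2 * ‖z‖) := by
            gcongr
            exact (h.gam_le (hs t ht)).trans (by gcongr; exact lo t ht)
        _ = 4 * η := by field_simp; norm_num
        _ ≤ 1 / 25 := by linarith [h.le])
    (fun t ht => by
      have i1 := (hφ.iso.mul (isoF_trp h.riem (segD_scale hs ht))).norm_le h.toRM h.le hm (hs t ht)
      have i2 := h.crv_le (hs t ht) (fderiv ℝ p z v + t • (fderiv ℝ q z v - fderiv ℝ p z v))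
        (q z - p z)
      have i3 := seg_upper (dp v) (dq v) ht
      have i4 := wt_cmp (x := z) (y := p z + t • (q z - p z)) ha.le (by linarith : 0 ≤ b) hr
        (by linarith [lo t ht]) (by linarith [up t ht])
      refine (norm_mul_le _ _).trans ?_
      calc _ ≤ 2 * (η * (2 * wt a b z) / (‖z‖ / 2) ^ 2 * ‖v‖ * (2 * ‖z‖)) := by
            refine mul_le_mul (by linarith) (i2.trans ?_) (norm_nonneg _) (by norm_num)
            gcongr
            exact lo t ht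
        _ = _ := by field_simp; ring)
  refine this.trans ?_
  have e2 : Real.exp (1 / 25) ≤ 2 := by
    have := Real.exp_bound_div_one_sub_of_interval' (x := 1 / 25) (by norm_num) (by norm_num)
    linarith [show (1 : ℝ) / (1 - 1 / 25) ≤ 2 by norm_num]
  have := hφ.dfc v
  calc _ ≤ (d * ‖v‖ + 32 * (η * wt a b z / ‖z‖) * ‖v‖) * 2 :=
        mul_le_mul (by linarith) e2 (Real.exp_pos _).le
          (add_nonneg ((norm_nonneg _).trans this) (by positivity))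
    _ = _ := by ring

/-- `z ↦ |z| q` -/
def ray (q z : E4) : E4 := ‖z‖ • q

theorem norm_ray {q : E4} (hq : ‖q‖ = 1) (z : E4) : ‖ray q z‖ = ‖z‖ := by
  simp [ray, norm_smul, hq]

theorem contDiffAt_ray (q : E4) {z : E4} (hz : z ≠ 0) : ContDiffAt ℝ ∞ (ray q) z :=
  (contDiffAt_norm ℝ hz).smul contDiffAt_const

theorem abs_fderiv_norm (z v : E4) : |fderiv ℝ (fun y : E4 => ‖y‖) z v| ≤ ‖v‖ := by
  have h := norm_fderiv_le_of_lipschitz ℝ (x₀ := z) (lipschitzWith_one_norm (E := E4))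
  have := (fderiv ℝ (fun y : E4 => ‖y‖) z).le_opNorm v
  rw [Real.norm_eq_abs] at this
  refine this.trans (mul_le_of_le_one_left (norm_nonneg _) (by simpa using h))

theorem fderiv_ray (q : E4) {z : E4} (hz : z ≠ 0) (v : E4) :
    fderiv ℝ (ray q) z v = fderiv ℝ (fun y : E4 => ‖y‖) z v • q := by
  have h : DifferentiableAt ℝ (fun y : E4 => ‖y‖) z :=
    (contDiffAt_norm (n := 1) ℝ hz).differentiableAt one_ne_zero
  exact congrArg (fun L => L v) (h.hasFDerivAt.smul_const q).fderiv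

theorem norm_fderiv_ray {q : E4} (hq : ‖q‖ = 1) {z : E4} (hz : z ≠ 0) (v : E4) :
    ‖fderiv ℝ (ray q) z v‖ ≤ ‖v‖ := by
  rw [fderiv_ray q hz, norm_smul, hq, mul_one]; exact abs_fderiv_norm z v

/-- first basis vector -/
def e0 : E4 := EuclideanSpace.single 0 1

/-- second basis vector -/
def e1 : E4 := EuclideanSpace.single 1 1

theorem norm_e0 : ‖e0‖ = 1 := by simp [e0]
theorem norm_e1 : ‖e1‖ = 1 := by simp [e1]
theorem inner_e0_e1 : ⟪e0, e1⟫ = 0 := by simp [e0, e1, EuclideanSpace.inner_single_left]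

theorem norm_re0 {r : ℝ} (hr : 0 ≤ r) : ‖r • e0‖ = r := by
  simp [norm_smul, norm_e0, abs_of_nonneg hr]

theorem re0_mem (ha : 0 < a) {r : ℝ} (h : r ∈ Ioo a b) : r • e0 ∈ shell a b := by
  constructor <;> rw [norm_re0 (ha.trans h.1).le]
  exacts [h.1, h.2]

/-- parallel coframe along the ray `e0` -/
def fr0 (G : MetricField 4) (ρ : ℝ) (z : E4) : E4 →L[ℝ] E4 := trp (Gam G) (ρ • e0, ray e0 z)

/-- coframe along the ray `q` -/
def fr1 (G : MetricField 4) (ρ : ℝ) (q z : E4) : E4 →L[ℝ] E4 :=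
  fr0 G ρ z * trp (Gam G) (ray e0 z, ray q z)

/-- coframe on the cap around `q` -/
def fr2 (G : MetricField 4) (ρ : ℝ) (q z : E4) : E4 →L[ℝ] E4 :=
  fr1 G ρ q z * trp (Gam G) (ray q z, z)

variable {ρ : ℝ}

theorem HY.fra0 (h : HY G Γ a b η) (hρ : ρ ∈ Ioo a b) {z : E4} (hz : z ∈ shell a b) :
    FrA G (ρ • e0) (ray e0) (fr0 G ρ) z 0 := by
  have hU := h.riem.isOpen
  have hΓ := cdGam h.riem
  have hz0 : z ≠ 0 := norm_pos_iff.1 (h.a_pos.trans hz.1)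
  have e : ray e0 z - ρ • e0 = (‖z‖ - ρ) • e0 := by simp [ray, sub_smul]
  have hs : (ρ • e0, ray e0 z) ∈ segD (shell a b) := fun t ht => by
    have e2 : ρ • e0 + t • (ray e0 z - ρ • e0) = ((1 - t) * ρ + t * ‖z‖) • e0 := by
      rw [e]; module
    have h1 : 0 ≤ 1 - t := by linarith [ht.2]
    have h0 := ht.1
    change ρ • e0 + t • (ray e0 z - ρ • e0) ∈ shell a b
    rw [e2]
    refine re0_mem h.a_pos ?_
    rcases h0.eq_or_lt with rfl | h0
    · simpa using hρ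
    · constructor <;> nlinarith [hz.1, hz.2, mul_le_mul_of_nonneg_left hρ.1.le h1,
        mul_le_mul_of_nonneg_left hρ.2.le h1]
  refine ⟨ContDiffAt.comp (g := trp (Gam G)) z (contDiffAt_trp hU hΓ hs)
    (contDiffAt_const.prodMk (contDiffAt_ray e0 hz0)), isoF_trp h.riem hs, fun v => ?_⟩
  have hc : ContinuousOn (fun t : ℝ => Gam G (ρ • e0 + t • (ray e0 z - ρ • e0))
      (ray e0 z - ρ • e0)) (Icc 0 1) :=
    (hΓ.continuousOn.comp (by fun_prop) fun t ht => hs t ht).clm_apply continuousOn_const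
  obtain ⟨K, hK⟩ := isCompact_Icc.exists_bound_of_continuousOn hc
  have := dfc_step hU hΓ (p := fun _ => ρ • e0) (φ := fun _ => 1) contDiffAt_const
    (contDiffAt_ray e0 hz0) contDiffAt_const hs v
    ((norm_nonneg _).trans (hK 0 ⟨le_rfl, zero_le_one⟩)) le_rfl hK (fun t ht => by
      rw [fderiv_ray e0 hz0, e]
      simp only [fderiv_fun_const, Pi.zero_apply, zero_apply, sub_zero, zero_add, smul_smul,
        crv_smul_smul, mul_zero, norm_zero, le_refl])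
  simp only [one_mul] at this
  refine this.trans (le_of_eq ?_)
  simp [H.dfc]

theorem HY.fra2 (h : HY G Γ a b η) (hρ : ρ ∈ Ioo a b) {q z : E4} (hq : ‖q‖ = 1)
    (h0 : ⟪e0, q⟫ = 0) (h1 : 2 * a < ‖z‖) (h2 : ‖z‖ < b) (hz : -‖z‖ / 2 ≤ ⟪q, z⟫) :
    FrA G (ρ • e0) id (fr2 G ρ q) z (192 * (η * wt a b z / ‖z‖)) := by
  have ha := h.a_pos
  have hm := re0_mem ha hρ
  have hz0 : z ≠ 0 := norm_pos_iff.1 (by linarith)
  have s1 := h.step hm h1 h2 (contDiffAt_ray e0 hz0) (contDiffAt_ray q hz0)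
    (norm_ray norm_e0 z) (norm_ray hq z) (by
      simp only [ray, inner_smul_left, inner_smul_right, h0]
      nlinarith [norm_nonneg z]) (norm_fderiv_ray norm_e0 hz0) (norm_fderiv_ray hq hz0)
    (h.fra0 hρ ⟨by linarith, h2⟩)
  have s2 := h.step hm h1 h2 (contDiffAt_ray q hz0) contDiffAt_id (norm_ray hq z) rfl (by
      simp only [ray, inner_smul_left, id, conj_trivial]
      nlinarith [norm_nonneg z]) (norm_fderiv_ray hq hz0) (fun v => by simp) s1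
  rw [show ∀ e : ℝ, 2 * (2 * (0 + 32 * e) + 32 * e) = 192 * e from fun e => by ring] at s2
  exact s2

theorem HY.fr2_ray (h : HY G Γ a b η) {q : E4} (hq : ‖q‖ = 1) (h0 : ⟪e0, q⟫ = 0) {r : ℝ}
    (h1 : 2 * a < r) (h2 : r < b) : fr2 G ρ q (r • e0) = fr0 G ρ (r • e0) := by
  have ha := h.a_pos
  have hn : ‖r • e0‖ = r := norm_re0 (by linarith)
  have e : ray e0 (r • e0) = r • e0 := by rw [ray, hn]
  have hs : (r • e0, ray q (r • e0)) ∈ segD (shell a b) :=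
    segD_shell ha h1 h2 hn (by rw [norm_ray hq, hn]) (by
      simp only [ray, inner_smul_left, inner_smul_right, h0]
      nlinarith)
  rw [fr2, fr1, e, mul_assoc, trp_mul_symm h.riem.isOpen (cdGam h.riem) hs, mul_one]

theorem HY.fr0_mid (h : HY G Γ a b η) (hρ : ρ ∈ Ioo a b) : fr0 G ρ (ρ • e0) = 1 := by
  have e : ray e0 (ρ • e0) = ρ • e0 := by rw [ray, norm_re0 (h.a_pos.trans hρ.1).le]
  rw [fr0, e, trp_self (cdGam h.riem) (re0_mem h.a_pos hρ)]

end Crest.Agent.N207.H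

end
end

-- ▼ part N207/H/Fr3
section

/-!
# Row 207, block H, FRAME 3: gluing the two cap frames
-/

set_option autoImplicit false
set_option linter.unusedSectionVars false

open scoped ContDiff Topology RealInnerProductSpace
open Set Filter Metric
open Crest.GeometryTopology.CoordMetric
open Crest.Agent.R202.Tens Crest.Agent.R247.Bo84 Crest.Agent.N207.Sk

noncomputable section

namespace Crest.Agent.N207.H

variable {G : MetricField 4} {Γ : Subgroup (E4 ≃ₗᵢ[ℝ] E4)} {a b η ρ : ℝ}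

theorem belt_seg {p z w : E4} {r c : ℝ} (hr : 0 ≤ r) (hc : 0 ≤ c) (hp : ‖p‖ = r) (hz : ‖z‖ = r)
    (pz : ⟪p, z⟫ = 0) (wz : ⟪w, z⟫ = 0) (pw : |⟪w, p⟫| ≤ c * r) {t : ℝ} (ht : t ∈ Icc (0 : ℝ) 1) :
    r / 2 ≤ ‖p + t • (z - p)‖ ∧ ‖p + t • (z - p)‖ ≤ r ∧
      |⟪w, p + t • (z - p)⟫| ≤ c * ‖p + t • (z - p)‖ := by
  refine ⟨seg_lower hr hp.ge hz.ge (by rw [pz, hp, hz]; nlinarith) ht, seg_upper hp.le hz.le ht, ?_⟩
  have e : p + t • (z - p) = (1 - t) • p + t • z := by module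
  have h1 : 0 ≤ 1 - t := by linarith [ht.2]
  have n1 : (1 - t) * r ≤ ‖p + t • (z - p)‖ := by
    refine (pow_le_pow_iff_left₀ (by positivity) (norm_nonneg _) two_ne_zero).1 ?_
    rw [e, norm_add_sq_real, inner_smul_left, inner_smul_right, pz, norm_smul,
      Real.norm_of_nonneg h1, hp]
    nlinarith [sq_nonneg ‖t • z‖]
  rw [show ⟪w, p + t • (z - p)⟫ = (1 - t) * ⟪w, p⟫ by
    rw [e, inner_add_right, inner_smul_right, inner_smul_right, wz]; ring,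
    abs_mul, abs_of_nonneg h1]
  nlinarith [mul_le_mul_of_nonneg_left pw h1, mul_le_mul_of_nonneg_left n1 hc]

theorem diff_seg {F : Type*} [NormedAddCommGroup F] [NormedSpace ℝ F] {D : E4 → F} {p x : E4}
    {c : ℝ} (hc : 0 ≤ c) (h : ∀ t ∈ Icc (0 : ℝ) 1, DifferentiableAt ℝ D (p + t • (x - p)) ∧
      ‖fderiv ℝ D (p + t • (x - p)) (x - p)‖ ≤ 1 / 25 * ‖D (p + t • (x - p))‖ + c) :
    ‖D x‖ ≤ (‖D p‖ + c) * 2 := by
  have g := gronwall_le (f := fun t : ℝ => D (p + t • (x - p)))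
    (f' := fun t => fderiv ℝ D (p + t • (x - p)) (x - p)) (K := 1 / 25) (ρ := c) (by norm_num) hc
    (fun t ht => by
      have dH : HasDerivAt (fun t : ℝ => p + t • (x - p)) (x - p) t := by
        have := ((hasDerivAt_id t).smul_const (x - p)).const_add p
        rwa [one_smul] at this
      exact HasFDerivAt.comp_hasDerivAt (l := D) t (h t ht).1.hasFDerivAt dH)
    (fun t ht => (h t ht).2) 1 ⟨zero_le_one, le_rfl⟩
  have e2 : Real.exp (1 / 25) ≤ 2 := by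
    have := Real.exp_bound_div_one_sub_of_interval' (x := 1 / 25) (by norm_num) (by norm_num)
    linarith [show (1 : ℝ) / (1 - 1 / 25) ≤ 2 by norm_num]
  simp only [one_smul, add_sub_cancel, zero_smul, add_zero] at g
  exact g.trans (by gcongr)

theorem FrA.par {m z : E4} {φ : E4 → E4 →L[ℝ] E4} {d : ℝ} (h : FrA G m id φ z d) (v : E4) :
    ‖fderiv ℝ φ z v - φ z * Gam G z v‖ ≤ d * ‖v‖ := by
  simpa [H.dfc] using h.dfc v

theorem HY.frp (h : HY G Γ a b η) (hρ : ρ ∈ Ioo a b) {z : E4} (h1 : 2 * a < ‖z‖) (h2 : ‖z‖ < b)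
    (hz : -‖z‖ / 2 ≤ ⟪e1, z⟫) :
    FrA G (ρ • e0) id (fr2 G ρ e1) z (192 * (η * wt a b z / ‖z‖)) :=
  h.fra2 hρ norm_e1 inner_e0_e1 h1 h2 hz

theorem HY.frm (h : HY G Γ a b η) (hρ : ρ ∈ Ioo a b) {z : E4} (h1 : 2 * a < ‖z‖) (h2 : ‖z‖ < b)
    (hz : ⟪e1, z⟫ ≤ ‖z‖ / 2) :
    FrA G (ρ • e0) id (fr2 G ρ (-e1)) z (192 * (η * wt a b z / ‖z‖)) :=
  h.fra2 hρ (by rw [norm_neg, norm_e1]) (by rw [inner_neg_right, inner_e0_e1, neg_zero]) h1 h2
    (by rw [inner_neg_left]; linarith)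

/-- the two frames are close on the belt -/
theorem HY.belt (h : HY G Γ a b η) (hρ : ρ ∈ Ioo a b) {x : E4} (hx : x ∈ shell (4 * a) b)
    (hb : |⟪e1, x⟫| ≤ 1 / 4 * ‖x‖) :
    ‖fr2 G ρ e1 x - fr2 G ρ (-e1) x‖ ≤ 18432 * (η * wt a b x) := by
  have ha := h.a_pos
  have hη := h.pos
  have hw := wt_nonneg a b x
  have hr : 0 < ‖x‖ := by linarith [hx.1]
  set D : E4 → E4 →L[ℝ] E4 := fun y => fr2 G ρ e1 y - fr2 G ρ (-e1) y with hD
  have key : ∀ y v : E4, ‖x‖ / 2 ≤ ‖y‖ ∧ ‖y‖ ≤ ‖x‖ ∧ |⟪e1, y⟫| ≤ 1 / 4 * ‖y‖ → ‖v‖ ≤ 2 * ‖x‖ →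
      DifferentiableAt ℝ D y ∧
        ‖fderiv ℝ D y v‖ ≤ 1 / 25 * ‖D y‖ + 3072 * (η * wt a b x) := by
    rintro y v ⟨y1, y2, y3⟩ hv
    have y4 := abs_le.1 y3
    have y5 : 2 * a < ‖y‖ := by linarith [hx.1]
    have y6 : ‖y‖ < b := y2.trans_lt hx.2
    have f1 := h.frp hρ y5 y6 (by linarith [y4.1])
    have f2 := h.frm hρ y5 y6 (by linarith [y4.2])
    have d1 := f1.sm.differentiableAt (by simp)
    have d2 := f2.sm.differentiableAt (by simp)
    refine ⟨d1.sub d2, ?_⟩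
    have e : fderiv ℝ D y v = D y * Gam G y v + ((fderiv ℝ (fr2 G ρ e1) y v -
        fr2 G ρ e1 y * Gam G y v) - (fderiv ℝ (fr2 G ρ (-e1)) y v -
          fr2 G ρ (-e1) y * Gam G y v)) := by
      rw [hD, fderiv_fun_sub d1 d2, sub_apply, sub_mul]; abel
    have g1 : ‖Gam G y v‖ ≤ 1 / 25 := by
      refine ((Gam G _).le_opNorm _).trans ?_
      calc _ ≤ η / (‖x‖ / 2) * (2 * ‖x‖) := by
            gcongr
            exact (h.gam_le ⟨by linarith, y6⟩).trans (by gcongr)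
        _ = 4 * η := by field_simp; norm_num
        _ ≤ 1 / 25 := by linarith [h.le]
    have g2 : 192 * (η * wt a b y / ‖y‖) * ‖v‖ ≤ 1536 * (η * wt a b x) :=
      calc _ ≤ 192 * (η * (2 * wt a b x) / (‖x‖ / 2)) * (2 * ‖x‖) := by
            gcongr
            exact wt_cmp ha.le (by linarith [hρ.1, hρ.2]) hr (by linarith) (by linarith)
        _ = _ := by field_simp; ring
    rw [e]
    have g3 := norm_mul_le (D y) (Gam G y v)
    have g4 := mul_le_mul_of_nonneg_left g1 (norm_nonneg (D y))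
    refine (norm_add_le _ _).trans (add_le_add (by linarith) ((norm_sub_le _ _).trans ?_))
    linarith [f1.par v, f2.par v]
  obtain ⟨z, hz, z1, z2, z3⟩ := exists_perp3 (‖x‖ • e0) x e1 hr.le
  have n0 := norm_re0 hr.le
  have s1 := diff_seg (D := D) (p := ‖x‖ • e0) (x := z) (by positivity) fun t ht =>
    key _ _ (belt_seg hr.le (by norm_num) n0 hz z1 z3 (by
      rw [inner_smul_right, real_inner_comm, inner_e0_e1]; simp) ht)
      ((norm_sub_le _ _).trans (by linarith))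
  have s2 := diff_seg (D := D) (p := z) (x := x) (by positivity) fun t ht =>
    key _ _ (by
      rw [show z + t • (x - z) = x + (1 - t) • (z - x) by module]
      exact belt_seg hr.le (by norm_num) rfl hz z2 z3 hb ⟨by linarith [ht.2], by linarith [ht.1]⟩)
      ((norm_sub_le _ _).trans (by linarith))
  have e0 : D (‖x‖ • e0) = 0 := by
    simp only [hD]
    rw [h.fr2_ray norm_e1 inner_e0_e1 (by linarith [hx.1]) hx.2, h.fr2_ray (q := -e1)
      (by rw [norm_neg, norm_e1]) (by rw [inner_neg_right, inner_e0_e1, neg_zero])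
      (by linarith [hx.1]) hx.2, sub_self]
  rw [e0, norm_zero] at s1
  change ‖D x‖ ≤ _
  linarith

/-- the cutoff -/
def chi (x : E4) : ℝ := Real.smoothTransition (2 * (⟪e1, x⟫ * ‖x‖⁻¹) + 1 / 2)

theorem contDiffAt_chi {x : E4} (hx : x ≠ 0) : ContDiffAt ℝ ∞ chi x :=
  Real.smoothTransition.contDiffAt.comp x ((contDiffAt_const.mul
    ((contDiffAt_const.inner ℝ contDiffAt_id).mul
      ((contDiffAt_norm ℝ hx).inv (norm_ne_zero_iff.2 hx)))).add contDiffAt_const)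

theorem chi_one {x : E4} (hx : x ≠ 0) (h : 1 / 4 * ‖x‖ ≤ ⟪e1, x⟫) : chi x = 1 := by
  refine Real.smoothTransition.one_of_one_le ?_
  have := (le_div_iff₀ (norm_pos_iff.2 hx)).2 h
  rw [div_eq_mul_inv ⟪e1, x⟫] at this
  linarith

theorem chi_zero {x : E4} (hx : x ≠ 0) (h : ⟪e1, x⟫ ≤ -(1 / 4) * ‖x‖) : chi x = 0 := by
  refine Real.smoothTransition.zero_of_nonpos ?_
  have := (div_le_iff₀ (norm_pos_iff.2 hx)).2 h
  rw [div_eq_mul_inv ⟪e1, x⟫] at this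
  linarith

theorem exists_dchi : ∃ C : ℝ, 0 ≤ C ∧ ∀ x : E4, x ≠ 0 → |⟪e1, x⟫| ≤ 1 / 4 * ‖x‖ → ∀ v,
    |fderiv ℝ chi x v| ≤ C / ‖x‖ * ‖v‖ := by
  have sm : ContDiff ℝ 1 Real.smoothTransition := Real.smoothTransition.contDiff
  obtain ⟨C, hC⟩ := (isCompact_Icc (a := (0 : ℝ)) (b := 1)).exists_bound_of_continuousOn
    (sm.continuous_deriv le_rfl).continuousOn
  have C0 : 0 ≤ C := (norm_nonneg _).trans (hC 0 ⟨le_rfl, zero_le_one⟩)
  refine ⟨C * 4, by positivity, fun x hx hb v => ?_⟩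
  have h0 := norm_pos_iff.2 hx
  have hn : HasFDerivAt (fun y : E4 => ‖y‖) (fderiv ℝ (fun y : E4 => ‖y‖) x) x :=
    ((contDiffAt_norm (n := 1) ℝ hx).differentiableAt one_ne_zero).hasFDerivAt
  have hi : HasFDerivAt (fun y : E4 => ⟪e1, y⟫) (innerSL ℝ e1) x := (innerSL ℝ e1).hasFDerivAt
  have hs := ((hi.mul ((hasDerivAt_inv h0.ne').comp_hasFDerivAt x hn)).const_mul 2).add_const (1 / 2)
  have hc := (HasDerivAt.comp_hasFDerivAt (h₂ := Real.smoothTransition) x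
    (sm.differentiable one_ne_zero _).hasDerivAt hs).fderiv
  have e : fderiv ℝ chi x v = deriv Real.smoothTransition (2 * (⟪e1, x⟫ * ‖x‖⁻¹) + 1 / 2) *
      (2 * (⟪e1, x⟫ * (-(‖x‖ ^ 2)⁻¹ * fderiv ℝ (fun y : E4 => ‖y‖) x v) + ‖x‖⁻¹ * ⟪e1, v⟫)) :=
    congrArg (fun L : E4 →L[ℝ] ℝ => L v) hc
  have b1 : |⟪e1, x⟫ * ‖x‖⁻¹| ≤ 1 / 4 := by
    rw [abs_mul, abs_inv, abs_norm, ← div_eq_mul_inv, div_le_iff₀ h0]; exact hb
  have b2 := hC (2 * (⟪e1, x⟫ * ‖x‖⁻¹) + 1 / 2)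
    ⟨by linarith [(abs_le.1 b1).1], by linarith [(abs_le.1 b1).2]⟩
  have b3 : |⟪e1, v⟫| ≤ ‖v‖ := by simpa [norm_e1] using abs_real_inner_le_norm e1 v
  have b4 := abs_fderiv_norm x v
  rw [e, abs_mul, abs_mul, abs_two]
  calc _ ≤ C * (2 * (‖x‖ * ((‖x‖ ^ 2)⁻¹ * ‖v‖) + ‖x‖⁻¹ * ‖v‖)) := by
        gcongr
        · exact b2
        · refine (abs_add_le _ _).trans ?_
          rw [abs_mul, abs_mul, abs_mul, abs_neg, abs_inv, abs_inv, abs_pow, abs_norm]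
          gcongr
          linarith
    _ = _ := by field_simp; ring

/-- the glued frame -/
def fr3 (G : MetricField 4) (ρ : ℝ) (x : E4) : E4 →L[ℝ] E4 :=
  chi x • fr2 G ρ e1 x + (1 - chi x) • fr2 G ρ (-e1) x

theorem HY.fr3 (h : HY G Γ a b η) (hρ : ρ ∈ Ioo a b) (hη : 368640 * η ≤ 1) {C : ℝ} (C0 : 0 ≤ C)
    (hC : ∀ x : E4, x ≠ 0 → |⟪e1, x⟫| ≤ 1 / 4 * ‖x‖ → ∀ v, |fderiv ℝ chi x v| ≤ C / ‖x‖ * ‖v‖)
    {x : E4} (hx : x ∈ shell (4 * a) b) :
    ContDiffAt ℝ ∞ (fr3 G ρ) x ∧ (∀ v, ‖fderiv ℝ (fr3 G ρ) x v - fr3 G ρ x * Gam G x v‖ ≤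
      (192 + C * 18432) * (η * wt a b x / ‖x‖) * ‖v‖) ∧
      ∀ u, ‖u‖ ≤ 2 * ‖fr3 G ρ x u‖ ∧ ‖fr3 G ρ x u‖ ≤ 2 * ‖u‖ := by
  have ha := h.a_pos
  have h0 := h.pos
  have hw := wt_nonneg a b x
  have hr : 0 < ‖x‖ := by linarith [hx.1]
  have x0 : x ≠ 0 := norm_pos_iff.1 hr
  have x1 : 2 * a < ‖x‖ := by linarith [hx.1]
  have x2 : x ∈ shell a b := ⟨by linarith, hx.2⟩
  have hm := re0_mem ha hρ
  have loc : ∀ φ, H.fr3 G ρ =ᶠ[𝓝 x] φ → FrA G (ρ • e0) id φ x (192 * (η * wt a b x / ‖x‖)) →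
      ContDiffAt ℝ ∞ (H.fr3 G ρ) x ∧ (∀ v, ‖fderiv ℝ (H.fr3 G ρ) x v - H.fr3 G ρ x * Gam G x v‖ ≤
      (192 + C * 18432) * (η * wt a b x / ‖x‖) * ‖v‖) ∧
      ∀ u, ‖u‖ ≤ 2 * ‖H.fr3 G ρ x u‖ ∧ ‖H.fr3 G ρ x u‖ ≤ 2 * ‖u‖ := fun φ e f => by
    refine ⟨f.sm.congr_of_eventuallyEq e, fun v => ?_, fun u => ?_⟩
    · rw [e.fderiv_eq, e.eq_of_nhds]
      refine (f.par v).trans ?_
      gcongr
      nlinarith
    · rw [e.eq_of_nhds]
      have := f.iso.bd h.toRM h.le hm x2 u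
      constructor <;> linarith [this.1, this.2, norm_nonneg u]
  have ci : Continuous fun y : E4 => ⟪e1, y⟫ := by fun_prop
  rcases lt_or_ge (1 / 4 * ‖x‖) ⟪e1, x⟫ with c1 | c1
  · refine loc _ ?_ (h.frp hρ x1 hx.2 (by linarith))
    filter_upwards [(isOpen_lt (f := fun y : E4 => 1 / 4 * ‖y‖) (by fun_prop) ci).mem_nhds c1,
      isOpen_ne.mem_nhds x0] with y y1 y2
    ext1 u
    simp [H.fr3, chi_one y2 (le_of_lt y1)]
  rcases lt_or_ge ⟪e1, x⟫ (-(1 / 4) * ‖x‖) with c2 | c2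
  · refine loc _ ?_ (h.frm hρ x1 hx.2 (by linarith))
    filter_upwards [(isOpen_lt (g := fun y : E4 => -(1 / 4) * ‖y‖) ci (by fun_prop)).mem_nhds c2,
      isOpen_ne.mem_nhds x0] with y y1 y2
    ext1 u
    simp [H.fr3, chi_zero y2 (le_of_lt y1)]
  have hb : |⟪e1, x⟫| ≤ 1 / 4 * ‖x‖ := abs_le.2 ⟨by linarith, c1⟩
  have f1 := h.frp hρ x1 hx.2 (by linarith)
  have f2 := h.frm hρ x1 hx.2 (by linarith)
  have bl := h.belt hρ hx hb
  have sc := contDiffAt_chi x0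
  have k0 : 0 ≤ chi x := Real.smoothTransition.nonneg _
  have k1 : 0 ≤ 1 - chi x := sub_nonneg.2 (Real.smoothTransition.le_one _)
  refine ⟨(sc.smul f1.sm).add ((contDiffAt_const.sub sc).smul f2.sm), fun v => ?_, fun u => ?_⟩
  · have d0 := (sc.differentiableAt (by simp)).hasFDerivAt
    have d1 := (f1.sm.differentiableAt (by simp)).hasFDerivAt
    have d2 := (f2.sm.differentiableAt (by simp)).hasFDerivAt
    have d := ((d0.smul d1).add ((d0.const_sub 1).smul d2)).fderiv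
    have e : fderiv ℝ (H.fr3 G ρ) x v = (chi x • fderiv ℝ (fr2 G ρ e1) x v +
        fderiv ℝ chi x v • fr2 G ρ e1 x) + ((1 - chi x) • fderiv ℝ (fr2 G ρ (-e1)) x v +
          (-fderiv ℝ chi x v) • fr2 G ρ (-e1) x) :=
      congrArg (fun L : E4 →L[ℝ] E4 →L[ℝ] E4 => L v) d
    have e2 : fderiv ℝ (H.fr3 G ρ) x v - H.fr3 G ρ x * Gam G x v =
        chi x • (fderiv ℝ (fr2 G ρ e1) x v - fr2 G ρ e1 x * Gam G x v) +
        (1 - chi x) • (fderiv ℝ (fr2 G ρ (-e1)) x v - fr2 G ρ (-e1) x * Gam G x v) +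
        fderiv ℝ chi x v • (fr2 G ρ e1 x - fr2 G ρ (-e1) x) := by
      rw [e, H.fr3]
      ext1 u
      simp only [add_apply, sub_apply, smul_apply, mul_apply_eq_comp]
      module
    rw [e2]
    refine norm_add₃_le.trans ?_
    rw [norm_smul, norm_smul, norm_smul, Real.norm_of_nonneg k0, Real.norm_of_nonneg k1,
      Real.norm_eq_abs]
    calc _ ≤ chi x * (192 * (η * wt a b x / ‖x‖) * ‖v‖) +
          (1 - chi x) * (192 * (η * wt a b x / ‖x‖) * ‖v‖) +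
          C / ‖x‖ * ‖v‖ * (18432 * (η * wt a b x)) := by
          gcongr
          exacts [f1.par v, f2.par v, hC x x0 hb v]
      _ = _ := by ring
  · have e : H.fr3 G ρ x u =
        fr2 G ρ (-e1) x u + chi x • (fr2 G ρ e1 x - fr2 G ρ (-e1) x) u := by
      simp only [H.fr3, add_apply, smul_apply, sub_apply]; module
    have n1 : ‖chi x • (fr2 G ρ e1 x - fr2 G ρ (-e1) x) u‖ ≤ 1 / 10 * ‖u‖ := by
      rw [norm_smul, Real.norm_of_nonneg k0]
      calc _ ≤ 1 * (18432 * (η * 2) * ‖u‖) := by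
            gcongr
            · linarith
            · refine (ContinuousLinearMap.le_opNorm _ _).trans ?_
              gcongr
              exact bl.trans (by gcongr; exact wt_le_two ha x2)
        _ ≤ _ := by nlinarith [norm_nonneg u]
    have n2 := f2.iso.bd h.toRM h.le hm x2 u
    have n4 : ‖H.fr3 G ρ x u - fr2 G ρ (-e1) x u‖ ≤ 1 / 10 * ‖u‖ := by
      rwa [e, add_sub_cancel_left]
    have n3 := abs_le.1 ((abs_norm_sub_norm_le _ _).trans n4)
    constructor <;> linarith [n2.1, n2.2, n3.1, n3.2, norm_nonneg u]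

theorem fra : FRA := by
  intro η hη
  obtain ⟨C, C0, hC⟩ := exists_dchi
  obtain ⟨η0, h0, h1, h2⟩ : ∃ η0 : ℝ, 0 < η0 ∧ 368640 * η0 ≤ 1 ∧ (192 + C * 18432) * η0 ≤ η := by
    refine ⟨min (1 / 368640) (η / (192 + C * 18432)), by positivity,
      by linarith [min_le_left (1 / 368640) (η / (192 + C * 18432))], ?_⟩
    rw [mul_comm, ← le_div_iff₀ (by positivity)]; exact min_le_right _ _
  have h3 : η0 ≤ η := by nlinarith
  refine ⟨η0, h0, fun G Γ a b hR hab hc => ?_⟩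
  have h : HY G Γ a b η0 := ⟨hR, h0, by linarith, hc⟩
  have ha := hR.a_pos
  have r1 : 4 * a < √(4 * a * b) := Real.lt_sqrt_of_sq_lt (by nlinarith)
  have r2 : √(4 * a * b) < b := (Real.sqrt_lt' (by linarith)).2 (by nlinarith)
  have hρ : √(4 * a * b) ∈ Ioo a b := ⟨by linarith, r2⟩
  have s : shell (4 * a) b ⊆ shell a b := fun x hx => ⟨by linarith [hx.1], hx.2⟩
  have k := fun x hx => h.fr3 hρ h1 C0 hC (x := x) hx
  refine ⟨fr3 G √(4 * a * b), ⟨hR.fin, by linarith, ⟨?_, fun i j => (hR.riem.contDiffOn i j).mono s,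
    fun x hx => hR.riem.posDef x (s hx)⟩, fun γ hγ x hx => hR.inv γ hγ x (s hx),
    fun x hx u v => (hR.near x (s hx) u v).trans (by gcongr),
    fun x hx => (hR.gam x (s hx)).trans h3⟩, fun x hx => (k x hx).1.contDiffWithinAt,
    fun x hx u v => ?_, fun x hx => (k x hx).2.2, √(4 * a * b) • e0,
    norm_re0 (Real.sqrt_nonneg _), ?_⟩
  · exact (isOpen_lt continuous_const continuous_norm).inter
      (isOpen_lt continuous_norm continuous_const)
  · have hr : 0 < ‖x‖ := ha.trans (s hx).1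
    have hw := wt_nonneg a b x
    have := (fderiv ℝ (fr3 G √(4 * a * b)) x u - fr3 G √(4 * a * b) x * Gam G x u).le_opNorm v
    calc _ ≤ (192 + C * 18432) * (η0 * wt a b x / ‖x‖) * ‖u‖ * ‖v‖ * ‖x‖ := by
          gcongr
          exact this.trans (by gcongr; exact (k x hx).2.1 u)
      _ = (192 + C * 18432) * η0 * wt a b x * ‖u‖ * ‖v‖ := by field_simp
      _ ≤ _ := by
          gcongr
          exact wt_mono x (by linarith) (by linarith) le_rfl
  · rw [fr3, h.fr2_ray norm_e1 inner_e0_e1 (by linarith) r2, h.fr2_ray (q := -e1)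
      (by rw [norm_neg, norm_e1]) (by rw [inner_neg_right, inner_e0_e1, neg_zero])
      (by linarith) r2, h.fr0_mid hρ]
    module

end Crest.Agent.N207.H

end
end

-- ▼ part N207/H/Frc
section

/-!
# Row 207, block H (helper26): `FRC`, the radial primitive of an almost closed coframe
-/

set_option autoImplicit false
set_option linter.unusedSectionVars false
set_option maxSynthPendingDepth 3

open scoped ContDiff Topology Interval
open Set Filter Metric MeasureTheory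
open Crest.GeometryTopology.CoordMetric
open Crest.Agent.R202.Tens Crest.Agent.N207.Sk

noncomputable section

namespace Crest.Agent.N207.H

/-- differentiation under the integral sign -/
theorem hasFDerivAt_int01 {F : ℝ → E4 → E4} {F' : ℝ → E4 → E4 →L[ℝ] E4} {U : Set E4}
    (hU : IsOpen U) (hF : ∀ t ∈ Icc (0 : ℝ) 1, ∀ x ∈ U, HasFDerivAt (F t) (F' t x) x)
    (hc : ∀ x ∈ U, ContinuousOn (fun t => F t x) (Icc 0 1))
    (hc' : ContinuousOn (fun q : ℝ × E4 => F' q.1 q.2) (Icc 0 1 ×ˢ U)) {y : E4} (hy : y ∈ U) :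
    HasFDerivAt (fun x => ∫ t in (0 : ℝ)..1, F t x) (∫ t in (0 : ℝ)..1, F' t y) y := by
  obtain ⟨ε, hε, hb⟩ := Metric.nhds_basis_closedBall.mem_iff.1 (hU.mem_nhds hy)
  obtain ⟨C, hC⟩ := (isCompact_Icc.prod (isCompact_closedBall y ε)).exists_bound_of_continuousOn
    (hc'.mono (prod_mono (Subset.refl (Icc (0 : ℝ) 1)) hb))
  have hsub : Ι (0 : ℝ) 1 ⊆ Icc 0 1 := by
    rw [uIoc_of_le zero_le_one]; exact Ioc_subset_Icc_self
  have hs : ContinuousOn (fun t => F' t y) (Icc 0 1) :=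
    hc'.comp (f := fun s : ℝ => (s, y)) (by fun_prop) fun _ hs => ⟨hs, hy⟩
  exact intervalIntegral.hasFDerivAt_integral_of_dominated_of_fderiv_le (𝕜 := ℝ)
    (μ := volume) (a := 0) (b := 1) (F := fun z s => F s z)
    (F' := fun z s => F' s z) (bound := fun _ => C) (Metric.closedBall_mem_nhds y hε)
    (by
      filter_upwards [hU.mem_nhds hy] with z hz
      exact ((hc z hz).mono hsub).aestronglyMeasurable measurableSet_uIoc)
    ((hc y hy).intervalIntegrable_of_Icc zero_le_one)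
    ((hs.mono hsub).aestronglyMeasurable measurableSet_uIoc)
    (Eventually.of_forall fun s hs z hz => hC (s, z) ⟨hsub hs, hz⟩)
    intervalIntegrable_const
    (Eventually.of_forall fun s hs z hz => hF s (hsub hs) z (hb hz))

/-- the primitive along the segments from `p x` to `x` -/
def prim (θ : E4 → E4 →L[ℝ] E4) (p : E4 → E4) (x : E4) : E4 :=
  θ (p x) (p x) + ∫ t in (0 : ℝ)..1, θ (p x + t • (x - p x)) (x - p x)

theorem prim_deriv {θ : E4 → E4 →L[ℝ] E4} {p : E4 → E4} {S U : Set E4} (hS : IsOpen S)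
    (hθ : ContDiffOn ℝ ∞ θ S) (hU : IsOpen U) (hp : ContDiffOn ℝ ∞ p U)
    (hm : ∀ t ∈ Icc (0 : ℝ) 1, ∀ x ∈ U, p x + t • (x - p x) ∈ S) {x : E4} (hx : x ∈ U) :
    DifferentiableAt ℝ (prim θ p) x ∧ ∀ v, fderiv ℝ (prim θ p) x v - θ x v =
      fderiv ℝ θ (p x) (fderiv ℝ p x v) (p x) + ∫ t in (0 : ℝ)..1,
        (fderiv ℝ θ (p x + t • (x - p x)) (fderiv ℝ p x v + t • (v - fderiv ℝ p x v)) (x - p x)
          - fderiv ℝ θ (p x + t • (x - p x)) (x - p x)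
            (fderiv ℝ p x v + t • (v - fderiv ℝ p x v))) := by
  have dθ : ∀ y ∈ S, HasFDerivAt θ (fderiv ℝ θ y) y := fun y hy =>
    ((hθ.contDiffAt (hS.mem_nhds hy)).differentiableAt (by simp)).hasFDerivAt
  have dp : ∀ y ∈ U, HasFDerivAt p (fderiv ℝ p y) y := fun y hy =>
    ((hp.contDiffAt (hU.mem_nhds hy)).differentiableAt (by simp)).hasFDerivAt
  have cθ := hθ.continuousOn
  have cθ' : ContinuousOn (fderiv ℝ θ) S := hθ.continuousOn_fderiv_of_isOpen hS (by simp)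
  have cp := hp.continuousOn
  have cp' : ContinuousOn (fderiv ℝ p) U := hp.continuousOn_fderiv_of_isOpen hU (by simp)
  set I : E4 →L[ℝ] E4 := ContinuousLinearMap.id ℝ E4 with hI
  set F' : ℝ → E4 → E4 →L[ℝ] E4 := fun t z =>
    (θ (p z + t • (z - p z))).comp (I - fderiv ℝ p z) +
      (ContinuousLinearMap.apply ℝ E4 (z - p z)).comp
        ((fderiv ℝ θ (p z + t • (z - p z))).comp (fderiv ℝ p z + t • (I - fderiv ℝ p z))) with hF'
  have h1 : ∀ t ∈ Icc (0 : ℝ) 1, ∀ z ∈ U,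
      HasFDerivAt (fun z => θ (p z + t • (z - p z)) (z - p z)) (F' t z) z := by
    intro t ht z hz
    have a1 : HasFDerivAt (fun z => z - p z) (I - fderiv ℝ p z) z :=
      (hasFDerivAt_id z).sub (dp z hz)
    have a2 : HasFDerivAt (fun z => p z + t • (z - p z))
        (fderiv ℝ p z + t • (I - fderiv ℝ p z)) z := (dp z hz).add (a1.const_smul t)
    have a3 := (HasFDerivAt.comp (f := fun z => p z + t • (z - p z)) z (dθ _ (hm t ht z hz))
      a2).clm_apply a1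
    exact a3.congr_fderiv (by ext v; rfl)
  have q1 : ContinuousOn (fun q : ℝ × E4 => p q.2) (Icc 0 1 ×ˢ U) :=
    cp.comp continuousOn_snd fun q hq => hq.2
  have q2 : ContinuousOn (fun q : ℝ × E4 => fderiv ℝ p q.2) (Icc 0 1 ×ˢ U) :=
    cp'.comp continuousOn_snd fun q hq => hq.2
  have q3 : ContinuousOn (fun q : ℝ × E4 => p q.2 + q.1 • (q.2 - p q.2)) (Icc 0 1 ×ˢ U) :=
    q1.add (continuousOn_fst.smul (continuousOn_snd.sub q1))
  have q4 : ContinuousOn (fun q : ℝ × E4 => θ (p q.2 + q.1 • (q.2 - p q.2))) (Icc 0 1 ×ˢ U) :=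
    cθ.comp q3 fun q hq => hm _ hq.1 _ hq.2
  have q5 : ContinuousOn (fun q : ℝ × E4 => fderiv ℝ θ (p q.2 + q.1 • (q.2 - p q.2)))
      (Icc 0 1 ×ˢ U) := cθ'.comp q3 fun q hq => hm _ hq.1 _ hq.2
  have q6 : ContinuousOn (fun q : ℝ × E4 => F' q.1 q.2) (Icc 0 1 ×ˢ U) :=
    (q4.clm_comp (continuousOn_const.sub q2)).add
      (((ContinuousLinearMap.apply ℝ E4).continuous.comp_continuousOn
        (continuousOn_snd.sub q1)).clm_comp
        (q5.clm_comp (q2.add (continuousOn_fst.smul (continuousOn_const.sub q2)))))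
  have sl : ∀ {Z : Type} [TopologicalSpace Z] {f : ℝ × E4 → Z}, ContinuousOn f (Icc 0 1 ×ˢ U) →
      ∀ z ∈ U, ContinuousOn (fun t : ℝ => f (t, z)) (Icc 0 1) := fun hf z hz =>
    hf.comp (f := fun s : ℝ => (s, z)) (by fun_prop) fun _ hs => ⟨hs, hz⟩
  have h2 := hasFDerivAt_int01 hU h1
    (fun z hz => (sl q4 z hz).clm_apply continuousOn_const) q6 hx
  have hpS : p x ∈ S := by simpa using hm 0 ⟨le_rfl, zero_le_one⟩ x hx
  have h3 := ((HasFDerivAt.comp x (dθ _ hpS) (dp x hx)).clm_apply (dp x hx)).add h2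
  have h4 : HasFDerivAt (prim θ p) _ x := h3
  refine ⟨h4.differentiableAt, fun v => ?_⟩
  rw [h4.fderiv]
  set w := fderiv ℝ p x v with hw
  have i1 : IntervalIntegrable (fun t => F' t x) volume 0 1 :=
    (sl q6 x hx).intervalIntegrable_of_Icc zero_le_one
  set g' : ℝ → E4 := fun t => fderiv ℝ θ (p x + t • (x - p x)) (x - p x) (w + t • (v - w))
    + θ (p x + t • (x - p x)) (v - w) with hg'
  have c1 : ContinuousOn (fun t : ℝ => w + t • (v - w)) (Icc 0 1) := by fun_prop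
  have i2 : IntervalIntegrable g' volume 0 1 :=
    ((((sl q5 x hx).clm_apply continuousOn_const).clm_apply c1).add
      ((sl q4 x hx).clm_apply continuousOn_const)).intervalIntegrable_of_Icc zero_le_one
  have i3 : IntervalIntegrable (fun t => F' t x v) volume 0 1 :=
    ((sl q6 x hx).clm_apply continuousOn_const).intervalIntegrable_of_Icc zero_le_one
  have h5 : ∫ t in (0 : ℝ)..1, g' t = θ x v - θ (p x) w := by
    have a1 := intervalIntegral.integral_eq_sub_of_hasDerivAt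
      (f := fun t : ℝ => θ (p x + t • (x - p x)) (w + t • (v - w))) (f' := g') (a := 0) (b := 1)
      (fun t ht => by
        rw [uIcc_of_le zero_le_one] at ht
        have b1 : HasDerivAt (fun t : ℝ => p x + t • (x - p x)) (x - p x) t := by
          simpa using ((hasDerivAt_id t).smul_const (x - p x)).const_add (p x)
        have b2 : HasDerivAt (fun t : ℝ => w + t • (v - w)) (v - w) t := by
          simpa using ((hasDerivAt_id t).smul_const (v - w)).const_add w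
        have b3 : HasDerivAt (fun t : ℝ => θ (p x + t • (x - p x)))
            (fderiv ℝ θ (p x + t • (x - p x)) (x - p x)) t :=
          (dθ _ (hm t ht x hx)).comp_hasDerivAt t b1
        exact b3.clm_apply b2) i2
    rw [a1]
    simp
  have h6 : (∫ t in (0 : ℝ)..1, (fderiv ℝ θ (p x + t • (x - p x)) (w + t • (v - w)) (x - p x)
      - fderiv ℝ θ (p x + t • (x - p x)) (x - p x) (w + t • (v - w))))
      = (∫ t in (0 : ℝ)..1, F' t x v) - ∫ t in (0 : ℝ)..1, g' t := by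
    rw [← intervalIntegral.integral_sub i3 i2]
    refine intervalIntegral.integral_congr fun t _ => ?_
    have e : F' t x v = θ (p x + t • (x - p x)) (v - w)
        + fderiv ℝ θ (p x + t • (x - p x)) (w + t • (v - w)) (x - p x) := rfl
    simp only [e, hg']
    abel
  rw [h6, h5, add_apply, ContinuousLinearMap.intervalIntegral_apply i1]
  have e : ((θ ∘ p) x ∘L fderiv ℝ p x + (fderiv ℝ θ (p x) ∘L fderiv ℝ p x).flip (p x)) v
      = θ (p x) w + fderiv ℝ θ (p x) w (p x) := rfl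
  rw [e]
  abel

/-- the radial projection to the sphere of radius `ρ` -/
def rp (ρ : ℝ) (x : E4) : E4 := (ρ * ‖x‖⁻¹) • x

theorem contDiffOn_rp (ρ : ℝ) : ContDiffOn ℝ ∞ (rp ρ) {x | x ≠ 0} := fun x hx =>
  ((contDiffAt_const.mul ((contDiffAt_id.norm ℝ hx).inv (norm_ne_zero_iff.2 hx))).smul
    contDiffAt_id).contDiffWithinAt

theorem norm_rp {ρ : ℝ} (hρ : 0 ≤ ρ) {x : E4} (hx : x ≠ 0) : ‖rp ρ x‖ = ρ := by
  have := norm_pos_iff.2 hx
  rw [rp, norm_smul, Real.norm_of_nonneg (by positivity)]; field_simp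

theorem norm_fderiv_rp {ρ : ℝ} (hρ : 0 ≤ ρ) {x : E4} (hx : x ≠ 0) (v : E4) :
    ‖fderiv ℝ (rp ρ) x v‖ ≤ 2 * (ρ / ‖x‖) * ‖v‖ := by
  have h0 := norm_pos_iff.2 hx
  have h1 : DifferentiableAt ℝ (fun y : E4 => ‖y‖) x := differentiableAt_id.norm ℝ hx
  have h2 : ‖fderiv ℝ (fun y : E4 => ‖y‖) x‖ ≤ 1 := by
    simpa using norm_fderiv_le_of_lipschitz ℝ (x₀ := x) (lipschitzWith_one_norm (E := E4))
  have h3 := (((hasDerivAt_inv h0.ne').comp_hasFDerivAt x h1.hasFDerivAt).const_mul ρ).smul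
    (hasFDerivAt_id x)
  have h4 : HasFDerivAt (rp ρ) _ x := h3
  rw [h4.fderiv]
  have h5 : |fderiv ℝ (fun y : E4 => ‖y‖) x v| ≤ ‖v‖ := by
    have := (fderiv ℝ (fun y : E4 => ‖y‖) x).le_opNorm v
    rw [Real.norm_eq_abs] at this
    nlinarith [norm_nonneg v]
  show ‖(ρ * ‖x‖⁻¹) • v + (ρ * (-(‖x‖ ^ 2)⁻¹ * fderiv ℝ (fun y : E4 => ‖y‖) x v)) • x‖ ≤ _
  refine (norm_add_le _ _).trans ?_
  rw [norm_smul, norm_smul, Real.norm_of_nonneg (by positivity), Real.norm_eq_abs, abs_mul,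
    abs_mul, abs_neg, abs_of_nonneg hρ, abs_of_pos (by positivity)]
  have h6 : ρ * ((‖x‖ ^ 2)⁻¹ * |fderiv ℝ (fun y : E4 => ‖y‖) x v|) * ‖x‖
      ≤ ρ * ((‖x‖ ^ 2)⁻¹ * ‖v‖) * ‖x‖ := by gcongr
  refine (add_le_add le_rfl h6).trans (le_of_eq ?_)
  field_simp; ring

theorem norm_seg_rp {ρ : ℝ} (hρ : 0 ≤ ρ) {x : E4} (hx : x ≠ 0) {t : ℝ} (ht : t ∈ Icc (0 : ℝ) 1) :
    ‖rp ρ x + t • (x - rp ρ x)‖ = (1 - t) * ρ + t * ‖x‖ := by
  have h0 := norm_pos_iff.2 hx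
  have h1 : 0 ≤ 1 - t := by linarith [ht.2]
  have h2 := ht.1
  have e : rp ρ x + t • (x - rp ρ x) = ((1 - t) * (ρ * ‖x‖⁻¹) + t) • x := by
    unfold rp; module
  rw [e, norm_smul, Real.norm_of_nonneg (by positivity)]; field_simp

theorem norm_sub_rp {ρ : ℝ} {x : E4} (hx : x ≠ 0) (h : ρ ≤ ‖x‖) :
    ‖x - rp ρ x‖ = ‖x‖ - ρ := by
  have h0 := norm_pos_iff.2 hx
  have e : x - rp ρ x = (1 - ρ * ‖x‖⁻¹) • x := by unfold rp; module
  have h1 : ρ * ‖x‖⁻¹ ≤ 1 := by rw [← div_eq_mul_inv, div_le_one h0]; exact h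
  rw [e, norm_smul, Real.norm_of_nonneg (by linarith)]; field_simp

section CE

variable {G : MetricField 4} {Γ : Subgroup (E4 ≃ₗᵢ[ℝ] E4)} {a b η : ℝ} {θ : E4 → E4 →L[ℝ] E4}

theorem CE.norm_le (h : CE G Γ a b η θ) (h0 : 0 ≤ η) (h1 : η ≤ 1) {x : E4} (hx : x ∈ shell a b)
    (u : E4) : ‖θ x u‖ ≤ 2 * ‖u‖ := by
  have a1 := (abs_le.1 (h.iso x hx u u)).2
  have a2 := (abs_le.1 (h.near x hx u u)).2
  rw [real_inner_self_eq_norm_sq] at a1 a2
  have a3 := wt_le_two h.a_pos hx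
  have a4 : η * wt a b x * ‖u‖ * ‖u‖ ≤ 1 * 2 * ‖u‖ * ‖u‖ := by
    have := wt_nonneg a b x
    gcongr
  have a5 : η * ‖u‖ * ‖u‖ ≤ 1 * ‖u‖ * ‖u‖ := by gcongr
  exact (pow_le_pow_iff_left₀ (norm_nonneg _) (by positivity) two_ne_zero).1 (by nlinarith)

theorem CE.dle (h : CE G Γ a b η θ) (h0 : 0 ≤ η) (h1 : η ≤ 1) {x : E4} (hx : x ∈ shell a b)
    (u v : E4) : ‖fderiv ℝ θ x u v‖ * ‖x‖ ≤ 4 * η * ‖u‖ * ‖v‖ := by
  have a1 := h.par x hx u v
  have a2 := h.norm_le h0 h1 hx (Gam G x u v)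
  have a3 : ‖Gam G x u v‖ ≤ ‖Gam G x‖ * ‖u‖ * ‖v‖ := (Gam G x).le_opNorm₂ u v
  have a4 := h.gam x hx
  have a5 : η * wt a b x * ‖u‖ * ‖v‖ ≤ η * 2 * ‖u‖ * ‖v‖ := by
    gcongr; exact wt_le_two h.a_pos hx
  have a6 : ‖fderiv ℝ θ x u v‖ ≤ ‖fderiv ℝ θ x u v - θ x (Gam G x u v)‖
      + 2 * (‖Gam G x‖ * ‖u‖ * ‖v‖) := by
    have := norm_add_le (fderiv ℝ θ x u v - θ x (Gam G x u v)) (θ x (Gam G x u v))
    rw [sub_add_cancel] at this
    linarith
  have a7 : ‖Gam G x‖ * ‖x‖ * (‖u‖ * ‖v‖) ≤ η * (‖u‖ * ‖v‖) := by gcongr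
  have a8 := mul_le_mul_of_nonneg_right a6 (norm_nonneg x)
  nlinarith

theorem CE.curl (h : CE G Γ a b η θ) {x : E4} (hx : x ∈ shell a b) (u v : E4) :
    ‖fderiv ℝ θ x u v - fderiv ℝ θ x v u‖ * ‖x‖ ≤ 2 * (η * wt a b x * ‖u‖ * ‖v‖) := by
  have a1 := h.par x hx u v
  have a2 := h.par x hx v u
  rw [R247.Bo84.Gam_symm h.riem hx v u] at a2
  have a3 := norm_sub_le (fderiv ℝ θ x u v - θ x (Gam G x u v))
    (fderiv ℝ θ x v u - θ x (Gam G x u v))
  rw [sub_sub_sub_cancel_right] at a3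
  have a4 := mul_le_mul_of_nonneg_right a3 (norm_nonneg x)
  nlinarith

theorem isOpen_shell' (a b : ℝ) : IsOpen (shell a b) :=
  (isOpen_lt continuous_const continuous_norm).inter (isOpen_lt continuous_norm continuous_const)

theorem CE.der (h : CE G Γ a b η θ) (hab : 100 * a ≤ b) (h0 : 0 ≤ η) (h1 : η ≤ 1) {x : E4}
    (hx : x ∈ shell a b) (hρ : 3 / 2 * a ≤ ‖x‖) :
    DifferentiableAt ℝ (prim θ (rp (3 / 2 * a))) x ∧
      ‖fderiv ℝ (prim θ (rp (3 / 2 * a))) x - θ x‖ ≤ 20 * η * wt a b x := by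
  have ha := h.a_pos
  set ρ := 3 / 2 * a with hρd
  have hρ0 : 0 < ρ := by positivity
  have hne : ∀ y ∈ shell a b, y ≠ 0 := fun y hy => norm_pos_iff.1 (ha.trans hy.1)
  have hm : ∀ t ∈ Icc (0 : ℝ) 1, ∀ y ∈ shell a b, rp ρ y + t • (y - rp ρ y) ∈ shell a b := by
    intro t ht y hy
    have e := norm_seg_rp hρ0.le (hne y hy) ht
    have b1 := hy.1
    have b2 := hy.2
    have b3 : min ρ ‖y‖ ≤ (1 - t) * ρ + t * ‖y‖ := by
      nlinarith [min_le_left ρ ‖y‖, min_le_right ρ ‖y‖, ht.1, ht.2]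
    have b4 : (1 - t) * ρ + t * ‖y‖ ≤ max ρ ‖y‖ := by
      nlinarith [le_max_left ρ ‖y‖, le_max_right ρ ‖y‖, ht.1, ht.2]
    exact ⟨by rw [e]; exact lt_of_lt_of_le (lt_min (by linarith) b1) b3,
      by rw [e]; exact lt_of_le_of_lt b4 (max_lt (by linarith) b2)⟩
  obtain ⟨d1, d2⟩ := prim_deriv (isOpen_shell' a b) h.sm (isOpen_shell' a b)
    ((contDiffOn_rp ρ).mono hne) hm hx
  have hw0 := wt_nonneg a b x
  refine ⟨d1, ContinuousLinearMap.opNorm_le_bound _ (by positivity) fun v => ?_⟩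
  rw [sub_apply, d2 v]
  have hx0 := hne x hx
  have hn : 0 < ‖x‖ := norm_pos_iff.2 hx0
  set w := fderiv ℝ (rp ρ) x v with hw
  have hwle : ‖w‖ ≤ 2 * (ρ / ‖x‖) * ‖v‖ := norm_fderiv_rp hρ0.le hx0 v
  have hpS : rp ρ x ∈ shell a b := by simpa using hm 0 ⟨le_rfl, zero_le_one⟩ x hx
  have t1 : ‖fderiv ℝ θ (rp ρ x) w (rp ρ x)‖ ≤ 12 * η * wt a b x * ‖v‖ := by
    have b1 := h.dle h0 h1 hpS w (rp ρ x)
    rw [norm_rp hρ0.le hx0] at b1
    have b2 : ‖fderiv ℝ θ (rp ρ x) w (rp ρ x)‖ ≤ 4 * η * ‖w‖ := le_of_mul_le_mul_right b1 hρ0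
    have b3 : a / ‖x‖ ≤ wt a b x := by
      have c1 : a / ‖x‖ ≤ 1 := (div_le_one hn).2 hx.1.le
      have c2 : a / ‖x‖ ≤ √(a / ‖x‖) := Real.le_sqrt_of_sq_le (by
        have : 0 ≤ a / ‖x‖ := by positivity
        nlinarith)
      unfold wt
      linarith [Real.sqrt_nonneg (‖x‖ / b)]
    have b4 : ‖w‖ ≤ 3 * wt a b x * ‖v‖ := by
      refine hwle.trans ?_
      have : 2 * (ρ / ‖x‖) = 3 * (a / ‖x‖) := by rw [hρd]; ring
      rw [this]; gcongr
    calc _ ≤ 4 * η * ‖w‖ := b2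
      _ ≤ 4 * η * (3 * wt a b x * ‖v‖) := by gcongr
      _ = _ := by ring
  have t2 := intervalIntegral.norm_integral_le_of_norm_le (μ := volume) (a := 0) (b := 1)
    (f := fun t : ℝ => fderiv ℝ θ (rp ρ x + t • (x - rp ρ x)) (w + t • (v - w)) (x - rp ρ x)
      - fderiv ℝ θ (rp ρ x + t • (x - rp ρ x)) (x - rp ρ x) (w + t • (v - w)))
    (g := fun t : ℝ => 4 * η * wt a b x * ‖v‖ * t ^ (-(1 / 2) : ℝ)) zero_le_one
    (Eventually.of_forall fun t ht => by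
      have ht' : t ∈ Icc (0 : ℝ) 1 := Ioc_subset_Icc_self ht
      have ht0 := ht.1
      have ht1 : 0 ≤ 1 - t := by linarith [ht.2]
      set c := rp ρ x + t • (x - rp ρ x) with hc
      have hcS : c ∈ shell a b := hm t ht' x hx
      have hcn : ‖c‖ = (1 - t) * ρ + t * ‖x‖ := norm_seg_rp hρ0.le hx0 ht'
      have hc0 : 0 < ‖c‖ := ha.trans hcS.1
      have b1 := h.curl hcS (w + t • (v - w)) (x - rp ρ x)
      have b2 : ‖w + t • (v - w)‖ ≤ 2 * (‖c‖ / ‖x‖) * ‖v‖ := by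
        have e : w + t • (v - w) = (1 - t) • w + t • v := by module
        rw [e]
        refine (norm_add_le _ _).trans ?_
        rw [norm_smul, norm_smul, Real.norm_of_nonneg ht1, Real.norm_of_nonneg ht0.le, hcn]
        have c1 : (1 - t) * ‖w‖ ≤ (1 - t) * (2 * (ρ / ‖x‖) * ‖v‖) := by gcongr
        have c2 : 2 * (((1 - t) * ρ + t * ‖x‖) / ‖x‖) * ‖v‖
            = (1 - t) * (2 * (ρ / ‖x‖) * ‖v‖) + 2 * (t * ‖v‖) := by field_simp
        have c3 : 0 ≤ t * ‖v‖ := by positivity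
        linarith
      have b3 : ‖x - rp ρ x‖ ≤ ‖x‖ := by rw [norm_sub_rp hx0 hρ]; linarith
      have hs : 0 < √t := Real.sqrt_pos.2 ht0
      have b4 : wt a b c ≤ wt a b x * (√t)⁻¹ := by
        have c1 : √(a / ‖c‖) ≤ √(a / ‖x‖) * (√t)⁻¹ := by
          rw [← Real.sqrt_inv, ← Real.sqrt_mul (by positivity)]
          refine Real.sqrt_le_sqrt ?_
          have : t * ‖x‖ ≤ ‖c‖ := by rw [hcn]; nlinarith
          calc a / ‖c‖ ≤ a / (t * ‖x‖) := by gcongr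
            _ = _ := by field_simp
        have c2 : √(‖c‖ / b) ≤ √(‖x‖ / b) := by
          have : ‖c‖ ≤ ‖x‖ := by rw [hcn]; nlinarith
          have hb : 0 < b := by linarith
          gcongr
        have c3 : 1 ≤ (√t)⁻¹ := (one_le_inv₀ hs).2 (Real.sqrt_le_one.2 ht.2)
        have c4 := le_mul_of_one_le_right (Real.sqrt_nonneg (‖x‖ / b)) c3
        unfold wt
        linarith [add_mul (√(a / ‖x‖)) (√(‖x‖ / b)) (√t)⁻¹]
      have b5 : t ^ (-(1 / 2) : ℝ) = (√t)⁻¹ := by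
        rw [Real.rpow_neg ht0.le, Real.sqrt_eq_rpow]
      have hwc := wt_nonneg a b c
      have b6 : η * wt a b c * ‖w + t • (v - w)‖ * ‖x - rp ρ x‖
          ≤ η * (wt a b x * (√t)⁻¹) * (2 * (‖c‖ / ‖x‖) * ‖v‖) * ‖x‖ := by gcongr
      refine le_of_mul_le_mul_right (b1.trans ?_) hc0
      rw [b5]
      refine (mul_le_mul_of_nonneg_left b6 zero_le_two).trans (le_of_eq ?_)
      field_simp; ring)
    ((intervalIntegral.intervalIntegrable_rpow' (by norm_num)).const_mul _)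
  rw [intervalIntegral.integral_const_mul, integral_rpow (Or.inl (by norm_num))] at t2
  have e : ((1 : ℝ) ^ (-(1 / 2) + 1 : ℝ) - (0 : ℝ) ^ (-(1 / 2) + 1 : ℝ)) / (-(1 / 2) + 1) = 2 := by
    norm_num
  rw [e] at t2
  refine (norm_add_le _ _).trans ?_
  linarith

end CE

theorem rp_iso (γ : E4 ≃ₗᵢ[ℝ] E4) (ρ : ℝ) (x : E4) : rp ρ (γ x) = γ (rp ρ x) := by
  rw [rp, rp, γ.norm_map, map_smul]

theorem frc : FRC := by
  intro η hη
  refine ⟨min 1 (η / 44), lt_min one_pos (by positivity), fun G Γ a b θ hab h => ?_⟩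
  set η0 := min 1 (η / 44) with hη0
  have h0 : 0 ≤ η0 := (lt_min one_pos (by positivity)).le
  have h1 : η0 ≤ 1 := min_le_left _ _
  have h2 : η0 ≤ η / 44 := min_le_right _ _
  have h3 : η0 ≤ η := by linarith
  have ha := h.a_pos
  have hb : 0 < b := by linarith
  have hsub : shell (2 * a) b ⊆ shell a b := fun x hx => ⟨by linarith [hx.1], hx.2⟩
  have hwt : ∀ x, η0 * wt a b x ≤ η * wt (2 * a) b x := fun x =>
    mul_le_mul h3 (wt_mono x (by linarith) hb le_rfl) (wt_nonneg _ _ _) hη.le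
  have dθ : ∀ y ∈ shell a b, DifferentiableAt ℝ θ y := fun y hy =>
    (h.sm.contDiffAt ((isOpen_shell' a b).mem_nhds hy)).differentiableAt (by simp)
  set ρ := 3 / 2 * a with hρ
  have hρ0 : 0 < ρ := by positivity
  have hseg : ∀ x ∈ shell (2 * a) b, ∀ t ∈ Icc (0 : ℝ) 1,
      rp ρ x + t • (x - rp ρ x) ∈ shell a b ∧ ρ ≤ ‖rp ρ x + t • (x - rp ρ x)‖ := by
    intro x hx t ht
    have e := norm_seg_rp hρ0.le (norm_pos_iff.1 (ha.trans (hsub hx).1)) ht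
    have b1 := hx.1
    have b2 := hx.2
    have b3 : ρ ≤ (1 - t) * ρ + t * ‖x‖ := by nlinarith [ht.1]
    have b4 : (1 - t) * ρ + t * ‖x‖ ≤ ‖x‖ := by nlinarith [ht.2]
    exact ⟨⟨by rw [e]; linarith, by rw [e]; linarith⟩, by rw [e]; exact b3⟩
  refine ⟨prim θ (rp ρ), ⟨h.fin, by positivity, ⟨isOpen_shell' _ _,
      fun i j => (h.riem.contDiffOn i j).mono hsub, fun x hx => h.riem.posDef x (hsub hx)⟩,
      fun γ hγ x hx => h.inv γ hγ x (hsub hx),
      fun x hx u v => (h.near x (hsub hx) u v).trans (by gcongr),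
      fun x hx => (h.gam x (hsub hx)).trans h3⟩,
    fun x hx => dθ x (hsub hx),
    fun x hx => (h.der hab h0 h1 (hsub hx) (by linarith [hx.1])).1,
    fun γ hγ x hx => h.eθ γ hγ x (hsub hx), fun γ hγ x hx => ?_,
    fun x hx u v => (h.par x (hsub hx) u v).trans (by have := hwt x; gcongr),
    fun x hx u v => (h.iso x (hsub hx) u v).trans (by have := hwt x; gcongr),
    fun x hx => (h.der hab h0 h1 (hsub hx) (by linarith [hx.1])).2.trans ?_, fun x hx => ?_⟩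
  · have hp : rp ρ x ∈ shell a b := by simpa using (hseg x hx 0 ⟨le_rfl, zero_le_one⟩).1
    have e1 := (γ.toContinuousLinearEquiv : E4 →L[ℝ] E4).intervalIntegral_comp_comm
      (f := fun t : ℝ => θ (rp ρ x + t • (x - rp ρ x)) (x - rp ρ x)) (μ := volume) (a := 0) (b := 1)
      (ContinuousOn.intervalIntegrable_of_Icc zero_le_one
        ((h.sm.continuousOn.comp (f := fun t : ℝ => rp ρ x + t • (x - rp ρ x)) (by fun_prop)
          fun t ht => (hseg x hx t ht).1).clm_apply continuousOn_const))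
    unfold prim
    rw [map_add, rp_iso, h.eθ γ hγ _ hp]
    congr 1
    refine Eq.trans (intervalIntegral.integral_congr fun t ht => ?_) e1
    rw [uIcc_of_le zero_le_one] at ht
    have e2 := h.eθ γ hγ _ (hseg x hx t ht).1 (x - rp ρ x)
    rw [map_add, map_smul, map_sub] at e2
    exact e2
  · have b1 := wt_mono x (show a ≤ 2 * a by linarith) hb le_rfl
    have b2 := wt_nonneg a b x
    calc 20 * η0 * wt a b x ≤ η * wt a b x := by gcongr; linarith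
      _ ≤ _ := by gcongr
  · have hx0 : x ≠ 0 := norm_pos_iff.1 (ha.trans (hsub hx).1)
    have b1 := seg_mvt (f := fun y => prim θ (rp ρ) y - θ y y) (p := rp ρ x) (x := x)
      (K := 44 * η0) fun t ht => by
        obtain ⟨c1, c2⟩ := hseg x hx t ht
        set y := rp ρ x + t • (x - rp ρ x) with hy
        obtain ⟨c3, c4⟩ := h.der hab h0 h1 c1 c2
        have c5 := c3.hasFDerivAt.sub ((dθ y c1).hasFDerivAt.clm_apply (hasFDerivAt_id y))
        refine ⟨c5.differentiableAt, ?_⟩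
        have c6 : HasFDerivAt (fun y => prim θ (rp ρ) y - θ y y) _ y := c5
        rw [c6.fderiv]
        refine ContinuousLinearMap.opNorm_le_bound _ (by positivity) fun v => ?_
        have c7 := (fderiv ℝ (prim θ (rp ρ)) y - θ y).le_opNorm v
        have c8 : ‖fderiv ℝ θ y v y‖ ≤ 4 * η0 * ‖v‖ :=
          le_of_mul_le_mul_right (h.dle h0 h1 c1 v y) (ha.trans c1.1)
        have c9 : ‖fderiv ℝ (prim θ (rp ρ)) y - θ y‖ * ‖v‖ ≤ 20 * η0 * 2 * ‖v‖ := by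
          gcongr
          exact c4.trans (by gcongr; exact wt_le_two ha c1)
        have e : (fderiv ℝ (prim θ (rp ρ)) y - ((θ y).comp (ContinuousLinearMap.id ℝ E4)
            + (fderiv ℝ θ y).flip y)) v
            = (fderiv ℝ (prim θ (rp ρ)) y - θ y) v - fderiv ℝ θ y v y := by
          simp only [sub_apply, add_apply,
            ContinuousLinearMap.comp_apply, ContinuousLinearMap.id_apply,
            ContinuousLinearMap.flip_apply]
          abel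
        refine le_trans (le_of_eq (congrArg norm e)) ((norm_sub_le _ _).trans ?_)
        linarith
    have b2 : rp ρ (rp ρ x) = rp ρ x := by
      have e : ‖rp ρ x‖ = ρ := norm_rp hρ0.le hx0
      show (ρ * ‖rp ρ x‖⁻¹) • rp ρ x = _
      rw [e, mul_inv_cancel₀ hρ0.ne', one_smul]
    have b3 : prim θ (rp ρ) (rp ρ x) - θ (rp ρ x) (rp ρ x) = 0 := by
      unfold prim
      rw [b2]
      simp
    simp only [b3, sub_zero] at b1
    rw [norm_sub_rp hx0 (by linarith [hx.1])] at b1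
    have b4 : 44 * η0 * (‖x‖ - ρ) ≤ η * ‖x‖ :=
      mul_le_mul (by linarith) (by linarith) (by linarith [hx.1]) hη.le
    linarith

end Crest.Agent.N207.H

end
end

-- ▼ part N207/H/Jets
section

/-!
# Row 207, block H (helper21): `JETS`
-/

set_option autoImplicit false

open scoped ContDiff Topology
open Set Filter Metric
open Crest.GeometryTopology.CoordMetric
open Crest.Agent.R202.Tens Crest.Agent.N207.Sk Crest.Agent.N207.Jt

noncomputable section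

namespace Crest.Agent.N207.H

/-- normalised data -/
structure JD where
  w : ℝ
  q : E4
  L : E4 →L[ℝ] E4
  R : E4 → E4
  T : E4 → E4
  G' : MetricField 4
  G'' : MetricField 4

/-- the hypotheses on normalised data -/
structure JD.Ok (C : ℕ → ℝ) (d : JD) : Prop where
  pos : 0 < d.w
  le : d.w * (|C 0| + |C 1| + 1) ≤ 1 / 4
  smR : ContDiffAt ℝ ∞ d.R 0
  jR : ∀ k, ‖iteratedFDeriv ℝ k d.R 0‖ ≤ C k * d.w
  orth : ∀ u v, |inner ℝ (d.L u) (d.L v) - inner ℝ u v| ≤ C 0 * d.w * ‖u‖ * ‖v‖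
  smG : ∀ a b, ContDiffAt ℝ ∞ (dv d.G' a b) 0
  jG : ∀ k a b, ‖iteratedFDeriv ℝ k (dv d.G' a b) 0‖ ≤ C k * d.w
  smT : ContDiffAt ℝ ∞ d.T 0
  T0 : d.T 0 = 0
  inv : ∀ᶠ y in 𝓝 (0 : E4), d.q + d.L (d.T y) + d.R (d.T y) = y
  met : ∀ᶠ y in 𝓝 (0 : E4), ∀ u v,
    bil (d.G'' y) u v = bil (d.G' (d.T y)) (fderiv ℝ d.T y u) (fderiv ℝ d.T y v)

theorem gb_div {ι Y : Type} [NormedAddCommGroup Y] [NormedSpace ℝ Y] {f : ι → E4 → Y} {w : ι → ℝ}
    {C : ℕ → ℝ} (hw : ∀ j, 0 < w j) (hs : ∀ j, ContDiffAt ℝ ∞ (f j) 0)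
    (h : ∀ j k, ‖iteratedFDeriv ℝ k (f j) 0‖ ≤ C k * w j) :
    GB ⊤ (fun j x => (w j)⁻¹ • f j x) fun _ => 0 := by
  refine ⟨Eventually.of_forall fun j => (hs j).const_smul _, fun k => ⟨C k,
    Eventually.of_forall fun j => ?_⟩⟩
  rw [iteratedFDeriv_const_smul_apply' ((hs j).of_le (kle k)), norm_smul, norm_inv,
    Real.norm_of_nonneg (hw j).le, inv_mul_le_iff₀ (hw j), mul_comm]
  exact h j k

variable {C : ℕ → ℝ} {d : JD}

theorem JD.Ok.sq (h : d.Ok C) (u : E4) : |‖d.L u‖ ^ 2 - ‖u‖ ^ 2| ≤ 1 / 4 * ‖u‖ ^ 2 := by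
  have h1 := h.orth u u
  rw [real_inner_self_eq_norm_sq, real_inner_self_eq_norm_sq, mul_assoc, ← pow_two] at h1
  refine h1.trans (mul_le_mul_of_nonneg_right ?_ (sq_nonneg _))
  nlinarith [h.le, h.pos, le_abs_self (C 0), abs_nonneg (C 1)]

theorem JD.Ok.nL (h : d.Ok C) : ‖d.L‖ ≤ 2 := by
  refine d.L.opNorm_le_bound (by norm_num) fun u => ?_
  refine abs_le_of_sq_le_sq' ?_ (by positivity) |>.2
  nlinarith [(abs_le.1 (h.sq u)).2, sq_nonneg ‖u‖]

theorem JD.Ok.low (h : d.Ok C) (u : E4) : 1 / 2 * ‖u‖ ≤ ‖(d.L + fderiv ℝ d.R 0) u‖ := by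
  have h1 : 3 / 4 * ‖u‖ ≤ ‖d.L u‖ := by
    refine abs_le_of_sq_le_sq' ?_ (by positivity) |>.2
    nlinarith [(abs_le.1 (h.sq u)).1, sq_nonneg ‖u‖]
  have h2 : ‖fderiv ℝ d.R 0‖ ≤ 1 / 4 := by
    have := h.jR 1
    rw [norm_iteratedFDeriv_one] at this
    nlinarith [h.le, h.pos, le_abs_self (C 1), abs_nonneg (C 0)]
  have h3 := (fderiv ℝ d.R 0).le_of_opNorm_le h2 u
  have h4 := norm_sub_le ((d.L + fderiv ℝ d.R 0) u) (fderiv ℝ d.R 0 u)
  rw [add_apply, add_sub_cancel_right] at h4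
  rw [add_apply]
  linarith

theorem JD.Ok.evR (h : d.Ok C) : ∀ᶠ x in 𝓝 (0 : E4), DifferentiableAt ℝ d.R x :=
  ((h.smR.of_le (kle 1)).eventually (by simp)).mono fun _ hx => hx.differentiableAt (by simp)

theorem JD.Ok.rinv (h : d.Ok C) : ∀ᶠ y in 𝓝 (0 : E4),
    (d.L + fderiv ℝ d.R (d.T y)).comp (fderiv ℝ d.T y) = ContinuousLinearMap.id ℝ E4 := by
  have h1 : Tendsto d.T (𝓝 0) (𝓝 0) := by simpa [ContinuousAt, h.T0] using h.smT.continuousAt
  filter_upwards [h.inv.eventually_nhds, h1.eventually h.evR,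
    (h.smT.of_le (kle 1)).eventually (by simp)] with y a b c
  have c' := (c.differentiableAt (by simp)).hasFDerivAt
  have e1 := ((d.L.hasFDerivAt.comp y c').const_add d.q).add (b.hasFDerivAt.comp y c')
  rw [ContinuousLinearMap.add_comp]
  exact e1.unique ((hasFDerivAt_id y).congr_of_eventuallyEq a)

theorem inverse_of_rinv {A B : E4 →L[ℝ] E4} (h : A.comp B = ContinuousLinearMap.id ℝ E4) :
    A.inverse = B := by
  refine ContinuousLinearMap.inverse_eq h ?_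
  have h1 : (A : E4 →ₗ[ℝ] E4) ∘ₗ (B : E4 →ₗ[ℝ] E4) = LinearMap.id :=
    congrArg (fun X : E4 →L[ℝ] E4 => (X : E4 →ₗ[ℝ] E4)) h
  exact ContinuousLinearMap.coe_injective ((LinearMap.comp_eq_id_comm ..).1 h1)

theorem gb_inner {ι : Type} {l : Filter ι} {f g : ι → E4 → E4} {x : ι → E4} (hf : GB l f x)
    (hg : GB l g x) : GB l (fun j z => inner ℝ (f j z) (g j z)) x :=
  (hf.clm (innerSL ℝ)).app hg

theorem jets_core (C : ℕ → ℝ) : ∃ C' : ℕ → ℝ, ∀ d : JD, d.Ok C → ∀ k a b,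
    ‖iteratedFDeriv ℝ k (dv d.G'' a b) 0‖ ≤ C' k * d.w := by
  let ι := {d : JD // d.Ok C}
  let e : Fin 4 → E4 := fun a => EuclideanSpace.single a 1
  have b0 : ∀ {Y : Type} [NormedAddCommGroup Y], ∃ c : ℝ, ∀ᶠ _j : ι in ⊤, ‖(0 : Y)‖ ≤ c :=
    ⟨0, Eventually.of_forall fun _ => norm_zero.le⟩
  have hρ := gb_div (f := fun j : ι => j.1.R) (fun j => j.2.pos) (fun j => j.2.smR) fun j => j.2.jR
  have hγ := fun a b => gb_div (f := fun j : ι => dv j.1.G' a b) (fun j => j.2.pos)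
    (fun j => j.2.smG a b) fun j k => j.2.jG k a b
  have hw : GB ⊤ (fun (j : ι) (_ : E4) => j.1.w) fun _ => 0 :=
    GB.const ⟨1, Eventually.of_forall fun j => by
      rw [Real.norm_of_nonneg j.2.pos.le]
      nlinarith [j.2.le, j.2.pos, abs_nonneg (C 0), abs_nonneg (C 1)]⟩
  have hL : GB ⊤ (fun (j : ι) (_ : E4) => j.1.L) fun _ => 0 :=
    GB.const ⟨2, Eventually.of_forall fun j => j.2.nL⟩
  have hD : ∀ j : ι, ∀ᶠ x in 𝓝 (0 : E4),
      fderiv ℝ j.1.R x = j.1.w • fderiv ℝ (fun x => j.1.w⁻¹ • j.1.R x) x := fun j =>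
    j.2.evR.mono fun x hx => by rw [fderiv_fun_const_smul hx, smul_inv_smul₀ j.2.pos.ne']
  have hA : GB ⊤ (fun (j : ι) x => j.1.L + fderiv ℝ j.1.R x) fun _ => 0 :=
    (hL.add (hw.smul hρ.fderiv)).congr (Eventually.of_forall fun j =>
      ⟨rfl, (hD j).mono fun x hx => by simp only [hx]⟩)
  have hI := hA.inverse (c := 1 / 2) (by norm_num) (Eventually.of_forall fun j => j.2.low)
  have hT : GB ⊤ (fun j : ι => j.1.T) fun _ => 0 := by
    refine GB.boot (Ψ := fun j p => (j.1.L + fderiv ℝ j.1.R p.2).inverse) b0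
      ⟨0, Eventually.of_forall fun j => by simp [j.2.T0]⟩ (Eventually.of_forall fun j => j.2.smT) ?_
      (Eventually.of_forall fun j => j.2.rinv.mono fun y hy => (inverse_of_rinv hy).symm)
    have h2 : GB ⊤ (fun (_ : ι) (p : E4 × E4) => p.2) fun _ => 0 :=
      (GB.id b0).clm (ContinuousLinearMap.snd ℝ E4 E4)
    exact (GB.comp (g := fun (j : ι) x => (j.1.L + fderiv ℝ j.1.R x).inverse)
      (f := fun (_ : ι) (p : E4 × E4) => p.2) (x := fun _ => 0) hI h2).congr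
      (Eventually.of_forall fun j => ⟨by rw [j.2.T0]; rfl, EventuallyEq.rfl⟩)
  have hB : ∀ c c', GB ⊤ (fun (j : ι) x => j.1.w⁻¹ * (j.1.G' x c c' -
      inner ℝ ((j.1.L + fderiv ℝ j.1.R x) (e c)) ((j.1.L + fderiv ℝ j.1.R x) (e c')))) fun _ => 0 := by
    intro c c'
    have h1 : GB ⊤ (fun (j : ι) (_ : E4) => j.1.w⁻¹ * (inner ℝ (j.1.L (e c)) (j.1.L (e c')) -
        inner ℝ (e c) (e c'))) fun _ => 0 := GB.const ⟨C 0, Eventually.of_forall fun j => by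
      have := j.2.orth (e c) (e c')
      rw [norm_mul, norm_inv, Real.norm_of_nonneg j.2.pos.le, inv_mul_le_iff₀ j.2.pos, mul_comm]
      simpa [e] using this⟩
    have h2 := fun c => hρ.fderiv.app (GB.const' (e c))
    have h3 := fun c => hL.app (GB.const' (e c))
    refine (((((hγ c c').sub h1).sub (gb_inner (h3 c) (h2 c'))).sub (gb_inner (h2 c) (h3 c'))).sub
      (hw.mul (gb_inner (h2 c) (h2 c')))).congr (Eventually.of_forall fun j =>
        ⟨rfl, (hD j).mono fun x hx => ?_⟩)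
    have hw0 := j.2.pos.ne'
    have e1 : inner ℝ (e c) (e c') = (1 : Matrix (Fin 4) (Fin 4) ℝ) c c' := by
      simp [e, EuclideanSpace.inner_single_left, Matrix.one_apply]
    simp only [hx, add_apply, smul_apply, inner_add_left,
      inner_add_right, real_inner_smul_left, real_inner_smul_right, dv, e1, smul_eq_mul]
    field_simp
    ring
  have hH : ∀ a b, GB ⊤ (fun (j : ι) y => j.1.w⁻¹ • dv j.1.G'' a b y) fun _ => 0 := by
    intro a b
    have h1 := fun a c => (hT.fderiv.app (GB.const' (e a))).clm (EuclideanSpace.proj c : E4 →L[ℝ] ℝ)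
    refine (GB.sum Finset.univ fun c _ => GB.sum Finset.univ fun c' _ =>
      ((GB.comp ((hB c c').congr (Eventually.of_forall fun j => ⟨j.2.T0, EventuallyEq.rfl⟩))
        hT).mul (h1 a c)).mul (h1 b c')).congr (Eventually.of_forall fun j => ⟨rfl, ?_⟩)
    filter_upwards [j.2.met, j.2.rinv] with y m r
    have e1 : j.1.G'' y a b = bil (j.1.G'' y) (e a) (e b) := by
      simp [bil_apply, e]
    have e2 : (1 : Matrix (Fin 4) (Fin 4) ℝ) a b = inner ℝ (e a) (e b) := by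
      simp [e, EuclideanSpace.inner_single_left, Matrix.one_apply]
    have e3 : ∀ a, e a = ∑ c, fderiv ℝ j.1.T y (e a) c •
        (j.1.L + fderiv ℝ j.1.R (j.1.T y)) (e c) := fun a => by
      have := congrArg (fun X : E4 →L[ℝ] E4 => X (e a)) r
      simp only [ContinuousLinearMap.comp_apply, ContinuousLinearMap.id_apply] at this
      conv_lhs => rw [← this, eq_sum_single (fderiv ℝ j.1.T y (e a))]
      simp only [map_sum, map_smul, e]
    rw [dv, e1, m, e2, bil_apply]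
    conv_lhs => rw [congrArg₂ (inner ℝ) (e3 a) (e3 b)]
    simp only [sum_inner, inner_sum, real_inner_smul_left, real_inner_smul_right]
    simp only [smul_eq_mul, PiLp.proj_apply, Fin.sum_univ_four]
    ring
  choose c hc using fun k a b => (hH a b).bd k
  refine ⟨fun k => ∑ a, ∑ b, |c k a b|, fun d hd k a b => ?_⟩
  have h1 := eventually_top.1 (hc k a b) ⟨d, hd⟩
  have h2 := eventually_top.1 (hH a b).sm ⟨d, hd⟩
  have e1 : dv d.G'' a b = fun y => d.w • d.w⁻¹ • dv d.G'' a b y :=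
    funext fun y => (smul_inv_smul₀ hd.pos.ne' _).symm
  rw [e1, iteratedFDeriv_const_smul_apply' (h2.of_le (kle k)), norm_smul,
    Real.norm_of_nonneg hd.pos.le, mul_comm]
  refine mul_le_mul_of_nonneg_right (h1.trans ((le_abs_self _).trans ?_)) hd.pos.le
  exact (Finset.single_le_sum (f := fun b => |c k a b|) (fun _ _ => abs_nonneg _)
    (Finset.mem_univ b)).trans (Finset.single_le_sum (f := fun a => ∑ b, |c k a b|)
      (fun _ _ => by positivity) (Finset.mem_univ a))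

theorem norm_aff {Y : Type} [NormedAddCommGroup Y] [NormedSpace ℝ Y] (f : E4 → Y) (x : E4) {s : ℝ}
    (hs : 0 < s) (k : ℕ) :
    ‖iteratedFDeriv ℝ k (fun y => f (x + s • y)) 0‖ = ‖iteratedFDeriv ℝ k f x‖ * s ^ k := by
  refine le_antisymm ?_ ?_
  · have := G.norm_comp_smul (fun y => f (x + y)) hs 0 k
    rwa [iteratedFDeriv_comp_add_left, smul_zero, add_zero] at this
  · have := G.norm_comp_smul (fun y => f (x + s • y)) (inv_pos.2 hs) 0 k
    simp only [smul_inv_smul₀ hs.ne', smul_zero] at this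
    rw [iteratedFDeriv_comp_add_left, add_zero, inv_pow, ← div_eq_mul_inv,
      le_div_iff₀ (by positivity)] at this
    exact this

/-- **JETS** -/
theorem jets : JETS := by
  intro C
  obtain ⟨C', hC'⟩ := jets_core C
  refine ⟨1 / (4 * (|C 0| + |C 1| + 1)), C', by positivity, ?_⟩
  intro G G' G'' Yt Z φ L p q w hp hw hw0 hA hY hZ hZp hYZ hm
  obtain ⟨V, W, h0, hP⟩ := hA.pull
  have hs : 0 < ‖p‖ := norm_pos_iff.2 hp
  set s := ‖p‖ with hsd
  have hφ := hP.contDiffAt h0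
  let f' : E4 ≃L[ℝ] E4 := (LinearEquiv.ofInjectiveEndo (fderiv ℝ φ 0 : E4 →ₗ[ℝ] E4)
    (hP.inj 0 h0)).toContinuousLinearEquiv
  have hf' : HasFDerivAt φ (f' : E4 →L[ℝ] E4) 0 := (hφ.differentiableAt (by simp)).hasFDerivAt
  set ψ := hφ.localInverse hf' (by simp) with hψd
  have hψ : ContDiffAt ℝ ∞ ψ (Z (Yt p)) := by
    rw [hZp, ← hA.ctr]; exact hφ.to_localInverse hf' (by simp)
  have hψ0 : ψ (Z (Yt p)) = 0 := by
    rw [hZp, ← hA.ctr]; exact hφ.localInverse_apply_image hf' (by simp)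
  have hψr : ∀ᶠ y in 𝓝 (Z (Yt p)), φ (ψ y) = y := by
    rw [hZp, ← hA.ctr]
    exact (hφ.hasStrictFDerivAt' hf' (by simp)).eventually_right_inverse
  set T0 : E4 → E4 := fun y => ψ (Z y) with hT0d
  have hT0 : ContDiffAt ℝ ∞ T0 (Yt p) := hψ.comp _ hZ
  have e1 : ∀ᶠ y in 𝓝 (Yt p), φ (T0 y) = Z y := hZ.continuousAt.eventually hψr
  have e2 : ∀ᶠ y in 𝓝 (Yt p), T0 y ∈ V :=
    hT0.continuousAt.eventually (by rw [show T0 (Yt p) = 0 from hψ0]; exact hP.isOpen.mem_nhds h0)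
  have e3 : ∀ᶠ y in 𝓝 (Yt p), DifferentiableAt ℝ T0 y :=
    ((hT0.of_le (kle 1)).eventually (by simp)).mono fun _ hx => hx.differentiableAt (by simp)
  have e4 : ∀ᶠ y in 𝓝 (Yt p), ∀ u v,
      bil (G'' y) u v = bil (G' (T0 y)) (fderiv ℝ T0 y u) (fderiv ℝ T0 y v) := by
    filter_upwards [e1.eventually_nhds, e2, e3, hm] with y a b c d u v
    have a' : (φ ∘ T0) =ᶠ[𝓝 y] Z := a
    rw [d, hP.bil_eq b, a.self_of_nhds, ← a'.fderiv_eq,
      fderiv_comp y ((hP.contDiffAt b).differentiableAt (by simp)) c]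
    rfl
  have hc : ContDiff ℝ ∞ fun y : E4 => Yt p + s • y := by fun_prop
  have ht : Tendsto (fun y : E4 => Yt p + s • y) (𝓝 0) (𝓝 (Yt p)) := by
    simpa [ContinuousAt] using hc.continuous.continuousAt (x := 0)
  have hR : ContDiffAt ℝ ∞ (fun y => Yt (φ y) - (q + L y)) 0 :=
    (ContDiffAt.comp 0 (by rw [hA.ctr]; exact hY) hφ).sub (by fun_prop)
  have hz : ∀ {Y : Type} [NormedAddCommGroup Y] [NormedSpace ℝ Y] {f : E4 → Y} {x : E4},
      ContDiffAt ℝ ∞ f x → ContDiffAt ℝ ∞ (fun y => f (x + s • y)) 0 := fun {_ _ _ f x} h =>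
    ContDiffAt.comp (g := f) 0 (by simpa using h) (by fun_prop)
  have key := hC' ⟨w, s⁻¹ • (q - Yt p), L, fun y => s⁻¹ • (Yt (φ (0 + s • y)) - (q + L (0 + s • y))),
    fun y => s⁻¹ • T0 (Yt p + s • y), fun y => G' (0 + s • y), fun y => G'' (Yt p + s • y)⟩
    ⟨hw, by rw [le_div_iff₀ (by positivity)] at hw0; linarith, (hz hR).const_smul _, fun k => ?_,
      hA.orth, fun a b => hz (f := dv G' a b) ?_, fun k a b => ?_, (hz hT0).const_smul _, ?_, ?_, ?_⟩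
  · intro k a b
    exact (norm_aff (dv G'' a b) (Yt p) hs k).symm.le.trans (key k a b)
  · rw [iteratedFDeriv_const_smul_apply' ((hz hR).of_le (kle k)), norm_smul, norm_inv,
      Real.norm_of_nonneg hs.le, inv_mul_le_iff₀ hs, mul_comm]
    exact (norm_aff (fun y => Yt (φ y) - (q + L y)) 0 hs k).le.trans (hA.aff k)
  · exact ((hP.riem'.contDiffOn a b).contDiffAt (hP.isOpen.mem_nhds h0)).sub contDiffAt_const
  · exact (norm_aff (dv G' a b) 0 hs k).le.trans (hA.jet k a b)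
  · simp [hT0d, hψ0]
  · filter_upwards [ht.eventually e1, ht.eventually hYZ] with y a b
    simp only [zero_add, smul_inv_smul₀ hs.ne', a, b, map_smul, ← smul_add]
    rw [show ∀ z : E4, q - Yt p + z + (Yt p + s • y - (q + z)) = s • y from fun z => by abel,
      inv_smul_smul₀ hs.ne']
  · filter_upwards [ht.eventually e4, ht.eventually e3] with y a b u v
    have : fderiv ℝ (fun y => s⁻¹ • T0 (Yt p + s • y)) y = fderiv ℝ T0 (Yt p + s • y) := by
      have h1 : HasFDerivAt (fun y : E4 => Yt p + s • y) (s • ContinuousLinearMap.id ℝ E4) y :=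
        ((hasFDerivAt_id y).const_smul s).const_add _
      refine ((b.hasFDerivAt.comp y h1).const_smul s⁻¹).fderiv.trans ?_
      ext1 u
      simp [inv_smul_smul₀ hs.ne']
    simp only [this, zero_add, smul_inv_smul₀ hs.ne', a]

end Crest.Agent.N207.H

end
end

-- ▼ part N207/H/Loc
section

/-!
# Row 207, block H (helper11): the leaf `LOC`, normal coordinates lifted to the rough chart
-/

set_option autoImplicit false
set_option linter.unusedSectionVars false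

open scoped ContDiff Manifold Topology
open Set Filter Metric Function
open Crest.GeometryTopology.CoordMetric
open Crest.Agent.R202.Tens Crest.Agent.N207.Sk
open Crest.Agent.R244.CF (gB isLC_of_isRiemannianOn)

noncomputable section

namespace Crest.Agent.N207.H

variable {M : Type*} [TopologicalSpace M] [ChartedSpace E4 M] [IsManifold 𝓘(ℝ, E4) ∞ M]

/-- a lift through an injective parametrisation is smooth -/
theorem lift_smooth {Ψ E : E4 → M} {U W : Set E4} (hE : Par E U) (hΨ : Par Ψ W) (hi : InjOn Ψ W)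
    (hm : ∀ y ∈ U, E y ∈ Ψ '' W) : ContDiffOn ℝ ∞ (fun y => invFunOn Ψ W (E y)) U := by
  intro y hy
  obtain ⟨T, V, hV, hyV, hVU, -, hT, hTm⟩ := Gs.exists_trans0 hE hΨ hy
    (invFunOn_mem (hm y hy)) (invFunOn_eq (hm y hy))
  refine ((hT.contDiffAt (hV.mem_nhds hyV)).congr_of_eventuallyEq ?_).contDiffWithinAt
  filter_upwards [hV.mem_nhds hyV] with z hz
  exact hi (invFunOn_mem (hm z (hVU hz))) (hTm z hz).1
    ((invFunOn_eq (hm z (hVU hz))).trans (hTm z hz).2.symm)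

/-- a neck chart is injective on balls of definite size -/
theorem nk_injOn {N : Nk M} (hN : N.Top) {n0 : ℕ} (hn : Nat.card N.Γ ≤ n0) {p : E4} {ρ : ℝ}
    (hs : ball p ρ ⊆ shell N.a N.b) (hρ : 4 * ((n0 : ℝ) + 1) * ρ ≤ ‖p‖) : InjOn N.Ψ (ball p ρ) := by
  intro x hx y hy e
  obtain ⟨γ, hγ, rfl⟩ := (hN.fib x (hs hx) y (hs hy)).1 e
  by_contra hne
  have := hN.grp.fin
  have h1 := T.move_ge hN.grp.free hγ (fun h => hne (by rw [h]; rfl)) x
  have hx' : ‖x - p‖ < ρ := mem_ball_iff_norm.1 hx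
  have hy' : ‖γ x - p‖ < ρ := mem_ball_iff_norm.1 hy
  have h0 : 0 < ρ := (norm_nonneg _).trans_lt hx'
  have h2 : ‖γ x - x‖ ≤ 2 * ρ := by
    have := norm_sub_le_norm_sub_add_norm_sub (γ x) p x
    rw [norm_sub_rev p x] at this
    linarith
  have h3 : ‖p‖ ≤ ‖x‖ + ρ := by
    have := norm_le_norm_add_norm_sub' p x
    rw [norm_sub_rev p x] at this
    linarith
  have h4 : (Nat.card N.Γ : ℝ) ≤ n0 := by exact_mod_cast hn
  have h5 : (Nat.card N.Γ : ℝ) * ‖γ x - x‖ ≤ n0 * (2 * ρ) := by gcongr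
  have h6 : (0 : ℝ) ≤ n0 := Nat.cast_nonneg _
  nlinarith

variable [CompactSpace M] [T3Space M] [ConnectedSpace M]

/-- metric balls are covered by coordinate balls of an almost Euclidean parametrisation -/
theorem ball_sub_image (g : Met 4 M) {Ψ : E4 → M} {p : E4} {ρ : ℝ} (hP : Par Ψ (ball p ρ))
    (hn : ∀ x ∈ ball p ρ, ∀ i j, |g.pm Ψ x i j - (1 : Matrix (Fin 4) (Fin 4) ℝ) i j| ≤ 1 / 100) :
    g.ball (Ψ p) (ρ / 2) ⊆ Ψ '' ball p ρ := by
  intro q hq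
  have hm : ∀ y ∈ ball (0 : E4) ρ, p + y ∈ ball p ρ := fun y hy => by
    rw [mem_ball_iff_norm, add_sub_cancel_left]; exact mem_ball_zero_iff.1 hy
  have hd : ∀ y : E4, fderiv ℝ (fun z => p + z) y = ContinuousLinearMap.id ℝ E4 := fun y => by
    rw [fderiv_const_add]; exact fderiv_fun_id
  have hP' : Par (fun z => Ψ (p + z)) (ball 0 ρ) :=
    Gs.par_comp hP isOpen_ball (by fun_prop) hm fun y _ => by rw [hd]; exact injective_id
  have hq2 : ∀ x ∈ ball (0 : E4) ρ, ∀ v, |gB (g.pm fun z => Ψ (p + z)) x v v - ‖v‖ ^ 2| ≤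
      ((4 : ℕ) : ℝ) ^ 2 * (1 / 100) * ‖v‖ ^ 2 := fun x hx => F.gB_near fun a b => by
    rw [Gs.pm_comp g (T := fun z => p + z) (Gs.par_md hP (hm x hx)) (by fun_prop), hd]
    simpa [PiLp.single_apply] using hn _ (hm x hx) a b
  have him : F.Imm0 (n := 4) (M := Sl g) (gB (g.pm fun z => Ψ (p + z)))
      (R244.CF.Gam (g.pm fun z => Ψ (p + z))) (fun z => Ψ (p + z)) ρ :=
    ⟨isLC_of_isRiemannianOn (hP'.riem g), fun x hx => F.isoM_par g hP' hx, fun x hx v => by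
      have := abs_le.1 (hq2 x hx v)
      push_cast at this
      nlinarith [sq_nonneg ‖v‖], fun x hx v => by
      have := abs_le.1 (hq2 x hx v)
      push_cast at this
      nlinarith [sq_nonneg ‖v‖]⟩
  obtain ⟨G⟩ := F.nonempty_geo g
  have hd' : dist (α := Sl g) (Ψ (p + 0)) q < ρ / 2 := by
    rw [add_zero]; exact lt_of_eq_of_lt (dist_comm (α := Sl g) (Ψ p) q) hq
  obtain ⟨x, h1, h2⟩ := him.colip G 0 q (by rw [norm_zero]; linarith)
  rw [sub_zero] at h2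
  exact ⟨p + x, hm x (mem_ball_zero_iff.2 (by linarith)), h1⟩

variable [MeasurableSpace M] [BorelSpace M]

theorem loc : LOC M := by
  intro n0 Ck
  set A : ℕ → ℝ := fun j => 1 + ∑ k ∈ Finset.range (j + 1), |Ck k| with hA
  have hA1 : ∀ {k j}, k ≤ j → |Ck k| ≤ A j := fun {k j} h => by
    have := Finset.single_le_sum (f := fun k => |Ck k|) (fun k _ => abs_nonneg _)
      (Finset.mem_range.2 (show k < j + 1 by omega))
    simp only [hA]; linarith
  have hA0 : ∀ j, 0 < A j := fun j => by simp only [hA]; positivity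
  obtain ⟨c1, hc0, hc1, hc⟩ := F.par_exp 4 (2 * |Ck 0|)
  choose C hC0 hC using fun j => F.ck_bound 4 j (2 * A j)
  set m : ℝ := 4 * ((n0 : ℝ) + 1) with hm
  have hm4 : 4 ≤ m := by rw [hm]; nlinarith [Nat.cast_nonneg (α := ℝ) n0]
  refine ⟨c1 / (2 * m), fun j => C j * A j, by positivity,
    fun g N V hN hR hn p hp w hw0 hw2 hK => ?_⟩
  have hp0 : 0 < ‖p‖ := by linarith [hp.1, hN.a_pos]
  set ρ : ℝ := ‖p‖ / m with hρ
  have hρ0 : 0 < ρ := by positivity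
  have hρ4 : ρ ≤ ‖p‖ / 4 := by rw [hρ]; gcongr
  have hs4 : ball p (‖p‖ / 4) ⊆ shell N.a N.b := fun x hx => by
    have h1 := abs_le.1 ((abs_norm_sub_norm_le x p).trans (mem_ball_iff_norm.1 hx).le)
    exact ⟨by linarith [hp.1, hN.a_pos], by linarith [hp.2, hN.a_pos]⟩
  have hs : ball p ρ ⊆ shell N.a N.b := (ball_subset_ball hρ4).trans hs4
  have hinj := nk_injOn hN hn hs (by rw [hρ, ← hm, mul_div_cancel₀ _ (by positivity)])
  have hP := Gs.par_mono hN.par isOpen_ball hs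
  have hsub := ball_sub_image g hP fun x hx i j => by
    have := hR.jet x (hs hx) 0 le_rfl i j
    simpa [J1, dv] using this
  obtain ⟨E, hE⟩ := F.exists_isExp g (N.Ψ p)
  have hK' : ∀ k, ∀ q ∈ g.ball (N.Ψ p) (ρ / 2), g.rm k q ≤ (Ck k * w / ‖p‖ ^ (k + 2)) ^ 2 :=
    fun k q hq => by
      obtain ⟨y, hy, rfl⟩ := hsub hq
      exact hK k y (ball_subset_ball hρ4 hy)
  obtain ⟨hPE, -⟩ := hc hE (half_pos hρ0) fun q hq => by
    refine (hK' 0 q hq).trans ?_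
    rw [div_pow, div_pow, mul_pow, ← sq_abs (Ck 0), ← mul_pow, zero_add]
    have a1 : |Ck 0| * w ≤ 2 * |Ck 0| := by nlinarith [abs_nonneg (Ck 0)]
    have a2 : ρ / 2 ≤ ‖p‖ := by linarith
    gcongr
  have e : c1 * (ρ / 2) = c1 / (2 * m) * ‖p‖ := by rw [hρ]; field_simp
  have hle : c1 * (ρ / 2) ≤ ρ / 2 := by nlinarith
  set U := ball (0 : E4) (c1 * (ρ / 2)) with hU
  have h0 : (0 : E4) ∈ U := mem_ball_self (by positivity)
  have hmem : ∀ y ∈ U, E y ∈ g.ball (N.Ψ p) (ρ / 2) := fun y hy =>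
    hE.mem_ball (ball_subset_ball hle hy)
  have hmem' : ∀ y ∈ U, E y ∈ N.Ψ '' ball p ρ := fun y hy => hsub (hmem y hy)
  have hnc := hE.nc hPE ((convex_ball _ _).starConvex h0) h0
    (ball_subset_ball (show c1 * (ρ / 2) ≤ ‖p‖ by linarith))
  refine ⟨fun y => invFunOn N.Ψ (ball p ρ) (E y), g.pm E, ?_, ?_, hE.one, fun y hy k i j => ?_⟩
  · rw [← e]
    exact Gs.pull_of' g hPE (Gs.par_mono hN.par isOpen_ball hs4) isOpen_ball subset_rfl
      (lift_smooth hPE hP hinj hmem') fun z hz =>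
        ⟨ball_subset_ball hρ4 (invFunOn_mem (hmem' z hz)), invFunOn_eq (hmem' z hz)⟩
  · rw [hE.zero]
    exact hinj.leftInvOn_invFunOn (mem_ball_self hρ0)
  · rw [← e] at hy
    have h1 := hC k hnc (δ := A k * w) (mul_pos (hA0 k) hw0) (by nlinarith [hA0 k])
      (fun l hl x hx => by
        refine (hPE.par_rm g l hx).symm.trans_le ((hK' l _ (hmem x hx)).trans ?_)
        rw [div_pow, div_pow, mul_pow, ← sq_abs (Ck l), ← mul_pow]
        gcongr
        exact hA1 hl) k le_rfl y hy i j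
    rw [le_div_iff₀ (by positivity)] at h1
    exact h1.trans_eq (by ring)

end Crest.Agent.N207.H

end
end

-- ▼ part N207/H/Br
section

/-!
# Row 207, block H (helper41): the dictionary `BR`
-/

set_option autoImplicit false
set_option linter.unusedSectionVars false

open scoped ContDiff Manifold Topology
open Set Filter
open Crest.GeometryTopology.CoordMetric
open Crest.Agent.R202.Tens Crest.Agent.R247 Crest.Agent.N207.Sk

noncomputable section

namespace Crest.Agent.N207.H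

theorem sum_abs_le (u : E4) : ∑ i, |u i| ≤ 2 * ‖u‖ := by
  have h := Finset.sum_mul_sq_le_sq_mul_sq Finset.univ (fun _ : Fin 4 => (1 : ℝ)) fun i => |u i|
  simp only [one_mul, one_pow, sq_abs, Finset.sum_const, Finset.card_univ, Fintype.card_fin,
    nsmul_eq_mul, mul_one, ← EuclideanSpace.real_norm_sq_eq] at h
  refine abs_le_of_sq_le_sq' ?_ (by positivity) |>.2
  push_cast at h
  linarith

theorem bilin_le {D : Fin 4 → Fin 4 → ℝ} {c : ℝ} (h : ∀ i j, |D i j| ≤ c) (u v : E4) :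
    |∑ i, ∑ j, D i j * u i * v j| ≤ 4 * c * ‖u‖ * ‖v‖ := by
  have hc : 0 ≤ c := (abs_nonneg _).trans (h 0 0)
  have h1 : |∑ i, ∑ j, D i j * u i * v j| ≤ ∑ i, ∑ j, c * (|u i| * |v j|) := by
    refine (Finset.abs_sum_le_sum_abs _ _).trans (Finset.sum_le_sum fun i _ =>
      (Finset.abs_sum_le_sum_abs _ _).trans (Finset.sum_le_sum fun j _ => ?_))
    rw [mul_assoc, abs_mul, abs_mul]
    exact mul_le_mul_of_nonneg_right (h i j) (by positivity)
  simp only [← Finset.mul_sum, ← Finset.sum_mul] at h1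
  refine h1.trans ?_
  have h2 : (∑ i, |u i|) * ∑ j, |v j| ≤ (2 * ‖u‖) * (2 * ‖v‖) :=
    mul_le_mul (sum_abs_le u) (sum_abs_le v) (by positivity) (by positivity)
  nlinarith

theorem bil_one' (u v : E4) : bil (1 : Matrix (Fin 4) (Fin 4) ℝ) u v = inner ℝ u v := by
  rw [bil_apply, PiLp.inner_apply]
  refine Finset.sum_congr rfl fun i _ => ?_
  rw [Finset.sum_eq_single i]
  · simp [mul_comm]
  · intro j _ hj
    simp [Matrix.one_apply_ne hj.symm]
  · simp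

theorem norm_le_of_comp {z : E4} {c : ℝ} (h : ∀ k, |z k| ≤ c) : ‖z‖ ≤ 2 * c := by
  have hc : 0 ≤ c := (abs_nonneg _).trans (h 0)
  refine abs_le_of_sq_le_sq' ?_ (by positivity) |>.2
  rw [EuclideanSpace.real_norm_sq_eq]
  have : ∑ k, z k ^ 2 ≤ ∑ _k : Fin 4, c ^ 2 :=
    Finset.sum_le_sum fun k _ => sq_le_sq' (abs_le.1 (h k)).1 (abs_le.1 (h k)).2
  simp only [Finset.sum_const, Finset.card_univ, Fintype.card_fin, nsmul_eq_mul] at this
  push_cast at this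
  linarith

theorem norm_Gam_le {G : MetricField 4} {x : E4} {c : ℝ}
    (h : ∀ k i j, |christoffel G x k i j| ≤ c) : ‖Gam G x‖ ≤ 8 * c := by
  have hc : 0 ≤ c := (abs_nonneg _).trans (h 0 0 0)
  refine ContinuousLinearMap.opNorm_le_bound₂ _ (by positivity) fun u v => ?_
  refine (norm_le_of_comp fun k => ?_).trans (le_of_eq (by ring : 2 * (4 * c * ‖u‖ * ‖v‖) = _))
  rw [Gam_apply]
  exact bilin_le (h k) u v

variable (M : Type*) [TopologicalSpace M] [ChartedSpace E4 M] [IsManifold 𝓘(ℝ, E4) ∞ M]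
  [CompactSpace M] [T3Space M] [ConnectedSpace M] [MeasurableSpace M] [BorelSpace M]

variable {M} in
theorem pm_inv (g : Met 4 M) {N : Nk M} (hN : N.Top) {γ : E4 ≃ₗᵢ[ℝ] E4} (hγ : γ ∈ N.Γ) {x : E4}
    (hx : x ∈ shell N.a N.b) (u v : E4) :
    bil (g.pm N.Ψ (γ x)) (γ u) (γ v) = bil (g.pm N.Ψ x) u v := by
  have hs : ∀ z ∈ shell N.a N.b, γ z ∈ shell N.a N.b := fun z hz => by
    simpa only [shell, mem_ofPred_eq, γ.norm_map] using hz
  have hd : HasFDerivAt (fun z => γ z) (γ.toContinuousLinearEquiv : E4 →L[ℝ] E4) x :=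
    γ.toContinuousLinearEquiv.hasFDerivAt
  have h1 := Gs.pm_comp_bil g (Gs.par_md hN.par (hs x hx)) hd.differentiableAt u v
  rw [hd.fderiv, Gs.pm_congr g (Ψ' := N.Ψ) (ev_of_on hN.par.isOpen hx fun z hz =>
    ((hN.fib z hz _ (hs z hz)).2 ⟨γ, hγ, rfl⟩).symm)] at h1
  exact h1.symm

theorem br : BR M := by
  refine ⟨fun η hη => ⟨min (1 / 100) (η / 96), by positivity, fun g N V hN hR => ?_⟩,
    fun g N hN hR x hx ρ hρ h0 u v w => ?_⟩
  · have hG := hN.par.riem g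
    have h1 : min (1 / 100) (η / 96) ≤ 1 / 100 := min_le_left _ _
    have h2 : min (1 / 100) (η / 96) ≤ η / 96 := min_le_right _ _
    refine ⟨hN.grp.fin, hN.a_pos, hG, fun γ hγ x hx u v => pm_inv g hN hγ hx u v,
      fun x hx u v => ?_, fun x hx => ?_⟩
    · have h := bilin_le (Rad.jg_ent (hR.jet x hx)) u v
      rw [← bil_one', bil_apply, bil_apply, ← Finset.sum_sub_distrib]
      simp only [← Finset.sum_sub_distrib, ← sub_mul]
      refine h.trans ?_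
      gcongr
      linarith
    · have hx0 : 0 < ‖x‖ := hN.a_pos.trans hx.1
      have h := norm_Gam_le fun k i j => Rad.jg_chr hG hx (hR.jet x hx) h1 le_rfl hx0 k i j
      rw [← le_div_iff₀ hx0]
      refine h.trans ?_
      rw [← mul_assoc, ← mul_div_assoc]
      gcongr
      linarith
  · have hG := hR.riem
    set G := g.pm N.Ψ with hGd
    set Z := curv (Gam G) x u v w with hZ
    have hb : ∀ X : E4, |bil (G x) X X - ‖X‖ ^ 2| ≤ 1 / 100 * ‖X‖ ^ 2 := fun X => by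
      have h := hR.near x hx X X
      rwa [real_inner_self_eq_norm_sq, mul_assoc, ← sq] at h
    have hs : ∀ X : E4, √(bil (G x) X X) ≤ 11 / 10 * ‖X‖ := fun X => by
      rw [Real.sqrt_le_left (by positivity)]
      have := (abs_le.1 (hb X)).2
      nlinarith [sq_nonneg ‖X‖]
    have h1 := Ar.abs_evT_le (hG.posDef x hx) (rmT G x) ![Z, w, u, v]
    rw [AI.evT_rmT hG hx, Fin.prod_univ_four] at h1
    simp only [Matrix.cons_val_zero, Matrix.cons_val_one, Matrix.cons_val] at h1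
    have h2 : √(ipA (G x)⁻¹ (rmT G x) (rmT G x)) ≤ ρ := by
      rw [Real.sqrt_le_left hρ]
      exact (hN.par.par_rm g 0 hx).symm.trans_le h0
    have h3 : bil (G x) Z Z ≤ ρ * (11 / 10 * ‖Z‖ * (11 / 10 * ‖w‖) * (11 / 10 * ‖u‖) *
        (11 / 10 * ‖v‖)) := by
      refine ((le_abs_self _).trans h1).trans ?_
      gcongr <;> exact hs _
    have h4 := (abs_le.1 (hb Z)).1
    rcases (norm_nonneg Z).eq_or_lt with h5 | h5
    · rw [← h5]; positivity
    · have h6 : 0 ≤ ρ * ‖u‖ * ‖v‖ * ‖w‖ := by positivity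
      refine le_of_mul_le_mul_left ?_ h5
      nlinarith [mul_nonneg h5.le h6]

end Crest.Agent.N207.H

end
end

-- ▼ part N207/H/Dec
section

/-!
# Row 207, block H: the contact point lemma for the neck barrier

`bψ A B s = A s^(-5/6) + B s^(-1/2)` (`s = r²`). If `P - Λ bψ(ρ)³` has a local maximum `0` at `x`,
`|∇ρ|² ≤ 4.1 ρ` and `Δρ ≥ 7.9`, then `P ΔP - (2/3)|∇P|² ≤ -(9/10) P²/ρ` at `x`.
-/

set_option autoImplicit false

open scoped ContDiff Topology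
open Set Filter
open Crest.GeometryTopology.CoordMetric
open Crest.Agent.R247.Bo84

noncomputable section

namespace Crest.Agent.N207.H

/-- the cube root of the barrier, as a function of `s = r²` -/
def bψ (A B s : ℝ) : ℝ := A * s ^ (-5 / 6 : ℝ) + B * s ^ (-1 / 2 : ℝ)

/-- its first derivative -/
def bψ1 (A B s : ℝ) : ℝ := (-5 / 6 * (A * s ^ (-5 / 6 : ℝ)) - 1 / 2 * (B * s ^ (-1 / 2 : ℝ))) / s

/-- its second derivative -/
def bψ2 (A B s : ℝ) : ℝ :=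
  (55 / 36 * (A * s ^ (-5 / 6 : ℝ)) + 3 / 4 * (B * s ^ (-1 / 2 : ℝ))) / s ^ 2

theorem hasDerivAt_rpow' (p : ℝ) {s : ℝ} (hs : 0 < s) :
    HasDerivAt (fun s : ℝ => s ^ p) (p * s ^ p / s) s := by
  have h := Real.hasDerivAt_rpow_const (p := p) (Or.inl hs.ne')
  convert h using 1
  rw [Real.rpow_sub_one hs.ne']
  ring

theorem hasDerivAt_bψ (A B : ℝ) {s : ℝ} (hs : 0 < s) : HasDerivAt (bψ A B) (bψ1 A B s) s := by
  have h := ((hasDerivAt_rpow' (-5 / 6) hs).const_mul A).add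
    ((hasDerivAt_rpow' (-1 / 2) hs).const_mul B)
  refine HasDerivAt.congr_deriv (f := bψ A B) h ?_
  simp only [bψ1]; ring

theorem hasDerivAt_bψ1 (A B : ℝ) {s : ℝ} (hs : 0 < s) : HasDerivAt (bψ1 A B) (bψ2 A B s) s := by
  have h := ((((hasDerivAt_rpow' (-5 / 6) hs).const_mul A).const_mul (-5 / 6)).sub
    (((hasDerivAt_rpow' (-1 / 2) hs).const_mul B).const_mul (1 / 2))).div (hasDerivAt_id s) hs.ne'
  refine HasDerivAt.congr_deriv (f := bψ1 A B) h ?_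
  simp only [bψ2, id, Pi.sub_apply]
  field_simp
  ring

theorem contDiffAt_bψ (A B : ℝ) {s : ℝ} (hs : 0 < s) : ContDiffAt ℝ 2 (bψ A B) s :=
  (contDiffAt_const.mul (contDiffAt_id.rpow_const_of_ne hs.ne')).add
    (contDiffAt_const.mul (contDiffAt_id.rpow_const_of_ne hs.ne'))

theorem deriv_bψ3 (A B : ℝ) {s : ℝ} (hs : 0 < s) :
    deriv (fun s => bψ A B s ^ 3) s = 3 * bψ A B s ^ 2 * bψ1 A B s := by
  have h := ((hasDerivAt_bψ A B hs).pow 3).deriv
  refine Eq.trans ?_ (h.trans ?_)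
  · rfl
  · push_cast; ring

theorem deriv2_bψ3 (A B : ℝ) {s : ℝ} (hs : 0 < s) :
    deriv (deriv fun s => bψ A B s ^ 3) s =
      6 * bψ A B s * bψ1 A B s ^ 2 + 3 * bψ A B s ^ 2 * bψ2 A B s := by
  have e : deriv (fun s => bψ A B s ^ 3) =ᶠ[𝓝 s] fun s => 3 * bψ A B s ^ 2 * bψ1 A B s := by
    filter_upwards [Ioi_mem_nhds hs] with t ht using deriv_bψ3 A B ht
  rw [e.deriv_eq]
  have h := ((((hasDerivAt_bψ A B hs).pow 2).const_mul 3).mul (hasDerivAt_bψ1 A B hs)).deriv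
  refine Eq.trans ?_ (h.trans ?_)
  · rfl
  · simp only [Pi.pow_apply]; push_cast; ring

/-- the barrier inequality -/
theorem bψ_super {A B s g l : ℝ} (hA : 0 ≤ A) (hB : 0 ≤ B) (hs : 0 < s) (hg : g ≤ 41 / 10 * s)
    (hl : 79 / 10 ≤ l) : bψ2 A B s * g + bψ1 A B s * l ≤ -(3 / 10) * bψ A B s / s := by
  have hu : 0 ≤ A * s ^ (-5 / 6 : ℝ) := mul_nonneg hA (Real.rpow_nonneg hs.le _)
  have hw : 0 ≤ B * s ^ (-1 / 2 : ℝ) := mul_nonneg hB (Real.rpow_nonneg hs.le _)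
  simp only [bψ, bψ1, bψ2]
  generalize A * s ^ (-5 / 6 : ℝ) = u at hu ⊢
  generalize B * s ^ (-1 / 2 : ℝ) = w at hw ⊢
  have h1 : (55 / 36 * u + 3 / 4 * w) / s ^ 2 * g ≤ (55 / 36 * u + 3 / 4 * w) / s ^ 2 * (41 / 10 * s) :=
    mul_le_mul_of_nonneg_left hg (by positivity)
  have h2 : (5 / 6 * u + 1 / 2 * w) / s * (79 / 10) ≤ (5 / 6 * u + 1 / 2 * w) / s * l :=
    mul_le_mul_of_nonneg_left hl (by positivity)
  have e1 : (55 / 36 * u + 3 / 4 * w) / s ^ 2 * (41 / 10 * s) =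
      41 / 10 * (55 / 36 * (u / s) + 3 / 4 * (w / s)) := by field_simp
  have e2 : (5 / 6 * u + 1 / 2 * w) / s * (79 / 10) = 79 / 10 * (5 / 6 * (u / s) + 1 / 2 * (w / s)) := by
    field_simp
  have e3 : (-5 / 6 * u - 1 / 2 * w) / s * l = -((5 / 6 * u + 1 / 2 * w) / s * l) := by ring
  have e4 : -(3 / 10) * (u + w) / s = -(3 / 10) * (u / s + w / s) := by ring
  have hus : 0 ≤ u / s := by positivity
  have hws : 0 ≤ w / s := by positivity
  rw [e3, e4]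
  linarith

variable {n : ℕ} {G : MetricField n} {U : Set (EuclideanSpace ℝ (Fin n))}
  {x : EuclideanSpace ℝ (Fin n)}

theorem lap_nonpos_of_max (hg : IsRiemannianOn G U) (hx : x ∈ U)
    {f : EuclideanSpace ℝ (Fin n) → ℝ} (hf : ContDiffAt ℝ 2 f x) (hm : IsLocalMax f x) :
    laplaceBeltrami G f x ≤ 0 := by
  have h1 : IsLocalMin (fun y => (-1) * f y) x := by
    filter_upwards [hm] with q hq
    linarith
  have hf' : ContDiffAt ℝ 2 (fun y => (-1) * f y) x := contDiffAt_const.mul hf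
  have h2 : 0 ≤ laplaceBeltrami G (fun y => (-1) * f y) x := by
    obtain ⟨ξ, hξ⟩ := exists_frame hg hx
    rw [lap_frame hg hx hf' hξ]
    refine Finset.sum_nonneg fun a _ => ?_
    rw [hess_apply, h1.fderiv_eq_zero]
    simpa using Crest.Agent.R226.EucMin77.hess_nonneg_of_isLocalMin hf' h1 (ξ a)
  rw [lap_const_mul hg hx (-1) hf] at h2
  linarith

/-- **contact point lemma** -/
theorem contact (hg : IsRiemannianOn G U) (hx : x ∈ U) {P ρ : EuclideanSpace ℝ (Fin n) → ℝ}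
    (hP : ContDiffAt ℝ 2 P x) (hρ : ContDiffAt ℝ 2 ρ x) (hρ0 : 0 < ρ x) {A B Λ : ℝ}
    (hA : 0 ≤ A) (hB : 0 ≤ B) (hΛ : 0 ≤ Λ)
    (hm : IsLocalMax (fun y => P y - Λ * bψ A B (ρ y) ^ 3) x)
    (he : P x = Λ * bψ A B (ρ x) ^ 3) (h1 : gam G ρ ρ x ≤ 41 / 10 * ρ x)
    (h2 : 79 / 10 ≤ laplaceBeltrami G ρ x) :
    P x * laplaceBeltrami G P x - 2 / 3 * gam G P P x ≤ -(9 / 10) * P x ^ 2 / ρ x := by
  have hφ : ContDiffAt ℝ 2 (fun s => bψ A B s ^ 3) (ρ x) := (contDiffAt_bψ A B hρ0).pow 3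
  have hh : ContDiffAt ℝ 2 (fun y => bψ A B (ρ y) ^ 3) x := hφ.comp x hρ
  have hΛh : ContDiffAt ℝ 2 (fun y => Λ * bψ A B (ρ y) ^ 3) x := contDiffAt_const.mul hh
  have hρd : DifferentiableAt ℝ ρ x := hρ.differentiableAt (by norm_num)
  have hφd : DifferentiableAt ℝ (fun s => bψ A B s ^ 3) (ρ x) := hφ.differentiableAt (by norm_num)
  have hhd : DifferentiableAt ℝ (fun y => bψ A B (ρ y) ^ 3) x := hh.differentiableAt (by norm_num)
  have l1 := lap_nonpos_of_max hg hx (hP.sub hΛh) hm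
  rw [lap_sub hg hx hP hΛh, lap_const_mul hg hx Λ hh,
    lap_comp hg hx (φ := fun s => bψ A B s ^ 3) hφ hρ, deriv_bψ3 A B hρ0,
    deriv2_bψ3 A B hρ0] at l1
  have d1 : fderiv ℝ P x = fderiv ℝ (fun y => Λ * bψ A B (ρ y) ^ 3) x := by
    have := hm.fderiv_eq_zero
    rw [fderiv_fun_sub (hP.differentiableAt (by norm_num)) (hΛh.differentiableAt (by norm_num)),
      sub_eq_zero] at this
    exact this
  have g1 : gam G P P x = (Λ * (3 * bψ A B (ρ x) ^ 2 * bψ1 A B (ρ x))) ^ 2 * gam G ρ ρ x := by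
    rw [gam_congr_fderiv d1 d1, gam_const_mul_left Λ hhd, gam_const_mul_right Λ hhd,
      gam_comp_left (φ := fun s => bψ A B s ^ 3) hφd hρd,
      gam_comp_right (φ := fun s => bψ A B s ^ 3) hφd hρd, deriv_bψ3 A B hρ0]
    ring
  have hψ0 : 0 ≤ bψ A B (ρ x) :=
    add_nonneg (mul_nonneg hA (Real.rpow_nonneg hρ0.le _))
      (mul_nonneg hB (Real.rpow_nonneg hρ0.le _))
  have s1 := bψ_super hA hB hρ0 h1 h2
  rw [g1, he]
  generalize bψ A B (ρ x) = ψ at *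
  generalize bψ1 A B (ρ x) = ψ1 at *
  generalize bψ2 A B (ρ x) = ψ2 at *
  generalize gam G ρ ρ x = γ at *
  generalize laplaceBeltrami G ρ x = l at *
  generalize laplaceBeltrami G P x = L at *
  have hP0 : 0 ≤ Λ * ψ ^ 3 := by positivity
  have a1 : Λ * ψ ^ 3 * L ≤
      Λ * ψ ^ 3 * (Λ * (3 * ψ ^ 2 * ψ1 * l + (6 * ψ * ψ1 ^ 2 + 3 * ψ ^ 2 * ψ2) * γ)) :=
    mul_le_mul_of_nonneg_left (by linarith) hP0
  have a2 : 3 * Λ ^ 2 * ψ ^ 5 * (ψ2 * γ + ψ1 * l) ≤ 3 * Λ ^ 2 * ψ ^ 5 * (-(3 / 10) * ψ / ρ x) :=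
    mul_le_mul_of_nonneg_left s1 (by positivity)
  have a3 : 3 * Λ ^ 2 * ψ ^ 5 * (-(3 / 10) * ψ / ρ x) = -(9 / 10) * (Λ * ψ ^ 3) ^ 2 / ρ x := by
    ring
  rw [← a3]
  nlinarith [a1, a2]

theorem bψ_eq (A B : ℝ) {s : ℝ} (hs : 0 < s) :
    ∃ u : ℝ, 0 ≤ u ∧ u ^ 3 = 1 / √s ^ 5 ∧ bψ A B s = A * u + B * (1 / √s) := by
  refine ⟨s ^ (-5 / 6 : ℝ), Real.rpow_nonneg hs.le _, ?_, ?_⟩
  · rw [Real.sqrt_eq_rpow, ← Real.rpow_natCast, ← Real.rpow_natCast, ← Real.rpow_mul hs.le,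
      ← Real.rpow_mul hs.le, one_div, ← Real.rpow_neg hs.le]
    norm_num
  · rw [bψ, Real.sqrt_eq_rpow, one_div (s ^ (1 / 2 : ℝ)), ← Real.rpow_neg hs.le]
    norm_num

theorem continuousOn_bψ (A B : ℝ) : ContinuousOn (bψ A B) (Ioi 0) := fun _ hs =>
  (hasDerivAt_bψ A B hs).continuousAt.continuousWithinAt

/-- the numerical contradiction at a contact point -/
theorem dec_num {C δ K b r P L Γ τ E1 E2 : ℝ} (hC : 1 ≤ C) (hδ : 0 < δ) (hK : 0 ≤ K) (hr : 0 < r)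
    (hrb : r ≤ b) (h1 : C * δ ≤ 1 / 10) (h2 : C * (K * b) ≤ δ / 10)
    (hlo : δ ^ 2 / (b * r ^ 3) ≤ P) (hup : P ≤ δ ^ 2 / r ^ 4)
    (hE1 : E1 ≤ K ^ 2 / r ^ 4) (hE2 : E2 ≤ K ^ 2 / r ^ 6)
    (hB : 2 * τ - C * (P * √P + √P * √E2) ≤ L) (hKa : Γ ≤ 3 * P * τ + C * P * E1)
    (hc : P * L - 2 / 3 * Γ ≤ -(9 / 10) * P ^ 2 / r ^ 2) : False := by
  have hb : 0 < b := hr.trans_le hrb
  have hP : 0 < P := lt_of_lt_of_le (by positivity) hlo
  obtain ⟨p, hp⟩ : ∃ p, p = √P := ⟨_, rfl⟩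
  have hp0 : 0 < p := hp ▸ Real.sqrt_pos.2 hP
  have hp2 : P = p ^ 2 := by rw [hp, Real.sq_sqrt hP.le]
  rw [← hp] at hB
  have u1 : p ≤ δ / r ^ 2 := by
    rw [hp, Real.sqrt_le_left (by positivity), div_pow, ← pow_mul]; exact hup
  have u2 : δ / (b * r) ≤ p := by
    rw [hp]
    refine Real.le_sqrt_of_sq_le (le_trans ?_ hlo)
    rw [div_pow]
    refine div_le_div_of_nonneg_left (by positivity) (by positivity) ?_
    nlinarith [mul_le_mul_of_nonneg_left hrb (by positivity : 0 ≤ b * r ^ 2)]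
  have u3 : √E2 ≤ K / r ^ 3 := by
    rw [Real.sqrt_le_left (by positivity), div_pow, ← pow_mul]; exact hE2
  have u4 : C * (K / r) ≤ p / 10 := by
    have : δ ≤ p * (b * r) := by rwa [div_le_iff₀ (by positivity)] at u2
    rw [← mul_div_assoc, div_le_iff₀ hr]
    have h3 : C * K * b ≤ p / 10 * r * b := by nlinarith
    exact le_of_mul_le_mul_right h3 hb
  have u5 : K / r ≤ p / 10 := le_trans (le_mul_of_one_le_left (by positivity) hC) u4
  obtain ⟨w, hw⟩ : ∃ w, w = 1 / r ^ 2 := ⟨_, rfl⟩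
  have hw0 : 0 < w := by rw [hw]; positivity
  obtain ⟨k, hk⟩ : ∃ k, k = K / r := ⟨_, rfl⟩
  have hk0 : 0 ≤ k := by rw [hk]; positivity
  have v1 : C * p ≤ w / 10 := by
    have : p ≤ δ * w := by rw [hw, mul_one_div]; exact u1
    nlinarith [mul_le_mul_of_nonneg_left this (by linarith : 0 ≤ C)]
  have v2 : C * √E2 ≤ p / 10 * w := by
    have e : K / r ^ 3 = k * w := by rw [hk, hw]; field_simp
    rw [e] at u3
    rw [← hk] at u4
    calc C * √E2 ≤ C * (k * w) := by gcongr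
      _ = C * k * w := by ring
      _ ≤ p / 10 * w := by gcongr
  have v3 : C * E1 ≤ p ^ 2 / 100 * w := by
    have e : K ^ 2 / r ^ 4 = k ^ 2 * w := by rw [hk, hw]; field_simp
    rw [e] at hE1
    rw [← hk] at u4 u5
    calc C * E1 ≤ C * (k ^ 2 * w) := by gcongr
      _ = (C * k) * k * w := by ring
      _ ≤ p / 10 * (p / 10) * w := by gcongr
      _ = _ := by ring
  have e : -(9 / 10) * P ^ 2 / r ^ 2 = -(9 / 10) * P ^ 2 * w := by rw [hw]; ring
  rw [e] at hc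
  have a1 : P * (2 * τ - C * (P * p + p * √E2)) ≤ P * L := mul_le_mul_of_nonneg_left hB hP.le
  have a2 : P * (P * (C * p)) ≤ P * (P * (w / 10)) := by gcongr
  have a3 : P * (p * (C * √E2)) ≤ P * (p * (p / 10 * w)) := by gcongr
  have a4 : P * (C * E1) ≤ P * (p ^ 2 / 100 * w) := by gcongr
  have a5 : 0 < P ^ 2 * w := by positivity
  have a6 : P * (p * (p / 10 * w)) = P ^ 2 * w / 10 := by rw [hp2]; ring
  have a7 : P * (p ^ 2 / 100 * w) = P ^ 2 * w / 100 := by rw [hp2]; ring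
  nlinarith

/-- **abstract decay theorem**. `L = ΔP`, `Γ = |∇P|²`, `τ = |∇Rm|²`, `E1 = |∇Ric|²`,
`E2 = |∇²Ric|²`, `ρ = r²`. -/
theorem decay_abs {X : Type*} [TopologicalSpace X] {S : Set X} (hS : IsCompact S)
    {P ρ L Γ τ E1 E2 : X → ℝ} {C δ K a b : ℝ} (hC : 1 ≤ C) (hδ : 0 < δ) (hK : 0 ≤ K)
    (ha : 0 < a) (hb : 0 < b) (h1 : C * δ ≤ 1 / 10) (h2 : C * (K * b) ≤ δ / 10)
    (hPc : ContinuousOn P S) (hρc : ContinuousOn ρ S) (hρ0 : ∀ x ∈ S, 0 < ρ x)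
    (hup : ∀ x ∈ S, P x ≤ δ ^ 2 / ρ x ^ 2)
    (hin : ∀ x ∈ S, a ^ 2 < ρ x → ρ x < b ^ 2 →
      E1 x ≤ K ^ 2 / ρ x ^ 2 ∧ E2 x ≤ K ^ 2 / ρ x ^ 3 ∧
      2 * τ x - C * (P x * √(P x) + √(P x) * √(E2 x)) ≤ L x ∧
      Γ x ≤ 3 * P x * τ x + C * P x * E1 x ∧
      ∀ A B Λ : ℝ, 0 ≤ A → 0 ≤ B → 0 ≤ Λ →
        IsMaxOn (fun y => P y - Λ * bψ A B (ρ y) ^ 3) S x → P x = Λ * bψ A B (ρ x) ^ 3 →
        P x * L x - 2 / 3 * Γ x ≤ -(9 / 10) * P x ^ 2 / ρ x) :
    ∀ x ∈ S, P x ≤ 4 * δ ^ 2 / ρ x ^ 2 * (a / √(ρ x) + √(ρ x) / b) := by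
  obtain ⟨A, hA0, hA⟩ : ∃ A : ℝ, 0 < A ∧ A ^ 3 = δ ^ 2 * a :=
    ⟨(δ ^ 2 * a) ^ ((3 : ℕ) : ℝ)⁻¹, Real.rpow_pos_of_pos (by positivity) _,
      Real.rpow_inv_natCast_pow (by positivity) (by norm_num)⟩
  obtain ⟨B, hB0, hB⟩ : ∃ B : ℝ, 0 < B ∧ B ^ 3 = δ ^ 2 / b :=
    ⟨(δ ^ 2 / b) ^ ((3 : ℕ) : ℝ)⁻¹, Real.rpow_pos_of_pos (by positivity) _,
      Real.rpow_inv_natCast_pow (by positivity) (by norm_num)⟩
  have bd : ∀ s : ℝ, 0 < s → δ ^ 2 * a / √s ^ 5 ≤ bψ A B s ^ 3 ∧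
      δ ^ 2 / (b * √s ^ 3) ≤ bψ A B s ^ 3 ∧
      bψ A B s ^ 3 ≤ 4 * δ ^ 2 / s ^ 2 * (a / √s + √s / b) := by
    intro s hs
    obtain ⟨u, hu0, hu, e⟩ := bψ_eq A B hs
    have hr : 0 < √s := Real.sqrt_pos.2 hs
    have hs2 : s = √s ^ 2 := (Real.sq_sqrt hs.le).symm
    have e1 : δ ^ 2 * a / √s ^ 5 = (A * u) ^ 3 := by rw [mul_pow, hA, hu]; ring
    have e2 : δ ^ 2 / (b * √s ^ 3) = (B * (1 / √s)) ^ 3 := by rw [mul_pow, hB]; field_simp
    have e3 : 4 * δ ^ 2 / s ^ 2 * (a / √s + √s / b) =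
        4 * (δ ^ 2 * a / √s ^ 5 + δ ^ 2 / (b * √s ^ 3)) := by
      generalize √s = r at hr hs2
      rw [hs2]; field_simp
    have p1 : 0 ≤ A * u := by positivity
    have p2 : 0 ≤ B * (1 / √s) := by positivity
    rw [e3, e1, e2, e]
    generalize A * u = y at p1
    generalize B * (1 / √s) = z at p2
    refine ⟨pow_le_pow_left₀ p1 (by linarith) 3, pow_le_pow_left₀ p2 (by linarith) 3, ?_⟩
    nlinarith [mul_nonneg (add_nonneg p1 p2) (sq_nonneg (y - z))]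
  have hpos : ∀ x ∈ S, 0 < bψ A B (ρ x) ^ 3 := fun x hx => by
    have hr : 0 < √(ρ x) := Real.sqrt_pos.2 (hρ0 x hx)
    exact lt_of_lt_of_le (by positivity) (bd _ (hρ0 x hx)).2.1
  suffices h : ∀ x ∈ S, P x ≤ bψ A B (ρ x) ^ 3 from
    fun x hx => (h x hx).trans (bd _ (hρ0 x hx)).2.2
  by_contra hne
  push Not at hne
  obtain ⟨x1, hx1, hlt⟩ := hne
  have hc : ContinuousOn (fun y => P y / bψ A B (ρ y) ^ 3) S :=
    hPc.div (((continuousOn_bψ A B).comp hρc fun y hy => hρ0 y hy).pow 3)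
      fun y hy => (hpos y hy).ne'
  obtain ⟨x, hx, hmax⟩ := hS.exists_isMaxOn ⟨x1, hx1⟩ hc
  obtain ⟨Λ, hΛ⟩ : ∃ Λ, Λ = P x / bψ A B (ρ x) ^ 3 := ⟨_, rfl⟩
  have hΛ1 : 1 < Λ := by
    have : P x1 / bψ A B (ρ x1) ^ 3 ≤ P x / bψ A B (ρ x) ^ 3 := hmax hx1
    rw [hΛ]
    exact lt_of_lt_of_le ((one_lt_div (hpos x1 hx1)).2 hlt) this
  have he : P x = Λ * bψ A B (ρ x) ^ 3 := by rw [hΛ, div_mul_cancel₀ _ (hpos x hx).ne']
  have hgt : bψ A B (ρ x) ^ 3 < P x := by rw [he]; nlinarith [hpos x hx]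
  have hm : IsMaxOn (fun y => P y - Λ * bψ A B (ρ y) ^ 3) S x := fun y hy => by
    have h3 : P y / bψ A B (ρ y) ^ 3 ≤ Λ := hΛ ▸ hmax hy
    rw [div_le_iff₀ (hpos y hy)] at h3
    change P y - Λ * bψ A B (ρ y) ^ 3 ≤ P x - Λ * bψ A B (ρ x) ^ 3
    linarith
  have hs := hρ0 x hx
  have hr : 0 < √(ρ x) := Real.sqrt_pos.2 hs
  have hs2 : ρ x = √(ρ x) ^ 2 := (Real.sq_sqrt hs.le).symm
  obtain ⟨b1, b2, -⟩ := bd _ hs
  have hu := hup x hx
  obtain ⟨r, hrr⟩ : ∃ r, r = √(ρ x) := ⟨_, rfl⟩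
  rw [← hrr] at hr hs2 b1 b2
  have hu' : P x ≤ δ ^ 2 / r ^ 4 := by rw [hs2, ← pow_mul] at hu; exact hu
  have har : a < r := by
    by_contra h
    push Not at h
    have : δ ^ 2 / r ^ 4 ≤ δ ^ 2 * a / r ^ 5 := by
      rw [div_le_div_iff₀ (by positivity) (by positivity)]
      nlinarith [mul_le_mul_of_nonneg_left h (by positivity : 0 ≤ δ ^ 2 * r ^ 4)]
    linarith
  have hrb : r < b := by
    by_contra h
    push Not at h
    have : δ ^ 2 / r ^ 4 ≤ δ ^ 2 / (b * r ^ 3) := by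
      refine div_le_div_of_nonneg_left (by positivity) (by positivity) ?_
      nlinarith [mul_le_mul_of_nonneg_left h (by positivity : 0 ≤ r ^ 3)]
    linarith
  obtain ⟨i1, i2, i3, i4, i5⟩ := hin x hx (by rw [hs2]; gcongr) (by rw [hs2]; gcongr)
  have i6 := i5 A B Λ hA0.le hB0.le (by linarith) hm he
  rw [hs2, ← pow_mul] at i1 i2
  rw [hs2] at i6
  exact dec_num hC hδ hK hr hrb.le h1 h2 (by linarith) hu' i1 i2 i3 i4 i6

end Crest.Agent.N207.H

end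
end

-- ▼ part N207/H/Curv1
section

/-!
# Row 207, block H (helper10): the function `|x|²` and radial functions on a neck
-/

set_option autoImplicit false
set_option linter.unusedSectionVars false

open scoped ContDiff Manifold Topology
open Set Filter Metric
open Crest.GeometryTopology.CoordMetric
open Crest.Agent.R202.Tens Crest.Agent.N207.Sk Crest.Agent.R247

noncomputable section

namespace Crest.Agent.N207.H

/-- `ρ = |x|²` -/
def rho (x : E4) : ℝ := ‖x‖ ^ 2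

theorem rho_cd : ContDiff ℝ ∞ rho := contDiff_norm_sq ℝ



section
variable {G : MetricField 4} {U : Set E4} {x : E4} {η : ℝ}



end

variable {M : Type*} [TopologicalSpace M] [ChartedSpace E4 M] [IsManifold 𝓘(ℝ, E4) ∞ M]

/-- smoothness can be checked in a parametrisation -/
theorem contMDiffAt_of_par {Ψ : E4 → M} {U : Set E4} (hP : Par Ψ U) {y : E4} (hy : y ∈ U)
    {u : M → ℝ} {f : E4 → ℝ} (hf : ContDiff ℝ ∞ f) (e : ∀ z ∈ U, u (Ψ z) = f z) :
    ContMDiffAt 𝓘(ℝ, E4) 𝓘(ℝ, ℝ) ∞ u (Ψ y) := by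
  obtain ⟨T, V, hV, hyV, hVU, -, hT, hm⟩ := Gs.exists_trans0 (Par.chart (Ψ y)) hP
    (ctr_mem (Ψ y)) hy (symm_ctr (Ψ y)).symm
  refine contMDiffAt_of_inCh (mem_chart_source E4 _) ?_
  refine (hf.contDiffAt.comp _ (hT.contDiffAt (hV.mem_nhds hyV))).congr_of_eventuallyEq ?_
  filter_upwards [hV.mem_nhds hyV] with z hz
  rw [Function.comp, ← e _ (hm z hz).1, (hm z hz).2]; rfl

open Classical in
/-- the radial function `φ(|x|²)` on a neck, extended by zero -/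
def rad (N : Nk M) (φ : ℝ → ℝ) (p : M) : ℝ :=
  if h : ∃ y ∈ shell N.a N.b, N.Ψ y = p then φ (rho h.choose) else 0

theorem rad_apply {N : Nk M} (hN : N.Top) (φ : ℝ → ℝ) {y : E4} (hy : y ∈ shell N.a N.b) :
    rad N φ (N.Ψ y) = φ (rho y) := by
  have h : ∃ z ∈ shell N.a N.b, N.Ψ z = N.Ψ y := ⟨y, hy, rfl⟩
  rw [rad, dif_pos h]
  obtain ⟨γ, -, e⟩ := (hN.fib _ h.choose_spec.1 y hy).1 h.choose_spec.2
  have : rho h.choose = rho y := by
    generalize h.choose = w at e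
    rw [← e, rho, rho, γ.norm_map]
  rw [this]

theorem rad_zero {N : Nk M} (hN : N.Top) {φ : ℝ → ℝ} {S : Set E4}
    (h0 : ∀ y ∈ shell N.a N.b, y ∉ S → φ (rho y) = 0) {p : M} (hp : p ∉ N.Ψ '' S) :
    rad N φ p = 0 := by
  by_cases h : ∃ y ∈ shell N.a N.b, N.Ψ y = p
  · obtain ⟨y, hy, rfl⟩ := h
    rw [rad_apply hN φ hy]
    exact h0 y hy fun hs => hp ⟨y, hs, rfl⟩
  · rw [rad, dif_neg h]

variable [T3Space M]

theorem rad_ev {N : Nk M} (hN : N.Top) {φ : ℝ → ℝ} {S : Set E4} (hS : IsCompact S)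
    (hs : S ⊆ shell N.a N.b) (h0 : ∀ y ∈ shell N.a N.b, y ∉ S → φ (rho y) = 0) {p : M}
    (hp : p ∉ N.Ψ '' S) : rad N φ =ᶠ[𝓝 p] fun _ => 0 := by
  filter_upwards [(hS.image_of_continuousOn (hN.par.continuousOn.mono hs)).isClosed.isOpen_compl.mem_nhds
    hp] with q hq using rad_zero hN h0 hq

theorem rad_sm {N : Nk M} (hN : N.Top) {φ : ℝ → ℝ} (hφ : ContDiff ℝ ∞ φ) {S : Set E4}
    (hS : IsCompact S) (hs : S ⊆ shell N.a N.b)
    (h0 : ∀ y ∈ shell N.a N.b, y ∉ S → φ (rho y) = 0) : Sm 4 (rad N φ) := fun p => by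
  by_cases hp : p ∈ N.Ψ '' S
  · obtain ⟨y, hy, rfl⟩ := hp
    exact contMDiffAt_of_par hN.par (hs hy) (hφ.comp rho_cd) fun z hz => rad_apply hN φ hz
  · exact contMDiffAt_const.congr_of_eventuallyEq (rad_ev hN hS hs h0 hp)

theorem rad_gam (g : Met 4 M) {N : Nk M} (hN : N.Top) {φ : ℝ → ℝ} (hφ : ContDiff ℝ ∞ φ)
    {S : Set E4} (hS : IsCompact S) (hs : S ⊆ shell N.a N.b)
    (h0 : ∀ y ∈ shell N.a N.b, y ∉ S → φ (rho y) = 0) {c : ℝ} (hc : 0 ≤ c)
    (h1 : ∀ y ∈ S, deriv φ (rho y) ^ 2 * Bo84.gam (g.pm N.Ψ) rho rho y ≤ c) (p : M) :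
    g.gam (rad N φ) (rad N φ) p ≤ c := by
  by_cases hp : p ∈ N.Ψ '' S
  · obtain ⟨y, hy, rfl⟩ := hp
    have sm := rad_sm hN hφ hS hs h0
    have e : (fun z => rad N φ (N.Ψ z)) =ᶠ[𝓝 y] fun z => φ (rho z) := by
      filter_upwards [hN.par.isOpen.mem_nhds (hs hy)] with z hz using rad_apply hN φ hz
    have d1 : DifferentiableAt ℝ φ (rho y) := hφ.differentiable (by simp) _
    have d2 : DifferentiableAt ℝ rho y := rho_cd.differentiable (by simp) _
    rw [hN.par.par_gam g sm sm (hs hy), Bo84.gam_congr e e, Bo84.gam_comp_left d1 d2,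
      Bo84.gam_comp_right d1 d2, ← mul_assoc, ← sq]
    exact h1 y hy
  · have e : Bo84.inCh 4 p (rad N φ) =ᶠ[𝓝 (ctr 4 p)] fun _ => 0 := by
      have c : ContinuousAt (chartAt E4 p).symm (ctr 4 p) :=
        (chartAt E4 p).continuousAt_symm (ctr_mem p)
      have := rad_ev hN hS hs h0 hp
      rw [← symm_ctr (n := 4) p] at this
      exact c.eventually this
    rw [Met.gam, Bo84.gam_congr e e, Bo84.gam_const_left]
    exact hc

variable [CompactSpace M] [ConnectedSpace M]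

theorem met_lip (g : Met 4 M) {u : M → ℝ} (hu : Sm 4 u) (h : ∀ z, g.gam u u z ≤ 1) (x y : M) :
    u y - u x ≤ g.d x y := by
  rw [Met.d_gs]
  exact Dist.GS.L1.le_d (G := g.gs) ⟨hu, h⟩ x y

theorem exists_beta : ∃ (β : ℝ → ℝ) (L : ℝ), ContDiff ℝ ∞ β ∧ 0 ≤ L ∧ β 1 = 1 ∧
    (∀ s, 1 / 3 ≤ |s - 1| → β s = 0) ∧ ∀ s, |deriv β s| ≤ L := by
  let β : ContDiffBump (1 : ℝ) := ⟨1 / 4, 1 / 3, by norm_num, by norm_num⟩
  obtain ⟨L, hL⟩ := ((β.contDiff (n := 1)).continuous_deriv le_rfl).bounded_above_of_compact_support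
    β.hasCompactSupport.deriv
  exact ⟨β, L, β.contDiff, (norm_nonneg _).trans (hL 0),
    β.one_of_mem_closedBall (mem_closedBall_self β.rIn_pos.le), fun s hs => β.zero_of_le_dist hs, hL⟩

/-- small metric balls stay in a thin shell -/
theorem ball_sub_shell : ∃ c : ℝ, 0 < c ∧ ∀ (g : Met 4 M) (N : Nk M), N.Top →
    (∀ y ∈ shell N.a N.b, Bo84.gam (g.pm N.Ψ) rho rho y ≤ 41 / 10 * rho y) →
    ∀ x : E4, N.a < 3 / 4 * ‖x‖ → 5 / 4 * ‖x‖ < N.b → ∀ p, g.d (N.Ψ x) p < c * ‖x‖ →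
      ∃ y, 3 / 4 * ‖x‖ ≤ ‖y‖ ∧ ‖y‖ ≤ 5 / 4 * ‖x‖ ∧ N.Ψ y = p := by
  obtain ⟨β, L, βc, L0, β1, β0, hL⟩ := exists_beta
  refine ⟨1 / (3 * L + 1), by positivity, fun g N hN hγ x h1 h2 p hp => ?_⟩
  have x0 : 0 < ‖x‖ := by linarith [hN.a_pos]
  obtain ⟨c, hc⟩ : ∃ c, c = 1 / (3 * L + 1) := ⟨_, rfl⟩
  rw [← hc] at hp
  have c0 : 0 < c := by rw [hc]; positivity
  have cL : c * L ≤ 1 / 3 := by rw [hc, one_div_mul_eq_div, div_le_iff₀ (by positivity)]; linarith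
  set S : Set E4 := {y | 3 / 4 * ‖x‖ ≤ ‖y‖ ∧ ‖y‖ ≤ 5 / 4 * ‖x‖} with hSd
  have hS : IsCompact S := (isCompact_closedBall (0 : E4) (5 / 4 * ‖x‖)).of_isClosed_subset
    ((isClosed_le continuous_const continuous_norm).inter
      (isClosed_le continuous_norm continuous_const)) fun y hy => mem_closedBall_zero_iff.2 hy.2
  have hs : S ⊆ shell N.a N.b := fun y hy => ⟨by linarith [hy.1], by linarith [hy.2]⟩
  obtain ⟨φ, hφd⟩ : ∃ φ : ℝ → ℝ, φ = fun s => c * ‖x‖ * β (s / ‖x‖ ^ 2) := ⟨_, rfl⟩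
  have hφ : ContDiff ℝ ∞ φ := hφd ▸ contDiff_const.mul (βc.comp (contDiff_id.div_const _))
  have x2 : 0 < ‖x‖ ^ 2 := by positivity
  have h0 : ∀ y ∈ shell N.a N.b, y ∉ S → φ (rho y) = 0 := fun y _ hy => by
    have : β (rho y / ‖x‖ ^ 2) = 0 := β0 _ (by
      rw [rho]
      rcases not_and_or.1 hy with h | h
      · refine le_abs.2 (Or.inr ?_)
        have : ‖y‖ ^ 2 / ‖x‖ ^ 2 ≤ 2 / 3 := by
          rw [div_le_iff₀ x2]; nlinarith [not_le.1 h, norm_nonneg y]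
        linarith
      · refine le_abs.2 (Or.inl ?_)
        have : 4 / 3 ≤ ‖y‖ ^ 2 / ‖x‖ ^ 2 := by
          rw [le_div_iff₀ x2]; nlinarith [not_le.1 h]
        linarith)
    simp only [hφd, this, mul_zero]
  have dφ : ∀ s, |deriv φ s| ≤ 1 / (3 * ‖x‖) := fun s => by
    have a1 : HasDerivAt β (deriv β (s / ‖x‖ ^ 2)) (s / ‖x‖ ^ 2) :=
      (βc.differentiable (by simp) _).hasDerivAt
    have a2 := ((a1.comp s ((hasDerivAt_id s).div_const (‖x‖ ^ 2))).const_mul (c * ‖x‖)).deriv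
    have a3 : deriv φ s = c * deriv β (s / ‖x‖ ^ 2) / ‖x‖ := hφd ▸ a2.trans (by field_simp)
    rw [a3, abs_div, abs_mul, abs_of_pos c0, abs_of_pos x0, div_le_div_iff₀ x0 (by positivity)]
    have := mul_le_mul_of_nonneg_left (hL (s / ‖x‖ ^ 2)) c0.le
    nlinarith
  have gm := rad_gam g hN hφ hS hs h0 zero_le_one fun y hy => by
    have a1 : deriv φ (rho y) ^ 2 ≤ (1 / (3 * ‖x‖)) ^ 2 := by
      rw [← sq_abs]; exact pow_le_pow_left₀ (abs_nonneg _) (dφ _) 2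
    have a2 : rho y ≤ (5 / 4 * ‖x‖) ^ 2 := pow_le_pow_left₀ (norm_nonneg _) hy.2 2
    calc _ ≤ deriv φ (rho y) ^ 2 * (41 / 10 * (5 / 4 * ‖x‖) ^ 2) :=
          mul_le_mul_of_nonneg_left ((hγ y (hs hy)).trans (by linarith)) (sq_nonneg _)
      _ ≤ (1 / (3 * ‖x‖)) ^ 2 * (41 / 10 * (5 / 4 * ‖x‖) ^ 2) :=
          mul_le_mul_of_nonneg_right a1 (by positivity)
      _ = 41 / 10 * (5 / 12) ^ 2 := by field_simp; ring
      _ ≤ 1 := by norm_num
  by_contra hne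
  have hp' : p ∉ N.Ψ '' S := fun ⟨y, hy, e⟩ => hne ⟨y, hy.1, hy.2, e⟩
  have lip := met_lip g (rad_sm hN hφ hS hs h0) gm p (N.Ψ x)
  rw [rad_zero hN h0 hp', rad_apply hN φ (hs ⟨by linarith, by linarith⟩)] at lip
  have e1 : φ (rho x) = c * ‖x‖ := by
    simp only [hφd, rho, div_self x2.ne', β1, mul_one]
  have e2 : g.d p (N.Ψ x) = g.d (N.Ψ x) p := dist_comm (α := Sl g) _ _
  linarith

end Crest.Agent.N207.H

end
end

-- ▼ part N207/D/Ricb
section

/-!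
# Row 207: the block statement `RICB`
-/

set_option autoImplicit false
set_option linter.unusedSectionVars false

open scoped ContDiff Manifold Topology
open Set MeasureTheory Filter

noncomputable section

namespace Crest.Agent.N207.Sk

variable {M : Type*} [TopologicalSpace M] [ChartedSpace E4 M] [IsManifold 𝓘(ℝ, E4) ∞ M]
  [T3Space M] [ConnectedSpace M] [MeasurableSpace M] [BorelSpace M] [CompactSpace M]


theorem late_mem {F : Flow M} {t : ℝ} (ht : t ∈ late F) : t ∈ Ioo 0 F.T :=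
  ⟨(half_pos F.hT).trans_le ht.1, ht.2⟩



end Crest.Agent.N207.Sk

end
end

-- ▼ part N207/H/Curv
section

/-!
# Row 207, block H (helper10): curvature decay on a rough neck
-/

set_option autoImplicit false
set_option linter.unusedSectionVars false

open scoped ContDiff Manifold Topology
open Set Filter Metric MeasureTheory
open Crest.GeometryTopology.CoordMetric
open Crest.Agent.R202.Tens Crest.Agent.N207.Sk Crest.Agent.R247

noncomputable section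

namespace Crest.Agent.N207.H

theorem le_wt_sq {a b : ℝ} (ha : 0 ≤ a) (hb : 0 ≤ b) (x : E4) :
    a / ‖x‖ + ‖x‖ / b ≤ wt a b x ^ 2 := by
  have h1 := Real.sq_sqrt (show 0 ≤ a / ‖x‖ by positivity)
  have h2 := Real.sq_sqrt (show 0 ≤ ‖x‖ / b by positivity)
  unfold wt
  nlinarith [mul_nonneg (Real.sqrt_nonneg (a / ‖x‖)) (Real.sqrt_nonneg (‖x‖ / b))]

/-- the static decay estimate -/
theorem decay_static (hB : BoRm) (hK : KaRm) : ∃ C : ℝ, 1 ≤ C ∧ ∀ (G : MetricField 4)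
    (a b δ η K : ℝ), 0 < a → 0 < b → 0 < δ → 0 ≤ K → C * δ ≤ 1 / 10 → C * (K * b) ≤ δ / 10 →
    η ≤ 1 / 16000 → 30000 * η ≤ δ → IsRiemannianOn G (shell a b) →
    (∀ x ∈ shell a b, JG 2 G x ‖x‖ η) →
    (∀ x : E4, 3 / 2 * a ≤ ‖x‖ → ‖x‖ ≤ 3 / 4 * b →
      nsq G (covN G (ricT G) 1) x ≤ K ^ 2 / ‖x‖ ^ 4 ∧ nsq G (covN G (ricT G) 2) x ≤ K ^ 2 / ‖x‖ ^ 6) →
    ∀ x : E4, 3 / 2 * a ≤ ‖x‖ → ‖x‖ ≤ 3 / 4 * b →
      nsq G (rmT G) x ≤ 6 * δ ^ 2 / ‖x‖ ^ 4 * (a / ‖x‖ + ‖x‖ / b) := by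
  obtain ⟨C1, h1⟩ := hB
  obtain ⟨C2, h2⟩ := hK
  obtain ⟨C, c0, c1, c2⟩ : ∃ C : ℝ, 1 ≤ C ∧ C1 ≤ C ∧ C2 ≤ C :=
    ⟨max 1 (max C1 C2), le_max_left _ _, (le_max_left _ _).trans (le_max_right _ _),
      (le_max_right _ _).trans (le_max_right _ _)⟩
  refine ⟨C, c0, fun G a b δ η K ha hb hδ K0 k1 k2 η1 η2 hG hJ hE x x1 x2 => ?_⟩
  obtain ⟨S, hSd⟩ : ∃ S : Set E4, S = {y | 3 / 2 * a ≤ ‖y‖ ∧ ‖y‖ ≤ 3 / 4 * b} := ⟨_, rfl⟩
  have mS : ∀ {y}, y ∈ S ↔ 3 / 2 * a ≤ ‖y‖ ∧ ‖y‖ ≤ 3 / 4 * b := by rw [hSd]; exact Iff.rfl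
  have hS : IsCompact S := (isCompact_closedBall (0 : E4) (3 / 4 * b)).of_isClosed_subset
    (hSd ▸ (isClosed_le continuous_const continuous_norm).inter
      (isClosed_le continuous_norm continuous_const))
    fun y hy => mem_closedBall_zero_iff.2 (mS.1 hy).2
  have hs : S ⊆ shell a b := fun y hy => ⟨by linarith [(mS.1 hy).1], by linarith [(mS.1 hy).2]⟩
  have pos : ∀ y ∈ S, 0 < ‖y‖ := fun y hy => ha.trans (hs hy).1
  have sP : ContDiffOn ℝ ∞ (nsq G (rmT G)) (shell a b) := (SmT.rmT hG).ip hG (SmT.rmT hG)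
  have nn : ∀ {k} (T : Tn 4 k), ∀ y ∈ S, 0 ≤ nsq G T y := fun T y hy =>
    Ar.ipA_nonneg (hG.posDef y (hs hy)) _
  have := decay_abs hS (P := nsq G (rmT G)) (ρ := rho) (L := laplaceBeltrami G (nsq G (rmT G)))
    (Γ := Bo84.gam G (nsq G (rmT G)) (nsq G (rmT G))) (τ := nsq G (covN G (rmT G) 1))
    (E1 := nsq G (covN G (ricT G) 1)) (E2 := nsq G (covN G (ricT G) 2)) (a := 3 / 2 * a)
    (b := 3 / 4 * b) c0 hδ K0 (by positivity) (by positivity) k1
    (by nlinarith [mul_nonneg K0 hb.le]) (sP.continuousOn.mono hs) rho_cd.continuous.continuousOn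
    (fun y hy => pow_pos (pos y hy) 2) (fun y hy => by
      have a1 := Rad.jg_rm hG (hs hy) (hJ y (hs hy)) (by linarith) le_rfl (pos y hy)
      have a2 : √(nsq G (rmT G) y) ≤ δ / rho y := by
        rw [← mul_div_assoc] at a1
        exact a1.trans (div_le_div_of_nonneg_right η2 (sq_nonneg _))
      rw [← div_pow]
      exact (Real.sqrt_le_left (div_nonneg hδ.le (sq_nonneg _))).1 a2)
    (fun y hy y1 y2 => by
      have hy' := hs hy
      obtain ⟨e1, e2⟩ := hE y (mS.1 hy).1 (mS.1 hy).2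
      refine ⟨by rw [rho, ← pow_mul]; exact e1, by rw [rho, ← pow_mul]; exact e2, ?_, ?_,
        fun A B Λ hA hB hΛ hm he => ?_⟩
      · have := nn (rmT G) y hy
        refine le_trans ?_ (h1 G _ hG y hy')
        gcongr
      · refine (h2 G _ hG y hy').trans ?_
        have := nn (rmT G) y hy
        have := nn (covN G (ricT G) 1) y hy
        gcongr
      · have nb : S ∈ 𝓝 y := by
          have z1 : 3 / 2 * a < ‖y‖ := lt_of_pow_lt_pow_left₀ 2 (norm_nonneg _) y1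
          have z2 : ‖y‖ < 3 / 4 * b := lt_of_pow_lt_pow_left₀ 2 (by positivity) y2
          filter_upwards [continuous_norm.continuousAt.eventually (Ioo_mem_nhds z1 z2)] with z hz
            using mS.2 ⟨hz.1.le, hz.2.le⟩
        have g1 := (abs_le.1 (Rad.nq_gam hG hy' (hJ y hy') (by linarith))).2
        have g2 := (abs_le.1 (Rad.nq_lap hG hy' (hJ y hy') (by linarith) one_le_two (pos y hy))).1
        refine contact hG hy' ((sP.contDiffAt (hG.isOpen.mem_nhds hy')).of_le Bo84.two_le_infty)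
          (rho_cd.contDiffAt.of_le Bo84.two_le_infty) (pow_pos (pos y hy) 2) hA hB hΛ
          (hm.isLocalMax nb) he ?_ ?_
        · show Bo84.gam G Rad.nq Rad.nq y ≤ 41 / 10 * ‖y‖ ^ 2
          nlinarith [sq_nonneg ‖y‖]
        · show _ ≤ laplaceBeltrami G Rad.nq y
          linarith) x (mS.2 ⟨x1, x2⟩)
  have x0 := pos x (mS.2 ⟨x1, x2⟩)
  rw [rho, Real.sqrt_sq x0.le, ← pow_mul] at this
  refine this.trans ?_
  have e : 3 / 2 * a / ‖x‖ + ‖x‖ / (3 / 4 * b) ≤ 3 / 2 * (a / ‖x‖ + ‖x‖ / b) := by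
    have : ‖x‖ / (3 / 4 * b) = 4 / 3 * (‖x‖ / b) := by field_simp
    have : 0 ≤ ‖x‖ / b := by positivity
    rw [mul_div_assoc]; linarith
  calc _ ≤ 4 * δ ^ 2 / ‖x‖ ^ (2 * 2) * (3 / 2 * (a / ‖x‖ + ‖x‖ / b)) :=
        mul_le_mul_of_nonneg_left e (by positivity)
    _ = _ := by ring

variable {M : Type*} [TopologicalSpace M] [ChartedSpace E4 M] [IsManifold 𝓘(ℝ, E4) ∞ M]
  [CompactSpace M] [T3Space M] [ConnectedSpace M] [MeasurableSpace M] [BorelSpace M]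

/-- **curvature decay on a rough neck** -/
theorem curv {F : Flow M} (hF : Base F) (hB : BoRm) (hK : KaRm) : CURV F := by
  intro η2 η20
  obtain ⟨C, C1, dec⟩ := decay_static hB hK
  obtain ⟨ε0, c, r0, ε00, c0, r00, -, reg⟩ := hF.e.reg _ (half_pos F.hT)
  choose Ce Ce0 reg using reg
  obtain ⟨Cv, Cv0, up⟩ := hF.c.up _ (half_pos F.hT)
  obtain ⟨β, β0, sub⟩ := ball_sub_shell (M := M)
  obtain ⟨δ, δ0, δ1, δ2, δ3⟩ : ∃ δ : ℝ, 0 < δ ∧ C * δ ≤ 1 / 10 ∧ 3 * δ ≤ η2 ∧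
      4 * (Cv * β ^ 4) * δ ≤ ε0 := by
    refine ⟨min (1 / (10 * C)) (min (η2 / 3) (ε0 / (4 * (Cv * β ^ 4)))), by positivity, ?_, ?_, ?_⟩
    · have := (le_div_iff₀ (by positivity)).1
        (min_le_left (1 / (10 * C)) (min (η2 / 3) (ε0 / (4 * (Cv * β ^ 4)))))
      linarith
    · have := (min_le_right (1 / (10 * C)) _).trans (min_le_left (η2 / 3) (ε0 / (4 * (Cv * β ^ 4))))
      linarith
    · have := (le_div_iff₀ (by positivity)).1
        ((min_le_right (1 / (10 * C)) _).trans (min_le_right (η2 / 3) (ε0 / (4 * (Cv * β ^ 4)))))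
      linarith
  have δ4 : δ ≤ 1 := by nlinarith
  obtain ⟨K, K1, K2, K3⟩ : ∃ K : ℝ, 1 ≤ K ∧ Ce 1 / β ^ 4 ≤ K ∧ Ce 2 / β ^ 6 ≤ K := by
    have := Ce0 1; have := Ce0 2
    have : 0 ≤ Ce 1 / β ^ 4 := by positivity
    have : 0 ≤ Ce 2 / β ^ 6 := by positivity
    exact ⟨1 + Ce 1 / β ^ 4 + Ce 2 / β ^ 6, by linarith, by linarith, by linarith⟩
  refine ⟨min (1 / 16000) (δ / 30000), min (min 1 (r0 / β)) (δ / (10 * C * K)),
    fun k => √(Ce k * (26 * δ ^ 2 * (Cv * β ^ 4) + β) / β ^ (4 + 2 * k)), by positivity,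
    by positivity, fun t ht N V hN hR hb x hx => ?_⟩
  have tm := late_mem ht
  have a0 := hN.a_pos
  have b0 : 0 < N.b := a0.trans hN.a_lt
  have b1 : N.b ≤ 1 := hb.trans ((min_le_left _ _).trans (min_le_left _ _))
  have b2 : N.b * β ≤ r0 :=
    (le_div_iff₀ β0).1 (hb.trans ((min_le_left _ _).trans (min_le_right _ _)))
  have b3 : N.b * (10 * C * K) ≤ δ := (le_div_iff₀ (by positivity)).1 (hb.trans (min_le_right _ _))
  have η1 : min (1 / 16000) (δ / 30000) ≤ 1 / 16000 := min_le_left _ _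
  have η2' : min (1 / 16000) (δ / 30000) ≤ δ / 30000 := min_le_right _ _
  have hG := hN.par.riem (F.m t)
  have prm : ∀ y ∈ shell N.a N.b, (F.m t).rm 0 (N.Ψ y) =
      nsq ((F.m t).pm N.Ψ) (rmT ((F.m t).pm N.Ψ)) y := fun y hy => hN.par.par_rm (F.m t) 0 hy
  have en_le : ∀ y : E4, 3 / 2 * N.a ≤ ‖y‖ → ‖y‖ ≤ 3 / 4 * N.b → ∀ m : ℝ, 0 ≤ m →
      (∀ z : E4, 3 / 4 * ‖y‖ ≤ ‖z‖ → ‖z‖ ≤ 5 / 4 * ‖y‖ → (F.m t).rm 0 (N.Ψ z) ≤ m / ‖y‖ ^ 4) →
      F.hc.en t (N.Ψ y) (β * ‖y‖) ≤ m * (Cv * β ^ 4) := by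
    intro y y1 y2 m m0 hm
    have y0 : 0 < ‖y‖ := by linarith
    have := hF.ok.int.fin t tm
    have h1 := norm_setIntegral_le_of_norm_le_const (μ := F.hc.vol t) (f := F.hc.N 0 t)
      (s := F.hc.B t (N.Ψ y) (β * ‖y‖)) (C := m / ‖y‖ ^ 4) (measure_lt_top _ _) fun p hp => by
        obtain ⟨z, z1, z2, rfl⟩ := sub (F.m t) N hN (fun z hz => by
          have := (abs_le.1 (Rad.nq_gam hG hz (hR.jet z hz) (by linarith))).2
          show Bo84.gam _ Rad.nq Rad.nq z ≤ 41 / 10 * ‖z‖ ^ 2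
          nlinarith [sq_nonneg ‖z‖]) y (by linarith) (by linarith) p hp
        rw [Real.norm_of_nonneg (hF.ok.evo.N_nonneg 0 t tm _)]
        exact hm z z1 z2
    refine ((le_abs_self _).trans h1).trans ((mul_le_mul_of_nonneg_left
      (up t ht _ _ (by positivity)) (by positivity)).trans (le_of_eq ?_))
    field_simp
  have quart : ∀ {y z : E4} {m : ℝ}, 0 < ‖y‖ → 0 ≤ m → 3 / 4 * ‖y‖ ≤ ‖z‖ →
      m / ‖z‖ ^ 4 ≤ 256 / 81 * m / ‖y‖ ^ 4 := fun {y z m} y0 m0 h => by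
    calc _ ≤ m / (3 / 4 * ‖y‖) ^ 4 := by gcongr
      _ = _ := by field_simp; ring
  have small : ∀ y : E4, 3 / 2 * N.a ≤ ‖y‖ → ‖y‖ ≤ 3 / 4 * N.b →
      F.hc.en t (N.Ψ y) (β * ‖y‖) ≤ ε0 := fun y y1 y2 => by
    have y0 : 0 < ‖y‖ := by linarith
    refine (en_le y y1 y2 (256 / 81 * δ ^ 2) (by positivity) fun z z1 z2 => ?_).trans ?_
    · have hz : z ∈ shell N.a N.b := ⟨by linarith, by linarith⟩
      have z0 : 0 < ‖z‖ := by linarith
      have a1 := Rad.jg_rm hG hz (hR.jet z hz) (by linarith) le_rfl z0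
      have a2 : √(nsq ((F.m t).pm N.Ψ) (rmT ((F.m t).pm N.Ψ)) z) ≤ δ / ‖z‖ ^ 2 := by
        rw [← mul_div_assoc] at a1
        exact a1.trans (div_le_div_of_nonneg_right (by linarith) (sq_nonneg _))
      rw [Real.sqrt_le_left (by positivity), div_pow, ← pow_mul, ← prm z hz] at a2
      exact a2.trans (quart y0 (sq_nonneg δ) z1)
    · nlinarith [mul_pos (mul_pos Cv0 (pow_pos β0 4)) δ0]
  have R : ∀ k, ∀ y : E4, 3 / 2 * N.a ≤ ‖y‖ → ‖y‖ ≤ 3 / 4 * N.b →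
      (F.m t).rm k (N.Ψ y) ≤
        Ce k * (F.hc.en t (N.Ψ y) (β * ‖y‖) + β * ‖y‖) / (β * ‖y‖) ^ (4 + 2 * k) ∧
      (F.m t).rc k (N.Ψ y) ≤ Ce k / (β * ‖y‖) ^ (2 + 2 * k) := fun k y y1 y2 => by
    have y0 : 0 < ‖y‖ := by linarith
    have s0 : 0 < β * ‖y‖ := by positivity
    exact (reg k t ht (N.Ψ y) _ s0 (by nlinarith) (small y y1 y2) (N.Ψ y)
      (by show F.hc.d t _ _ < _; rw [hF.ok.dist.self t tm]; positivity)).1 t tm
      (by rw [sub_self, abs_zero]; positivity)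
  have D := dec _ N.a N.b δ _ K a0 b0 δ0 (by linarith) δ1 (by linarith) η1 (by linarith) hG hR.jet
    fun y y1 y2 => by
      have y0 : 0 < ‖y‖ := by linarith
      have hy : y ∈ shell N.a N.b := ⟨by linarith, by linarith⟩
      rw [← hN.par.par_rc (F.m t) 1 hy, ← hN.par.par_rc (F.m t) 2 hy]
      have kk : K ≤ K ^ 2 := by nlinarith
      refine ⟨(R 1 y y1 y2).2.trans ?_, (R 2 y y1 y2).2.trans ?_⟩
      · rw [mul_pow, ← div_div]
        exact div_le_div_of_nonneg_right (K2.trans kk) (by positivity)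
      · rw [mul_pow, ← div_div]
        exact div_le_div_of_nonneg_right (K3.trans kk) (by positivity)
  have x1 := hx.1
  have x2 := hx.2
  have x0 : 0 < ‖x‖ := by linarith
  have W := le_wt_sq a0.le b0.le x
  have p1 : 0 ≤ N.a / ‖x‖ := by positivity
  have p2 : 0 ≤ ‖x‖ / N.b := by positivity
  refine ⟨?_, fun k => ?_⟩
  · rw [prm x ⟨by linarith, by linarith⟩]
    refine (D x (by linarith) (by linarith)).trans ?_
    have : 6 * δ ^ 2 ≤ η2 ^ 2 := by nlinarith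
    calc _ ≤ η2 ^ 2 / ‖x‖ ^ 4 * wt N.a N.b x ^ 2 := by gcongr
      _ = _ := by ring
  · have e1 := en_le x (by linarith) (by linarith) (26 * δ ^ 2 * wt N.a N.b x ^ 2) (by positivity)
      fun z z1 z2 => by
        have z0 : 0 < ‖z‖ := by linarith
        rw [prm z ⟨by linarith, by linarith⟩]
        refine (D z (by linarith) (by linarith)).trans ?_
        have a1 : N.a / ‖z‖ ≤ 4 / 3 * (N.a / ‖x‖) := by
          calc _ ≤ N.a / (3 / 4 * ‖x‖) := by gcongr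
            _ = _ := by field_simp
        have a2 : ‖z‖ / N.b ≤ 5 / 4 * (‖x‖ / N.b) := by
          rw [← mul_div_assoc]; gcongr
        calc _ ≤ 256 / 81 * (6 * δ ^ 2) / ‖x‖ ^ 4 * (4 / 3 * wt N.a N.b x ^ 2) :=
              mul_le_mul (quart x0 (by positivity) z1) (by linarith) (by positivity) (by positivity)
          _ = 2048 / 81 * (δ ^ 2 * wt N.a N.b x ^ 2) / ‖x‖ ^ 4 := by ring
          _ ≤ _ := div_le_div_of_nonneg_right (by nlinarith [sq_nonneg (δ * wt N.a N.b x)])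
              (by positivity)
    have e2 : ‖x‖ ≤ wt N.a N.b x ^ 2 := by
      have : ‖x‖ ≤ ‖x‖ / N.b := by rw [le_div_iff₀ b0]; nlinarith
      linarith
    have e3 := mul_le_mul_of_nonneg_left e2 β0.le
    have := Ce0 k
    refine (R k x (by linarith) (by linarith)).1.trans ?_
    rw [div_pow, mul_pow (√_), Real.sq_sqrt (by positivity)]
    calc _ ≤ Ce k * ((26 * δ ^ 2 * (Cv * β ^ 4) + β) * wt N.a N.b x ^ 2) /
          (β * ‖x‖) ^ (4 + 2 * k) := by gcongr; linarith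
      _ = _ := by field_simp; ring

end Crest.Agent.N207.H

end
end

-- ▼ part N207/H/Kato
section

/-!
# Refined Kato inequality in dimension four (pure algebra)

`R i j k` is a family (index `k : κ`) of 2-forms, `T m i j k` its covariant derivative in an
orthonormal frame: antisymmetric in `i j`, cyclic sum zero (second Bianchi identity),
`D j k = ∑ m, T m m j k` the divergence. Then
`∑ m ⟨R, T m⟩² ≤ |R|² (3/4 |T|² + 4 |D|²)`.
-/

set_option autoImplicit false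

open Finset

namespace Crest.Agent.N207.H

/-- The trace free, `d`-free part of `v ⊗ F`. -/
noncomputable def katoS (v : Fin 4 → ℝ) (F : Fin 4 → Fin 4 → ℝ) (m i j : Fin 4) : ℝ :=
  v m * F i j - (v m * F i j + v i * F j m + v j * F m i) / 3
    - ((if m = i then ∑ a, v a * F a j else 0) - (if m = j then ∑ a, v a * F a i else 0)) / 3

theorem katoS_norm (v : Fin 4 → ℝ) (F : Fin 4 → Fin 4 → ℝ) (hF : ∀ i j, F i j = -F j i) :
    ∑ m, ∑ i, ∑ j, katoS v F m i j ^ 2 = 2 / 3 * (∑ m, v m ^ 2) * ∑ i, ∑ j, F i j ^ 2 := by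
  have h0 : ∀ i, F i i = 0 := fun i => by have := hF i i; linarith
  have h10 := hF 1 0; have h20 := hF 2 0; have h30 := hF 3 0
  have h21 := hF 2 1; have h31 := hF 3 1; have h32 := hF 3 2
  simp only [katoS, Fin.sum_univ_four, h0, h10, h20, h30, h21, h31, h32]
  simp
  ring

theorem katoS_pair (v : Fin 4 → ℝ) (F : Fin 4 → Fin 4 → ℝ) (T : Fin 4 → Fin 4 → Fin 4 → ℝ)
    (hT : ∀ m i j, T m i j = -T m j i) (hc : ∀ m i j, T m i j + T i j m + T j m i = 0) :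
    ∑ m, v m * ∑ i, ∑ j, F i j * T m i j =
      ∑ m, ∑ i, ∑ j, katoS v F m i j * T m i j
        + 2 / 3 * ∑ j, (∑ a, v a * F a j) * ∑ m, T m m j := by
  have e1 : ∑ m, ∑ i, ∑ j, v i * F j m * T m i j = ∑ m, ∑ i, ∑ j, v m * F i j * T j m i := by
    rw [sum_comm]
    refine sum_congr rfl fun i _ => ?_
    rw [sum_comm]
  have e2 : ∑ m, ∑ i, ∑ j, v j * F m i * T m i j = ∑ m, ∑ i, ∑ j, v m * F i j * T i j m := by
    rw [sum_comm]
    have : ∀ i, ∑ m, ∑ j, v j * F m i * T m i j = ∑ j, ∑ m, v j * F m i * T m i j :=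
      fun i => sum_comm
    simp only [this]
    rw [sum_comm]
    refine sum_congr rfl fun j _ => ?_
    rw [sum_comm]
  have e3 : ∑ m, ∑ i, ∑ j, (v m * F i j + v i * F j m + v j * F m i) * T m i j = 0 := by
    simp only [add_mul, sum_add_distrib, e1, e2]
    simp only [← sum_add_distrib]
    refine sum_eq_zero fun m _ => sum_eq_zero fun i _ => sum_eq_zero fun j _ => ?_
    have := hc m i j
    have h2 : T j m i = -(T m i j + T i j m) := by linarith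
    rw [h2]; ring
  have e4 : ∑ m, ∑ i, ∑ j, (if m = i then ∑ a, v a * F a j else 0) * T m i j =
      ∑ j, (∑ a, v a * F a j) * ∑ m, T m m j := by
    simp only [ite_mul, zero_mul]
    have : ∀ m, ∑ i, ∑ j, (if m = i then (∑ a, v a * F a j) * T m i j else 0) =
        ∑ j, (∑ a, v a * F a j) * T m m j := by
      intro m
      rw [sum_comm]
      simp
    simp only [this]
    rw [sum_comm]
    simp only [mul_sum]
  have e5 : ∑ m, ∑ i, ∑ j, (if m = j then ∑ a, v a * F a i else 0) * T m i j =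
      -∑ j, (∑ a, v a * F a j) * ∑ m, T m m j := by
    simp only [ite_mul, zero_mul, sum_ite_eq, mem_univ, if_true]
    rw [sum_comm, ← sum_neg_distrib]
    refine sum_congr rfl fun i _ => ?_
    rw [mul_sum, ← sum_neg_distrib]
    refine sum_congr rfl fun m _ => ?_
    rw [hT m i m]; ring
  have e6 : ∑ m, ∑ i, ∑ j, katoS v F m i j * T m i j =
      ∑ m, ∑ i, ∑ j, v m * F i j * T m i j
        - (∑ m, ∑ i, ∑ j, (v m * F i j + v i * F j m + v j * F m i) * T m i j) / 3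
        - ((∑ m, ∑ i, ∑ j, (if m = i then ∑ a, v a * F a j else 0) * T m i j)
          - ∑ m, ∑ i, ∑ j, (if m = j then ∑ a, v a * F a i else 0) * T m i j) / 3 := by
    simp only [sum_div, ← sum_sub_distrib]
    refine sum_congr rfl fun m _ => sum_congr rfl fun i _ => sum_congr rfl fun j _ => ?_
    simp only [katoS]; ring
  have e7 : ∑ m, v m * ∑ i, ∑ j, F i j * T m i j = ∑ m, ∑ i, ∑ j, v m * F i j * T m i j := by
    simp only [mul_sum, mul_assoc]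
  rw [e6, e3, e4, e5, e7]
  ring

theorem kato_w_le (v : Fin 4 → ℝ) (F : Fin 4 → Fin 4 → ℝ) :
    ∑ j, (∑ a, v a * F a j) ^ 2 ≤ (∑ m, v m ^ 2) * ∑ i, ∑ j, F i j ^ 2 := by
  rw [sum_comm, mul_sum]
  exact sum_le_sum fun j _ => sum_mul_sq_le_sq_mul_sq _ _ _

/-- `x ≤ √a √b` form of Cauchy–Schwarz used below. -/
theorem le_sqrt_mul_of_sq {ι : Type*} (s : Finset ι) (f g : ι → ℝ) :
    ∑ i ∈ s, f i * g i ≤ √(∑ i ∈ s, f i ^ 2) * √(∑ i ∈ s, g i ^ 2) :=
  Real.sum_mul_le_sqrt_mul_sqrt s f g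

/-- **Refined Kato inequality** in dimension four. -/
theorem kato {κ : Type*} [Fintype κ] (R : Fin 4 → Fin 4 → κ → ℝ)
    (T : Fin 4 → Fin 4 → Fin 4 → κ → ℝ) (hR : ∀ i j k, R i j k = -R j i k)
    (hT : ∀ m i j k, T m i j k = -T m j i k)
    (hc : ∀ m i j k, T m i j k + T i j m k + T j m i k = 0) :
    ∑ m, (∑ i, ∑ j, ∑ k, R i j k * T m i j k) ^ 2 ≤
      (∑ i, ∑ j, ∑ k, R i j k ^ 2) *
        (3 / 4 * (∑ m, ∑ i, ∑ j, ∑ k, T m i j k ^ 2) + 4 * ∑ j, ∑ k, (∑ m, T m m j k) ^ 2) := by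
  obtain ⟨v, hv⟩ : ∃ v : Fin 4 → ℝ, ∀ m, v m = ∑ i, ∑ j, ∑ k, R i j k * T m i j k :=
    ⟨_, fun _ => rfl⟩
  simp only [← hv]
  obtain ⟨V, hV⟩ : ∃ V, V = ∑ m, v m ^ 2 := ⟨_, rfl⟩
  obtain ⟨P, hP⟩ : ∃ P, P = ∑ i, ∑ j, ∑ k, R i j k ^ 2 := ⟨_, rfl⟩
  obtain ⟨τ, hτ⟩ : ∃ τ, τ = ∑ m, ∑ i, ∑ j, ∑ k, T m i j k ^ 2 := ⟨_, rfl⟩
  obtain ⟨D, hD⟩ : ∃ D, D = ∑ j, ∑ k, (∑ m, T m m j k) ^ 2 := ⟨_, rfl⟩
  rw [← hV, ← hP, ← hτ, ← hD]
  have hV0 : 0 ≤ V := hV ▸ sum_nonneg fun _ _ => sq_nonneg _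
  have hP0 : 0 ≤ P := hP ▸ sum_nonneg fun _ _ => sum_nonneg fun _ _ =>
    sum_nonneg fun _ _ => sq_nonneg _
  have hτ0 : 0 ≤ τ := hτ ▸ sum_nonneg fun _ _ => sum_nonneg fun _ _ =>
    sum_nonneg fun _ _ => sum_nonneg fun _ _ => sq_nonneg _
  have hD0 : 0 ≤ D := hD ▸ sum_nonneg fun _ _ => sum_nonneg fun _ _ => sq_nonneg _
  have hPk : P = ∑ k, ∑ i, ∑ j, R i j k ^ 2 := by
    rw [hP, sum_comm (s := (univ : Finset κ))]
    exact sum_congr rfl fun i _ => sum_comm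
  have e0 : V = ∑ k, ∑ m, v m * ∑ i, ∑ j, R i j k * T m i j k := by
    rw [hV, sum_comm]
    refine sum_congr rfl fun m _ => ?_
    rw [← mul_sum, sq]
    congr 1
    rw [hv, sum_comm (s := (univ : Finset κ))]
    exact sum_congr rfl fun i _ => sum_comm
  have e1 : V = ∑ p : κ × Fin 4 × Fin 4 × Fin 4,
        katoS v (fun i j => R i j p.1) p.2.1 p.2.2.1 p.2.2.2 * T p.2.1 p.2.2.1 p.2.2.2 p.1
      + 2 / 3 * ∑ p : κ × Fin 4, (∑ a, v a * R a p.2 p.1) * ∑ m, T m m p.2 p.1 := by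
    rw [e0]
    simp only [Fintype.sum_prod_type, mul_sum (a := (2 / 3 : ℝ)), ← sum_add_distrib]
    refine sum_congr rfl fun k _ => ?_
    rw [katoS_pair v (fun i j => R i j k) (fun m i j => T m i j k) (fun m i j => hT m i j k)
      (fun m i j => hc m i j k), mul_sum]
    simp only [sum_add_distrib]
  have b1 : ∑ p : κ × Fin 4 × Fin 4 × Fin 4,
        katoS v (fun i j => R i j p.1) p.2.1 p.2.2.1 p.2.2.2 * T p.2.1 p.2.2.1 p.2.2.2 p.1 ≤
      √(2 / 3 * V * P) * √τ := by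
    refine (le_sqrt_mul_of_sq _ _ _).trans (le_of_eq ?_)
    congr 2
    · simp only [Fintype.sum_prod_type]
      rw [hPk, mul_sum, hV]
      exact sum_congr rfl fun k _ => katoS_norm v (fun i j => R i j k) fun i j => hR i j k
    · simp only [Fintype.sum_prod_type]
      rw [hτ, sum_comm]
      refine sum_congr rfl fun m _ => ?_
      rw [sum_comm]
      exact sum_congr rfl fun i _ => sum_comm
  have b2 : ∑ p : κ × Fin 4, (∑ a, v a * R a p.2 p.1) * ∑ m, T m m p.2 p.1 ≤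
      √(V * P) * √D := by
    refine (le_sqrt_mul_of_sq _ _ _).trans ?_
    have h1 : ∑ p : κ × Fin 4, (∑ a, v a * R a p.2 p.1) ^ 2 ≤ V * P := by
      simp only [Fintype.sum_prod_type]
      rw [hPk, mul_sum, hV]
      exact sum_le_sum fun k _ => kato_w_le v fun i j => R i j k
    have h2 : ∑ p : κ × Fin 4, (∑ m, T m m p.2 p.1) ^ 2 = D := by
      simp only [Fintype.sum_prod_type]
      rw [hD, sum_comm]
    rw [h2]
    gcongr
  -- `V ≤ √V √P (√(2/3 τ) + 2/3 √D)`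
  obtain ⟨a, ha⟩ : ∃ a, a = √V := ⟨_, rfl⟩
  obtain ⟨p, hp⟩ : ∃ p, p = √P := ⟨_, rfl⟩
  obtain ⟨t, ht⟩ : ∃ t, t = √τ := ⟨_, rfl⟩
  obtain ⟨d, hd⟩ : ∃ d, d = √D := ⟨_, rfl⟩
  obtain ⟨c, hc'⟩ : ∃ c, c = √(2 / 3 : ℝ) := ⟨_, rfl⟩
  have ha2 : a ^ 2 = V := ha ▸ Real.sq_sqrt hV0
  have hp2 : p ^ 2 = P := hp ▸ Real.sq_sqrt hP0
  have ht2 : t ^ 2 = τ := ht ▸ Real.sq_sqrt hτ0
  have hd2 : d ^ 2 = D := hd ▸ Real.sq_sqrt hD0
  have hc2 : c ^ 2 = 2 / 3 := hc' ▸ Real.sq_sqrt (by norm_num)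
  have ha0 : 0 ≤ a := ha ▸ Real.sqrt_nonneg _
  have hp0 : 0 ≤ p := hp ▸ Real.sqrt_nonneg _
  have ht0 : 0 ≤ t := ht ▸ Real.sqrt_nonneg _
  have hd0 : 0 ≤ d := hd ▸ Real.sqrt_nonneg _
  have hc0 : 0 ≤ c := hc' ▸ Real.sqrt_nonneg _
  have s1 : √(2 / 3 * V * P) = c * a * p := by
    rw [Real.sqrt_mul (by positivity), Real.sqrt_mul (by norm_num), ha, hp, hc']
  have s2 : √(V * P) = a * p := by rw [ha, hp]; exact Real.sqrt_mul hV0 _
  rw [s1, ← ht] at b1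
  rw [s2, ← hd] at b2
  have key : a * a ≤ a * (p * (c * t + 2 / 3 * d)) := by
    have : a * a = V := by rw [← ha2]; ring
    rw [this, e1]; nlinarith
  have key2 : a ≤ p * (c * t + 2 / 3 * d) := by
    rcases ha0.eq_or_lt with h | h
    · rw [← h]; positivity
    · exact le_of_mul_le_mul_left key h
  have key3 : a ^ 2 ≤ (p * (c * t + 2 / 3 * d)) ^ 2 := by gcongr
  rw [← ha2, ← hp2, ← ht2, ← hd2]
  refine key3.trans ?_
  rw [mul_pow]
  gcongr
  have : t ^ 2 * (3 / 4) = 9 / 8 * (c * t) ^ 2 := by rw [mul_pow, hc2]; ring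
  nlinarith [sq_nonneg (c * t - 16 / 3 * d)]

end Crest.Agent.N207.H
end

-- ▼ part N207/H/KaRm

/-!
# Row 207, block H (helper41): the refined Kato inequality for `|Rm|²`
-/

set_option autoImplicit false

open scoped ContDiff Topology
open Set Filter
open Crest.GeometryTopology.CoordMetric
open Crest.Agent.R202.Tens Crest.Agent.R247

noncomputable section

namespace Crest.Agent.N207.H

theorem sum_v3 (f : (Fin 3 → Fin 4) → ℝ) : ∑ I, f I = ∑ a, ∑ b, ∑ c, f (A.v3 a b c) := by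
  simp only [AI.sum_cons, Fintype.sum_unique]
  rfl

theorem sum_v4 (f : (Fin 4 → Fin 4) → ℝ) :
    ∑ I, f I = ∑ a, ∑ b, ∑ k : Fin 4 × Fin 4, f (A.v4 a b k.1 k.2) := by
  simp only [AI.sum_cons, Fintype.sum_unique, Fintype.sum_prod_type]
  rfl

theorem karm_one {G : MetricField 4} {U : Set E4} (hG : IsRiemannianOn G U) {x : E4} (hx : x ∈ U)
    (h1 : G x = 1) : Bo84.gam G (nsq G (rmT G)) (nsq G (rmT G)) x ≤
      3 * nsq G (rmT G) x * nsq G (covN G (rmT G) 1) x +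
        64 * nsq G (rmT G) x * nsq G (covN G (ricT G) 1) x := by
  have hR := (SmT.rmT hG).dAt hG.isOpen hx
  have hi : (G x)⁻¹ = 1 := by rw [h1, inv_one]
  set R := rmT G x with hRd
  set T := cov G (rmT G) x with hT
  set S := cov G (ricT G) x with hS
  have k := kato (κ := Fin 4 × Fin 4) (fun i j k => R (A.v4 i j k.1 k.2))
    (fun m i j k => T (A.v5 m i j k.1 k.2)) (fun i j k => (A.cs_rm hG hx).a12 i j k.1 k.2)
    (fun m i j k => (A.cs_cov_rm hG hx m).a12 i j k.1 k.2)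
    (fun m i j k => A.bianchi2 hG hx m i j k.1 k.2)
  have eP : nsq G (rmT G) x = ∑ i, ∑ j, ∑ k : Fin 4 × Fin 4, R (A.v4 i j k.1 k.2) ^ 2 := by
    rw [nsq, ip, hi, Ar.ipA_one, sum_v4]
    simp only [sq, hRd]
  have eT : nsq G (covN G (rmT G) 1) x =
      ∑ m, ∑ i, ∑ j, ∑ k : Fin 4 × Fin 4, T (A.v5 m i j k.1 k.2) ^ 2 := by
    rw [nsq, ip, hi, Ar.ipA_one, AI.sum_cons]
    simp only [sum_v4, sq, hT]
    rfl
  have eS : nsq G (covN G (ricT G) 1) x = ∑ a, ∑ b, ∑ c, S (A.v3 a b c) ^ 2 := by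
    rw [nsq, ip, hi, Ar.ipA_one, sum_v3]
    simp only [sq, hS]
    rfl
  have eG : Bo84.gam G (nsq G (rmT G)) (nsq G (rmT G)) x =
      4 * ∑ m, (∑ i, ∑ j, ∑ k : Fin 4 × Fin 4, R (A.v4 i j k.1 k.2) * T (A.v5 m i j k.1 k.2)) ^ 2 := by
    rw [← ip_dT, ip, dT_nsq hG hx hR, ipA_smul_left, ipA_smul_right, hi, ← mul_assoc, ipA_one]
    congr 1
    · norm_num
    refine Finset.sum_congr rfl fun m _ => ?_
    rw [Finset.sum_eq_single m]
    · rw [Matrix.one_apply_eq, one_mul, conT_apply, hi, Ar.ipA_one, sum_v4, sq]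
      rfl
    · intro b _ hb
      rw [Matrix.one_apply_ne hb.symm, zero_mul]
    · simp
  have eD : ∀ j b c, ∑ m, T (A.v5 m m j b c) = S (A.v3 b c j) - S (A.v3 c b j) := by
    intro j b c
    rw [← A.div_rm hG hx j b c, divT, trT, hi]
    refine Finset.sum_congr rfl fun m _ => ?_
    rw [Finset.sum_eq_single m]
    · rw [Matrix.one_apply_eq, one_mul]
    · intro b _ hb
      rw [Matrix.one_apply_ne hb.symm, zero_mul]
    · simp
  have hD : ∑ j, ∑ k : Fin 4 × Fin 4, (∑ m, T (A.v5 m m j k.1 k.2)) ^ 2 ≤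
      4 * ∑ a, ∑ b, ∑ c, S (A.v3 a b c) ^ 2 := by
    simp only [eD, Fintype.sum_prod_type]
    have e1 : ∑ j, ∑ b, ∑ c, S (A.v3 b c j) ^ 2 = ∑ a, ∑ b, ∑ c, S (A.v3 a b c) ^ 2 := by
      rw [Finset.sum_comm]
      exact Finset.sum_congr rfl fun _ _ => Finset.sum_comm
    have e2 : ∑ j, ∑ b, ∑ c, S (A.v3 c b j) ^ 2 = ∑ a, ∑ b, ∑ c, S (A.v3 a b c) ^ 2 := by
      rw [← e1]
      exact Finset.sum_congr rfl fun _ _ => Finset.sum_comm
    calc _ ≤ ∑ j, ∑ b, ∑ c, (2 * S (A.v3 b c j) ^ 2 + 2 * S (A.v3 c b j) ^ 2) :=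
          Finset.sum_le_sum fun j _ => Finset.sum_le_sum fun b _ => Finset.sum_le_sum fun c _ => by
            nlinarith [sq_nonneg (S (A.v3 b c j) + S (A.v3 c b j))]
      _ = _ := by
          simp only [Finset.sum_add_distrib, ← Finset.mul_sum]
          rw [e1, e2]; ring
  rw [eG, eP, eT, eS]
  have hP : 0 ≤ ∑ i, ∑ j, ∑ k : Fin 4 × Fin 4, R (A.v4 i j k.1 k.2) ^ 2 := by positivity
  nlinarith [mul_le_mul_of_nonneg_left hD hP]

theorem karm : KaRm := by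
  refine ⟨64, fun G U hG x hx => ?_⟩
  obtain ⟨g', Φ, V, p, h0, hΦ, h1⟩ := AI.exists_norm hG hx
  have h := karm_one p.riem' h0 h1
  have e0 : ∀ z ∈ V, nsq g' (rmT g') z = nsq G (rmT G) (Φ z) := fun z hz =>
    AI.nsq_covN_rm_pull p hz 0
  have hd : DifferentiableAt ℝ (nsq G (rmT G)) (Φ 0) :=
    dAt ((SmT.rmT hG).nsq hG) hG.isOpen (p.maps 0 h0)
  have ev := ev_of_on p.isOpen h0 e0
  rw [Bo84.gam_congr ev ev, Bo84.gam_pull p h0 hd hd, e0 0 h0, AI.nsq_covN_rm_pull p h0,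
    AI.nsq_covN_ric_pull p h0, hΦ] at h
  exact h

end Crest.Agent.N207.H

end
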