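import Crest.Agent.N207.H.St2
import Crest.Agent.N207.I.Rig
import Crest.Agent.N207.H.St
import Crest.Agent.N207.I.Iso
import Crest.Agent.N207.Rad.Crd

-- ▼ part N207/H/Frb1
section

/-!
# Row 207, block H, FRB 1 (helper7): the drift lemma, averages
-/

set_option autoImplicit false
set_option linter.unusedSectionVars false

open scoped ContDiff Topology RealInnerProductSpace
open Set Filter Metric
open Crest.GeometryTopology.CoordMetric
open Crest.Agent.R202.Tens Crest.Agent.R247.Bo84 Crest.Agent.N207.Sk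

noncomputable section

namespace Crest.Agent.N207.H.Frb

variable {a b : ℝ}

theorem open_shell (a b : ℝ) : IsOpen (shell a b) :=
  (isOpen_lt continuous_const continuous_norm).inter (isOpen_lt continuous_norm continuous_const)

theorem mid_sq (ha : 0 < a) (hab : 100 * a ≤ b) : √(a * b) * √(a * b) = a * b :=
  Real.mul_self_sqrt (by nlinarith)

theorem mid_lo (ha : 0 < a) (hab : 100 * a ≤ b) : 10 * a ≤ √(a * b) :=
  Real.le_sqrt_of_sq_le (by nlinarith)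

theorem mid_hi (ha : 0 < a) (hab : 100 * a ≤ b) : 10 * √(a * b) ≤ b := by
  have h1 := mid_sq ha hab
  have h2 := mid_lo ha hab
  nlinarith

theorem mid_div (ha : 0 < a) (hab : 100 * a ≤ b) : a / √(a * b) = √(a * b) / b := by
  have h1 := mid_sq ha hab
  have h2 := mid_lo ha hab
  rw [div_eq_div_iff (by linarith) (by linarith), h1]

theorem mid_mem (ha : 0 < a) (hab : 100 * a ≤ b) {y : E4} (h1 : √(a * b) / 2 ≤ ‖y‖)
    (h2 : ‖y‖ ≤ √(a * b)) : y ∈ shell a b := by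
  have := mid_lo ha hab
  have := mid_hi ha hab
  exact ⟨by linarith, by linarith⟩

theorem wt_mid (ha : 0 < a) (hab : 100 * a ≤ b) {p x : E4} (hp : ‖p‖ = √(a * b))
    (hx : x ∈ shell a b) : wt a b p ≤ 2 * wt a b x := by
  have h2 := mid_lo ha hab
  have h3 := mid_div ha hab
  have hx0 : 0 < ‖x‖ := ha.trans hx.1
  have n1 := Real.sqrt_nonneg (a / ‖x‖)
  have n2 := Real.sqrt_nonneg (‖x‖ / b)
  unfold wt
  rw [hp]
  rcases le_total ‖x‖ √(a * b) with h | h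
  · have : √(a / √(a * b)) ≤ √(a / ‖x‖) := by gcongr
    rw [← h3]; linarith
  · have : √(√(a * b) / b) ≤ √(‖x‖ / b) := by
      have : 0 < b := by linarith
      gcongr
    rw [h3]; linarith

theorem wt_exp (ha : 0 < a) (hab : 100 * a ≤ b) {p : E4} (hp : ‖p‖ = √(a * b)) (t : ℝ) :
    wt a b (Real.exp t • p) =
      √(√(a * b) / b) * (Real.exp (|t| / 2) + Real.exp (-(|t| / 2))) := by
  have h2 := mid_lo ha hab
  have h3 := mid_div ha hab
  have hb : 0 < b := by linarith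
  have hr : 0 < √(a * b) := by linarith
  have e1 : a / (Real.exp t * √(a * b)) = √(a * b) / b * Real.exp (-t) := by
    rw [← h3, Real.exp_neg]; field_simp
  have e2 : Real.exp t * √(a * b) / b = √(a * b) / b * Real.exp t := by ring
  unfold wt
  rw [norm_smul, Real.norm_of_nonneg (Real.exp_pos t).le, hp, e1, e2,
    Real.sqrt_mul (x := √(a * b) / b) (by positivity),
    Real.sqrt_mul (x := √(a * b) / b) (by positivity), ← Real.exp_half, ← Real.exp_half]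
  rcases abs_cases t with h | h <;> rw [h.1] <;> ring_nf

variable {F : Type*} [NormedAddCommGroup F] [NormedSpace ℝ F]

/-- oscillation on the middle sphere -/
theorem osc_mid (ha : 0 < a) (hab : 100 * a ≤ b) {f : E4 → F} {K : ℝ} (hK : 0 ≤ K) {p m : E4}
    (hp : ‖p‖ = √(a * b)) (hm : ‖m‖ = √(a * b))
    (h : ∀ y, √(a * b) / 2 ≤ ‖y‖ → ‖y‖ ≤ √(a * b) →
      DifferentiableAt ℝ f y ∧ ‖fderiv ℝ f y‖ * ‖y‖ ≤ K) : ‖f p - f m‖ ≤ 8 * K := by
  have h2 := mid_lo ha hab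
  have hr : 0 < √(a * b) := by linarith
  have := osc (f := f) (0 : E4) (r := √(a * b)) (K := 2 * K / √(a * b)) (c := 0) hr.le
    (by positivity) le_rfl hp hm (by simp) (by simp) fun y h1 h2 _ => ⟨(h y h1 h2).1, by
      rw [le_div_iff₀ hr]
      nlinarith [(h y h1 h2).2, norm_nonneg (fderiv ℝ f y)]⟩
  refine this.trans (le_of_eq ?_)
  field_simp; ring

/-- the drift lemma -/
theorem drift (ha : 0 < a) (hab : 100 * a ≤ b) {f : E4 → F} {K : ℝ} (hK : 0 ≤ K)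
    (h : ∀ y ∈ shell a b, DifferentiableAt ℝ f y ∧ ‖fderiv ℝ f y‖ * ‖y‖ ≤ K * wt a b y)
    {x m : E4} (hx : x ∈ shell a b) (hm : ‖m‖ = √(a * b)) :
    ‖f x - f m‖ ≤ 34 * K * wt a b x := by
  have h2 := mid_lo ha hab
  have h3 := mid_hi ha hab
  have hr : 0 < √(a * b) := by linarith
  have hx0 : 0 < ‖x‖ := ha.trans hx.1
  set r := √(a * b) with hrd
  set p : E4 := (r / ‖x‖) • x with hpd
  have hp : ‖p‖ = r := by
    rw [hpd, norm_smul, Real.norm_of_nonneg (by positivity), div_mul_cancel₀ _ hx0.ne']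
  set t0 := Real.log (‖x‖ / r) with ht0
  have et : Real.exp t0 = ‖x‖ / r := Real.exp_log (by positivity)
  have ex : Real.exp t0 • p = x := by
    rw [et, hpd, smul_smul, show ‖x‖ / r * (r / ‖x‖) = 1 by field_simp, one_smul]
  have w1 := wt_mid ha hab hp hx
  have o1 : ‖f p - f m‖ ≤ 8 * (K * (4 * wt a b x)) := by
    refine osc_mid ha hab (by have := wt_nonneg a b x; positivity) hp hm fun y y1 y2 => ?_
    have hy := mid_mem ha hab y1 y2
    refine ⟨(h y hy).1, (h y hy).2.trans ?_⟩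
    have := wt_cmp (a := a) (b := b) (x := p) (y := y) ha.le (by linarith) (by linarith)
      (by linarith) (by linarith)
    gcongr; linarith
  set c := √(r / b) with hc
  have hc0 : 0 ≤ c := Real.sqrt_nonneg _
  have mem : ∀ s ∈ Icc (0 : ℝ) 1, Real.exp (s * t0) • p ∈ shell a b := by
    intro s hs
    have en : ‖Real.exp (s * t0) • p‖ = Real.exp (s * t0) * r := by
      rw [norm_smul, Real.norm_of_nonneg (Real.exp_pos _).le, hp]
    have e0 : Real.exp t0 * r = ‖x‖ := by rw [et]; field_simp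
    have hx1 := hx.1
    have hx2 := hx.2
    change a < _ ∧ _ < b
    rw [en]
    rcases le_total 0 t0 with h0 | h0
    · have a1 : 1 ≤ Real.exp (s * t0) := Real.one_le_exp (by nlinarith [hs.1])
      have a2 : Real.exp (s * t0) ≤ Real.exp t0 := Real.exp_le_exp.2 (by nlinarith [hs.2])
      constructor <;> nlinarith
    · have a1 : Real.exp (s * t0) ≤ 1 := Real.exp_le_one_iff.2 (by nlinarith [hs.1])
      have a2 : Real.exp t0 ≤ Real.exp (s * t0) := Real.exp_le_exp.2 (by nlinarith [hs.2])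
      constructor <;> nlinarith
  have dc : ∀ s : ℝ, HasDerivAt (fun s => Real.exp (s * t0) • p)
      (t0 • (Real.exp (s * t0) • p)) s := fun s => by
    have := (((hasDerivAt_id s).mul_const t0).exp).smul_const p
    simpa [smul_smul, mul_comm] using this
  have dg : ∀ s ∈ Icc (0 : ℝ) 1, HasDerivAt (fun s => f (Real.exp (s * t0) • p) - f p)
      (fderiv ℝ f (Real.exp (s * t0) • p) (t0 • (Real.exp (s * t0) • p))) s := fun s hs =>
    (HasFDerivAt.comp_hasDerivAt (l := f) (f := fun s => Real.exp (s * t0) • p) s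
      (h _ (mem s hs)).1.hasFDerivAt (dc s)).sub_const _
  have dB : ∀ s : ℝ, HasDerivAt
      (fun s => 2 * K * c * (Real.exp (s * |t0| / 2) - Real.exp (-(s * |t0| / 2))))
      (|t0| * (K * (c * (Real.exp (s * |t0| / 2) + Real.exp (-(s * |t0| / 2)))))) s := fun s => by
    have d1 : HasDerivAt (fun s => s * |t0| / 2) (|t0| / 2) s := by
      simpa using ((hasDerivAt_id s).mul_const |t0|).div_const 2
    refine ((d1.exp.sub d1.neg.exp).const_mul (2 * K * c)).congr_deriv ?_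
    simp only [Pi.neg_apply]
    ring
  have main := image_norm_le_of_norm_deriv_right_le_deriv_boundary (a := 0) (b := 1)
    (fun s hs => (dg s hs).continuousAt.continuousWithinAt)
    (fun s hs => (dg s (Ico_subset_Icc_self hs)).hasDerivWithinAt) (by simp) dB
    (fun s hs => by
      have hs' := Ico_subset_Icc_self hs
      have b1 := (h _ (mem s hs')).2
      rw [wt_exp ha hab hp, abs_mul, abs_of_nonneg hs.1] at b1
      rw [map_smul, norm_smul, Real.norm_eq_abs]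
      gcongr
      exact (ContinuousLinearMap.le_opNorm _ _).trans b1) ⟨zero_le_one, le_rfl⟩
  simp only [one_mul, ex] at main
  have w2 := wt_exp ha hab hp t0
  rw [ex] at w2
  have o2 : ‖f x - f p‖ ≤ 2 * K * wt a b x := by
    refine main.trans ?_
    rw [w2, mul_assoc (2 * K)]
    gcongr
    linarith [Real.exp_pos (-(|t0| / 2))]
  have := norm_add_le (f x - f p) (f p - f m)
  rw [sub_add_sub_cancel] at this
  linarith

/-! ### averages -/

/-- the average over a finite type -/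
def av {ι : Type*} [Fintype ι] (f : ι → F) : F := (Fintype.card ι : ℝ)⁻¹ • ∑ i, f i

variable {ι : Type*} [Fintype ι]

theorem av_const [Nonempty ι] (c : F) : av (fun _ : ι => c) = c := by
  have : (Fintype.card ι : ℝ) ≠ 0 := by exact_mod_cast Fintype.card_ne_zero
  rw [av, Finset.sum_const, Finset.card_univ, ← Nat.cast_smul_eq_nsmul ℝ, smul_smul,
    inv_mul_cancel₀ this, one_smul]

theorem av_sub (f g : ι → F) : av (fun i => f i - g i) = av f - av g := by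
  simp only [av, Finset.sum_sub_distrib, smul_sub]

theorem norm_av_le [Nonempty ι] {f : ι → F} {K : ℝ} (h : ∀ i, ‖f i‖ ≤ K) : ‖av f‖ ≤ K := by
  have h0 : (0 : ℝ) < Fintype.card ι := by exact_mod_cast Fintype.card_pos
  have h1 : ‖∑ i, f i‖ ≤ Fintype.card ι * K := by
    refine (norm_sum_le _ _).trans ((Finset.sum_le_sum fun i _ => h i).trans (le_of_eq ?_))
    simp
  rw [av, norm_smul, Real.norm_of_nonneg (by positivity), inv_mul_le_iff₀ h0]
  exact h1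

theorem norm_av_sub_le [Nonempty ι] {f : ι → F} {c : F} {K : ℝ} (h : ∀ i, ‖f i - c‖ ≤ K) :
    ‖av f - c‖ ≤ K := by
  rw [← av_const (ι := ι) c, ← av_sub]
  exact norm_av_le h

theorem av_map {F' : Type*} [NormedAddCommGroup F'] [NormedSpace ℝ F'] (L : F →L[ℝ] F')
    (f : ι → F) : L (av f) = av fun i => L (f i) := by
  simp only [av, map_smul, map_sum]

theorem av_apply {E : Type*} [NormedAddCommGroup E] [NormedSpace ℝ E] (f : ι → E →L[ℝ] F)
    (u : E) : av f u = av fun i => f i u :=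
  av_map (ContinuousLinearMap.apply ℝ F u) f

theorem av_equiv (e : ι ≃ ι) (f : ι → F) : av (fun i => f (e i)) = av f := by
  simp only [av, Equiv.sum_comp e f]

theorem hasFDerivAt_av {E : Type*} [NormedAddCommGroup E] [NormedSpace ℝ E] {f : ι → E → F}
    {f' : ι → E →L[ℝ] F} {x : E} (h : ∀ i, HasFDerivAt (f i) (f' i) x) :
    HasFDerivAt (fun y => av fun i => f i y) (av f') x :=
  (HasFDerivAt.fun_sum fun i _ => h i).const_smul _

theorem contDiffOn_av {E : Type*} [NormedAddCommGroup E] [NormedSpace ℝ E] {f : ι → E → F}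
    {s : Set E} (h : ∀ i, ContDiffOn ℝ ∞ (f i) s) :
    ContDiffOn ℝ ∞ (fun y => av fun i => f i y) s :=
  (ContDiffOn.sum fun i _ => h i).const_smul _

end Crest.Agent.N207.H.Frb

end
end

-- ▼ part N207/H/Frb2
section

/-!
# Row 207, block H, FRB 2 (helper7): almost parallel coframes, inverse, average
-/

set_option autoImplicit false
set_option linter.unusedSectionVars false

open scoped ContDiff Topology RealInnerProductSpace
open Set Filter Metric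
open Crest.GeometryTopology.CoordMetric
open Crest.Agent.R202.Tens Crest.Agent.R247.Bo84 Crest.Agent.N207.Sk
open Crest.Agent.N207.I (cl cl_mul cl_one star_cl sqrt_near)

noncomputable section

namespace Crest.Agent.N207.H.Frb

variable {G : MetricField 4} {Γ : Subgroup (E4 ≃ₗᵢ[ℝ] E4)} {a b η : ℝ}
  {θ θ' : E4 → E4 →L[ℝ] E4} {x : E4}

/-- almost parallel, bounded above -/
structure Pa (G : MetricField 4) (a b η : ℝ) (θ : E4 → E4 →L[ℝ] E4) : Prop where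
  sm : ContDiffOn ℝ ∞ θ (shell a b)
  par : ∀ x ∈ shell a b, ∀ u v,
    ‖fderiv ℝ θ x u v - θ x (Gam G x u v)‖ * ‖x‖ ≤ η * wt a b x * ‖u‖ * ‖v‖
  up : ∀ x ∈ shell a b, ∀ u, ‖θ x u‖ ≤ 2 * ‖u‖

theorem Pa.diff (h : Pa G a b η θ) (hx : x ∈ shell a b) : DifferentiableAt ℝ θ x :=
  (h.sm.contDiffAt ((open_shell a b).mem_nhds hx)).differentiableAt (by simp)

/-- bounded below -/
def Lo (a b : ℝ) (θ : E4 → E4 →L[ℝ] E4) : Prop := ∀ x ∈ shell a b, ∀ u, ‖u‖ ≤ 4 * ‖θ x u‖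

theorem Lo.unit (h : Lo a b θ) (hx : x ∈ shell a b) : IsUnit (θ x) := by
  rw [ContinuousLinearMap.isUnit_iff_bijective]
  have hi : Function.Injective (θ x) := by
    refine (injective_iff_map_eq_zero _).2 fun u hu => ?_
    have := h x hx u
    rw [hu, norm_zero, mul_zero] at this
    exact norm_le_zero_iff.1 this
  exact ⟨hi, (LinearMap.injective_iff_surjective (f := (θ x : E4 →ₗ[ℝ] E4))).1 hi⟩

/-- the inverse frame -/
def iv (θ : E4 → E4 →L[ℝ] E4) (x : E4) : E4 →L[ℝ] E4 := Ring.inverse (θ x)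

theorem Lo.mul_iv (h : Lo a b θ) (hx : x ∈ shell a b) (u : E4) : θ x (iv θ x u) = u :=
  congrArg (fun L : E4 →L[ℝ] E4 => L u) (Ring.mul_inverse_cancel _ (h.unit hx))

theorem Lo.iv_mul (h : Lo a b θ) (hx : x ∈ shell a b) (u : E4) : iv θ x (θ x u) = u :=
  congrArg (fun L : E4 →L[ℝ] E4 => L u) (Ring.inverse_mul_cancel _ (h.unit hx))

theorem Lo.norm_iv (h : Lo a b θ) (hx : x ∈ shell a b) (u : E4) : ‖iv θ x u‖ ≤ 4 * ‖u‖ := by
  have := h x hx (iv θ x u)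
  rwa [h.mul_iv hx] at this

theorem Lo.cov_iv (h : Lo a b θ) (hp : Pa G a b η θ) (hη : 0 ≤ η) (hx : x ∈ shell a b) (u : E4) :
    DifferentiableAt ℝ (fun y => iv θ y u) x ∧
      ∀ w, ‖R247.Bo84.cov G (fun y => iv θ y u) x w‖ * ‖x‖ ≤ 16 * η * wt a b x * ‖w‖ * ‖u‖ := by
  obtain ⟨U, hU⟩ := h.unit hx
  have hi : iv θ x = ↑U⁻¹ := by rw [iv, ← hU, Ring.inverse_unit]
  have d0 := hasFDerivAt_ringInverse (𝕜 := ℝ) (R := E4 →L[ℝ] E4) U
  rw [hU, ← hi] at d0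
  have d1 := d0.comp x (hp.diff hx).hasFDerivAt
  have d2 := (ContinuousLinearMap.apply ℝ E4 u).hasFDerivAt.comp x d1
  refine ⟨d2.differentiableAt, fun w => ?_⟩
  have e : R247.Bo84.cov G (fun y => iv θ y u) x w =
      -iv θ x (fderiv ℝ θ x w (iv θ x u) - θ x (Gam G x w (iv θ x u))) := by
    rw [R247.Bo84.cov_apply, show fderiv ℝ (fun y => iv θ y u) x = _ from d2.fderiv, map_sub, h.iv_mul hx]
    simp
    abel
  rw [e, norm_neg]
  have b1 := h.norm_iv hx (fderiv ℝ θ x w (iv θ x u) - θ x (Gam G x w (iv θ x u)))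
  have b2 := hp.par x hx w (iv θ x u)
  have b3 := h.norm_iv hx u
  have := wt_nonneg a b x
  calc _ ≤ 4 * (‖fderiv ℝ θ x w (iv θ x u) - θ x (Gam G x w (iv θ x u))‖ * ‖x‖) := by
        rw [← mul_assoc]; gcongr
    _ ≤ 4 * (η * wt a b x * ‖w‖ * (4 * ‖u‖)) := by
        exact mul_le_mul_of_nonneg_left (b2.trans (by gcongr)) (by norm_num)
    _ = _ := by ring

theorem op_le {F : Type*} [NormedAddCommGroup F] [NormedSpace ℝ F] {D : E4 →L[ℝ] F} {K : ℝ}
    (ha : 0 < a) (hx : x ∈ shell a b) (hK : 0 ≤ K) (h : ∀ w, ‖D w‖ * ‖x‖ ≤ K * ‖w‖) :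
    ‖D‖ * ‖x‖ ≤ K := by
  have h0 : 0 < ‖x‖ := ha.trans hx.1
  rw [← le_div_iff₀ h0]
  refine ContinuousLinearMap.opNorm_le_bound _ (by positivity) fun w => ?_
  rw [div_mul_eq_mul_div, le_div_iff₀ h0]
  exact h w

/-- the quotient of two almost parallel coframes is almost constant -/
theorem quot (ha : 0 < a) (hab : 100 * a ≤ b) (h : Lo a b θ) (hp : Pa G a b η θ)
    (hp' : Pa G a b η θ') (hη : 0 ≤ η) (hx : x ∈ shell a b) {m : E4} (hm : ‖m‖ = √(a * b))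
    (u : E4) : ‖θ' x (iv θ x u) - θ' m (iv θ m u)‖ ≤ 34 * (36 * η * ‖u‖) * wt a b x := by
  refine drift (f := fun y => θ' y (iv θ y u)) ha hab (by positivity) (fun y hy => ?_) hx hm
  obtain ⟨d, hd⟩ := h.cov_iv hp hη hy u
  have d1 := (hp'.diff hy).hasFDerivAt.clm_apply d.hasFDerivAt
  have := wt_nonneg a b y
  refine ⟨d1.differentiableAt, op_le ha hy (by positivity) fun w => ?_⟩
  have e : fderiv ℝ (fun y => θ' y (iv θ y u)) y w =
      (fderiv ℝ θ' y w (iv θ y u) - θ' y (Gam G y w (iv θ y u))) +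
        θ' y (R247.Bo84.cov G (fun y => iv θ y u) y w) := by
    rw [d1.fderiv, R247.Bo84.cov_apply, map_add]
    simp
    abel
  rw [e]
  have b1 := hp'.par y hy w (iv θ y u)
  have b2 := hp'.up y hy (R247.Bo84.cov G (fun y => iv θ y u) y w)
  have b3 := h.norm_iv hy u
  have b4 := hd w
  have b5 : η * wt a b y * ‖w‖ * ‖iv θ y u‖ ≤ η * wt a b y * ‖w‖ * (4 * ‖u‖) := by gcongr
  have b6 := mul_le_mul_of_nonneg_right b2 (norm_nonneg y)
  have b7 := mul_le_mul_of_nonneg_right (norm_add_le (fderiv ℝ θ' y w (iv θ y u) -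
    θ' y (Gam G y w (iv θ y u))) (θ' y (R247.Bo84.cov G (fun y => iv θ y u) y w))) (norm_nonneg y)
  nlinarith

theorem bil_le (hR : RM G Γ a b η) (hη : η ≤ 1) (hx : x ∈ shell a b) (u v : E4) :
    |bil (G x) u v| ≤ 2 * ‖u‖ * ‖v‖ := by
  have h1 := hR.near x hx u v
  have h2 := abs_real_inner_le_norm u v
  have h3 := abs_add_le (bil (G x) u v - ⟪u, v⟫) ⟪u, v⟫
  rw [sub_add_cancel] at h3
  nlinarith [mul_nonneg (norm_nonneg u) (norm_nonneg v)]

/-- the metric in an almost parallel frame is almost constant -/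
theorem met (hR : RM G Γ a b η) (hab : 100 * a ≤ b) (h : Lo a b θ) (hp : Pa G a b η θ)
    (hη : 0 ≤ η) (hη1 : η ≤ 1) (hx : x ∈ shell a b) {m : E4} (hm : ‖m‖ = √(a * b)) (u v : E4) :
    |bil (G x) (iv θ x u) (iv θ x v) - bil (G m) (iv θ m u) (iv θ m v)| ≤
      34 * (256 * η * ‖u‖ * ‖v‖) * wt a b x := by
  have ha := hR.a_pos
  refine drift (f := fun y => bil (G y) (iv θ y u) (iv θ y v)) ha hab (by positivity)
    (fun y hy => ?_) hx hm
  obtain ⟨d, hd⟩ := h.cov_iv hp hη hy u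
  obtain ⟨d', hd'⟩ := h.cov_iv hp hη hy v
  have := wt_nonneg a b y
  refine ⟨((differentiableAt_Gf hR.riem hy).clm_apply d).clm_apply d',
    op_le ha hy (by positivity) fun w => ?_⟩
  rw [fderiv_bil hR.riem hy d d', Real.norm_eq_abs]
  have b1 := bil_le hR hη1 hy (R247.Bo84.cov G (fun y => iv θ y u) y w) (iv θ y v)
  have b2 := bil_le hR hη1 hy (iv θ y u) (R247.Bo84.cov G (fun y => iv θ y v) y w)
  have b3 := h.norm_iv hy u
  have b4 := h.norm_iv hy v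
  calc _ ≤ (2 * ‖R247.Bo84.cov G (fun y => iv θ y u) y w‖ * (4 * ‖v‖) +
        2 * (4 * ‖u‖) * ‖R247.Bo84.cov G (fun y => iv θ y v) y w‖) * ‖y‖ := by
        gcongr
        refine (abs_add_le _ _).trans (add_le_add (b1.trans ?_) (b2.trans ?_)) <;> gcongr
    _ = 8 * ‖v‖ * (‖R247.Bo84.cov G (fun y => iv θ y u) y w‖ * ‖y‖) +
        8 * ‖u‖ * (‖R247.Bo84.cov G (fun y => iv θ y v) y w‖ * ‖y‖) := by ring
    _ ≤ 8 * ‖v‖ * (16 * η * wt a b y * ‖w‖ * ‖u‖) +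
        8 * ‖u‖ * (16 * η * wt a b y * ‖w‖ * ‖v‖) := 
        add_le_add (mul_le_mul_of_nonneg_left (hd w) (by positivity))
          (mul_le_mul_of_nonneg_left (hd' w) (by positivity))
    _ = _ := by ring

/-! ### the action of `Γ` -/

theorem mem_iso (γ : E4 ≃ₗᵢ[ℝ] E4) (hx : x ∈ shell a b) : γ x ∈ shell a b := by
  simpa only [shell, mem_ofPred_eq, γ.norm_map] using hx

theorem wt_iso (γ : E4 ≃ₗᵢ[ℝ] E4) (x : E4) : wt a b (γ x) = wt a b x := by
  simp only [wt, γ.norm_map]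

theorem gam_iso (hR : RM G Γ a b η) {γ : E4 ≃ₗᵢ[ℝ] E4} (hγ : γ ∈ Γ) (hx : x ∈ shell a b)
    (u v : E4) : Gam G (γ x) (γ u) (γ v) = γ (Gam G x u v) := by
  have e : fderiv ℝ γ = fun _ => cl γ := funext fun y => (cl γ).fderiv
  have P : Pull G G γ (shell a b) (shell a b) := by
    refine ⟨open_shell a b, hR.riem, fun y hy => mem_iso γ hy, γ.contDiff.contDiffOn,
      fun y hy i j => ?_, fun y _ => by rw [e]; exact γ.injective⟩
    rw [← bil_apply, e]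
    have := hR.inv γ hγ y hy (EuclideanSpace.single i 1) (EuclideanSpace.single j 1)
    refine Eq.trans ?_ this.symm
    simp [bil_apply]
  have := P.gam_eq hx u v
  rw [e] at this
  simpa using this.symm

/-- conjugation -/
def cj (A B : E4 →L[ℝ] E4) : (E4 →L[ℝ] E4) →L[ℝ] E4 →L[ℝ] E4 :=
  (ContinuousLinearMap.compL ℝ E4 E4 E4 A).comp ((ContinuousLinearMap.compL ℝ E4 E4 E4).flip B)

/-- the translated coframe -/
def tg (θ : E4 → E4 →L[ℝ] E4) (γ : E4 ≃ₗᵢ[ℝ] E4) (x : E4) : E4 →L[ℝ] E4 :=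
  cj (cl γ⁻¹) (cl γ) (θ (γ x))

theorem tg_apply (γ : E4 ≃ₗᵢ[ℝ] E4) (x u : E4) : tg θ γ x u = γ.symm (θ (γ x) (γ u)) := rfl

theorem Pa.tg (hp : Pa G a b η θ) {η' : ℝ} (hR : RM G Γ a b η') {γ : E4 ≃ₗᵢ[ℝ] E4}
    (hγ : γ ∈ Γ) : Pa G a b η (tg θ γ) := by
  refine ⟨?_, fun x hx u v => ?_, fun x hx u => ?_⟩
  · exact (cj (cl γ⁻¹) (cl γ)).contDiff.comp_contDiffOn
      (hp.sm.comp γ.contDiff.contDiffOn fun y hy => mem_iso γ hy)
  · have d : HasFDerivAt (Frb.tg θ γ) ((cj (cl γ⁻¹) (cl γ)).comp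
        ((fderiv ℝ θ (γ x)).comp (cl γ))) x :=
      (cj (cl γ⁻¹) (cl γ)).hasFDerivAt.comp x
        (HasFDerivAt.comp (g := θ) (f := γ) x (hp.diff (mem_iso γ hx)).hasFDerivAt
          (cl γ).hasFDerivAt)
    have e : fderiv ℝ (Frb.tg θ γ) x u v - Frb.tg θ γ x (Gam G x u v) =
        γ.symm (fderiv ℝ θ (γ x) (γ u) (γ v) - θ (γ x) (Gam G (γ x) (γ u) (γ v))) := by
      rw [d.fderiv, tg_apply, gam_iso hR hγ hx, map_sub]
      rfl
    have := hp.par _ (mem_iso γ hx) (γ u) (γ v)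
    rw [wt_iso, γ.norm_map, γ.norm_map, γ.norm_map] at this
    rwa [e, γ.symm.norm_map]
  · have := hp.up _ (mem_iso γ hx) (γ u)
    rwa [tg_apply, γ.symm.norm_map, ← γ.norm_map u]

theorem Pa.av {ι : Type*} [Fintype ι] [Nonempty ι] {t : ι → E4 → E4 →L[ℝ] E4} (ha : 0 < a)
    (h : ∀ i, Pa G a b η (t i)) : Pa G a b η fun y => av fun i => t i y := by
  refine ⟨contDiffOn_av fun i => (h i).sm, fun x hx u v => ?_, fun x hx u => ?_⟩
  · have h0 : 0 < ‖x‖ := ha.trans hx.1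
    rw [(hasFDerivAt_av fun i => ((h i).diff hx).hasFDerivAt).fderiv, av_apply, av_apply,
      av_apply, ← av_sub, ← le_div_iff₀ h0]
    exact norm_av_le fun i => (le_div_iff₀ h0).2 ((h i).par x hx u v)
  · rw [av_apply]
    exact norm_av_le fun i => (h i).up x hx u

end Crest.Agent.N207.H.Frb

end
end

-- ▼ part N207/H/Frb
section

/-!
# Row 207, block H, FRB (helper7): averaging and normalisation
-/

set_option autoImplicit false
set_option linter.unusedSectionVars false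

open scoped ContDiff Topology RealInnerProductSpace
open Set Filter Metric
open Crest.GeometryTopology.CoordMetric
open Crest.Agent.R202.Tens Crest.Agent.R247.Bo84 Crest.Agent.N207.Sk
open Crest.Agent.N207.I (cl cl_mul cl_one star_cl sqrt_near)

noncomputable section

namespace Crest.Agent.N207.H.Frb

variable {G : MetricField 4} {Γ : Subgroup (E4 ≃ₗᵢ[ℝ] E4)} {a b η : ℝ}
  {θ θ' : E4 → E4 →L[ℝ] E4} {x : E4}

theorem rm_mono (h : RM G Γ a b η) {η' : ℝ} (hη : η ≤ η') : RM G Γ a b η' :=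
  ⟨h.fin, h.a_pos, h.riem, h.inv, fun x hx u v => (h.near x hx u v).trans (by gcongr),
    fun x hx => (h.gam x hx).trans hη⟩

theorem Pa.osc (hp : Pa G a b η θ) (hR : RM G Γ a b η) (hab : 100 * a ≤ b) (hη : 0 ≤ η)
    {p m : E4} (hp' : ‖p‖ = √(a * b)) (hm : ‖m‖ = √(a * b)) (u : E4) :
    ‖θ p u - θ m u‖ ≤ 8 * (4 * η * ‖u‖) := by
  have ha := hR.a_pos
  refine osc_mid (f := fun y => θ y u) ha hab (by positivity) hp' hm fun y y1 y2 => ?_
  have hy := mid_mem ha hab y1 y2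
  have d := (ContinuousLinearMap.apply ℝ E4 u).hasFDerivAt.comp y (hp.diff hy).hasFDerivAt
  refine ⟨d.differentiableAt, op_le ha hy (by positivity) fun w => ?_⟩
  have e : fderiv ℝ (fun y => θ y u) y w =
      (fderiv ℝ θ y w u - θ y (Gam G y w u)) + θ y (Gam G y w u) := by
    rw [show fderiv ℝ (fun y => θ y u) y = _ from d.fderiv]
    simp
  have b1 := hp.par y hy w u
  have b2 := hp.up y hy (Gam G y w u)
  have b3 : ‖Gam G y w u‖ * ‖y‖ ≤ η * ‖w‖ * ‖u‖ := by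
    calc _ ≤ ‖Gam G y‖ * ‖w‖ * ‖u‖ * ‖y‖ := by gcongr; exact (Gam G y).le_opNorm₂ w u
      _ = ‖Gam G y‖ * ‖y‖ * ‖w‖ * ‖u‖ := by ring
      _ ≤ _ := by gcongr; exact hR.gam y hy
  have b4 : η * wt a b y * ‖w‖ * ‖u‖ ≤ η * 2 * ‖w‖ * ‖u‖ := by gcongr; exact wt_le_two ha hy
  have b5 := mul_le_mul_of_nonneg_right b2 (norm_nonneg y)
  have b6 := mul_le_mul_of_nonneg_right (norm_add_le (fderiv ℝ θ y w u - θ y (Gam G y w u))
    (θ y (Gam G y w u))) (norm_nonneg y)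
  rw [e]
  nlinarith

/-- step 1: averaging -/
theorem step1 (h : CF G Γ a b η θ) (hab : 100 * a ≤ b) (hη : 0 ≤ η) (hη1 : η ≤ 1 / 10000) :
    ∃ θ' m, Pa G a b η θ' ∧ Lo a b θ' ∧
      (∀ γ ∈ Γ, ∀ x ∈ shell a b, ∀ v, θ' (γ x) (γ v) = γ (θ' x v)) ∧ ‖m‖ = √(a * b) ∧
      ∀ u, ‖θ' m u - u‖ ≤ 32 * η * ‖u‖ := by
  have := h.fin
  have := Fintype.ofFinite Γ
  have ha := h.a_pos
  have hp : Pa G a b η θ := ⟨h.sm, h.par, fun x hx u => (h.bd x hx u).2⟩
  have hl : Lo a b θ := fun x hx u => by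
    linarith [(h.bd x hx u).1, norm_nonneg (θ x u)]
  obtain ⟨m, hm, h1⟩ := h.one
  have hms := mid_mem ha hab (y := m) (by linarith [norm_nonneg m]) hm.le
  have hp' : Pa G a b η fun y => av fun γ : Γ => tg θ γ y :=
    Pa.av ha fun γ : Γ => hp.tg h.toRM γ.2
  have c1 : ∀ u, ‖(av fun γ : Γ => tg θ γ m) u - u‖ ≤ 32 * η * ‖u‖ := fun u => by
    rw [av_apply]
    refine norm_av_sub_le fun γ => ?_
    have := hp.osc h.toRM hab hη (p := γ.1 m) (by rw [γ.1.norm_map, hm]) hm (γ.1 u)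
    rw [h1, γ.1.norm_map, ← γ.1.symm.norm_map, map_sub] at this
    rw [tg_apply]
    simp only [one_apply_eq_self, LinearIsometryEquiv.symm_apply_apply] at this
    linarith
  refine ⟨_, m, hp', fun x hx u => ?_, fun γ hγ x hx v => ?_, hm, c1⟩
  · have q := quot ha hab hl hp hp' hη hx hm (θ x u)
    have e : iv θ m (θ x u) = θ x u := by rw [iv, h1, Ring.inverse_one]; rfl
    rw [hl.iv_mul hx, e] at q
    have q2 := c1 (θ x u)
    have q3 := (h.bd x hx u).1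
    have q4 : 34 * (36 * η * ‖θ x u‖) * wt a b x ≤ 34 * (36 * (1 / 10000) * ‖θ x u‖) * 2 := by
      have := wt_nonneg a b x
      gcongr; exact wt_le_two ha hx
    have q5 : 32 * η * ‖θ x u‖ ≤ 32 * (1 / 10000) * ‖θ x u‖ := by gcongr
    have q6 := norm_sub_norm_le (θ x u) ((av fun γ : Γ => tg θ γ m) (θ x u))
    have q7 := norm_sub_norm_le ((av fun γ : Γ => tg θ γ m) (θ x u))
      ((av fun γ : Γ => tg θ γ x) u)
    rw [norm_sub_rev] at q6 q7
    have := norm_nonneg (θ x u)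
    linarith
  · rw [av_apply, av_apply]
    refine Eq.trans ?_ (av_map (cl γ) _).symm
    rw [← av_equiv (Equiv.mulRight (⟨γ, hγ⟩ : Γ)) fun i : Γ => cl γ (tg θ i x v)]
    congr 1
    funext δ
    simp [tg_apply, LinearIsometryEquiv.mul_def]

/-- step 2: normalisation -/
theorem step2 (hR : RM G Γ a b η) (hab : 100 * a ≤ b) (hη : 0 ≤ η) (hη1 : η ≤ 1 / 10000)
    (hp : Pa G a b η θ) (hl : Lo a b θ)
    (he : ∀ γ ∈ Γ, ∀ x ∈ shell a b, ∀ v, θ (γ x) (γ v) = γ (θ x v)) {m : E4}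
    (hm : ‖m‖ = √(a * b)) (h1 : ∀ u, ‖θ m u - u‖ ≤ 32 * η * ‖u‖) :
    ∃ L : E4 →L[ℝ] E4, (∀ u, ‖L u‖ ≤ 2 * ‖u‖) ∧ (∀ γ ∈ Γ, ∀ u, L (γ u) = γ (L u)) ∧
      ∀ x ∈ shell a b, ∀ u v, |⟪L (θ x u), L (θ x v)⟫ - bil (G x) u v| ≤
        40000 * η * wt a b x * ‖u‖ * ‖v‖ := by
  have := hR.fin
  have := Fintype.ofFinite Γ
  have ha := hR.a_pos
  have hms := mid_mem ha hab (y := m) (by linarith [norm_nonneg m]) hm.le
  set H : E4 → E4 →L[ℝ] E4 →L[ℝ] ℝ := fun y => (bil (G y)).bilinearComp (iv θ y) (iv θ y) with hH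
  have Ha : ∀ y u v, H y u v = bil (G y) (iv θ y u) (iv θ y v) := fun _ _ _ => rfl
  have ei : ∀ γ ∈ Γ, ∀ x ∈ shell a b, ∀ u, iv θ (γ x) (γ u) = γ (iv θ x u) := by
    intro γ hγ x hx u
    conv_lhs => rw [← hl.mul_iv hx u, ← he γ hγ x hx, hl.iv_mul (mem_iso γ hx)]
  have eH : ∀ γ ∈ Γ, ∀ x ∈ shell a b, ∀ u v, H (γ x) (γ u) (γ v) = H x u v := by
    intro γ hγ x hx u v
    rw [Ha, Ha, ei γ hγ x hx, ei γ hγ x hx, hR.inv γ hγ x hx]
  set B : E4 →L[ℝ] E4 →L[ℝ] ℝ := av fun γ : Γ => H (γ.1 m) with hB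
  have Ba : ∀ u v, B u v = av fun γ : Γ => H (γ.1 m) u v := fun u v => by
    rw [hB, av_apply, av_apply]
  have Bs : ∀ u v, B u v = B v u := fun u v => by
    rw [Ba, Ba]
    congr 1
    funext γ
    rw [Ha, Ha, bil_symm hR.riem (mem_iso γ.1 hms)]
  have Bi : ∀ γ ∈ Γ, ∀ u v, B (γ u) (γ v) = B u v := fun γ hγ u v => by
    rw [Ba, Ba, ← av_equiv (Equiv.mulLeft (⟨γ, hγ⟩ : Γ)) fun i : Γ => H (i.1 m) (γ u) (γ v)]
    congr 1
    funext δ
    exact eH γ hγ _ (mem_iso δ.1 hms) u v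
  have n0 : ∀ u v, |H m u v - ⟪u, v⟫| ≤ 1 / 4 * ‖u‖ * ‖v‖ := fun u v => by
    have k : ∀ u, ‖iv θ m u - u‖ ≤ 1 / 50 * ‖u‖ := fun u => by
      have b1 := h1 (iv θ m u)
      have b2 := hl.norm_iv hms u
      rw [hl.mul_iv hms, norm_sub_rev] at b1
      have : 32 * η * ‖iv θ m u‖ ≤ 32 * (1 / 10000) * (4 * ‖u‖) := by gcongr
      linarith [norm_nonneg u]
    have b1 := hR.near m hms (iv θ m u) (iv θ m v)
    have b2 := hl.norm_iv hms u
    have b3 := hl.norm_iv hms v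
    have b4 : η * ‖iv θ m u‖ * ‖iv θ m v‖ ≤ 1 / 10000 * (4 * ‖u‖) * (4 * ‖v‖) := by gcongr
    have b5 : |⟪iv θ m u - u, iv θ m v⟫| ≤ 1 / 50 * ‖u‖ * (4 * ‖v‖) :=
      (abs_real_inner_le_norm _ _).trans (by gcongr; exact k u)
    have b6 : |⟪u, iv θ m v - v⟫| ≤ ‖u‖ * (1 / 50 * ‖v‖) :=
      (abs_real_inner_le_norm _ _).trans (by gcongr; exact k v)
    rw [inner_sub_left] at b5
    rw [inner_sub_right] at b6
    have := mul_nonneg (norm_nonneg u) (norm_nonneg v)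
    rw [Ha, abs_le] at *
    constructor <;> nlinarith
  have n1 : ∀ u v, |B u v - ⟪u, v⟫| ≤ 1 / 4 * ‖u‖ * ‖v‖ := fun u v => by
    rw [Ba, ← Real.norm_eq_abs]
    refine norm_av_sub_le fun γ => ?_
    have := n0 (γ.1.symm u) (γ.1.symm v)
    rw [← eH γ.1 γ.2 m hms] at this
    simpa using this
  set X : E4 →L[ℝ] E4 := InnerProductSpace.continuousLinearMapOfBilin (𝕜 := ℝ) B - 1 with hX
  have Xa : ∀ u v, ⟪X u, v⟫ = B u v - ⟪u, v⟫ := fun u v => by
    rw [hX, sub_apply, inner_sub_left, InnerProductSpace.continuousLinearMapOfBilin_apply]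
    rfl
  have Xn : ‖X‖ ≤ 1 / 4 := ContinuousLinearMap.opNorm_le_bound _ (by norm_num) fun u => by
    have b1 := n1 u (X u)
    rw [← Xa, real_inner_self_eq_norm_sq] at b1
    have b2 := le_abs_self (‖X u‖ ^ 2)
    by_contra hc
    push Not at hc
    nlinarith [norm_nonneg u]
  have Xs : ∀ u v, ⟪X u, v⟫ = ⟪u, X v⟫ := fun u v => by
    rw [real_inner_comm (X v), Xa, Xa, Bs, real_inner_comm]
  have Xc : ∀ γ ∈ Γ, ∀ u, X (γ u) = γ (X u) := fun γ hγ u => by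
    refine ext_inner_right ℝ fun v => ?_
    obtain ⟨v, rfl⟩ := γ.surjective v
    rw [Xa, Bi γ hγ, γ.inner_map_map, γ.inner_map_map, Xa]
  obtain ⟨Y, ⟨hYs, hYc⟩, hYn, hY⟩ := sqrt_near X Xn
    {Y | (∀ u v, ⟪Y u, v⟫ = ⟪u, Y v⟫) ∧ ∀ γ ∈ Γ, ∀ u, Y (γ u) = γ (Y u)}
    (by
      simp only [ofPred_and, ofPred_forall]
      exact (isClosed_iInter fun u => isClosed_iInter fun v =>
        isClosed_eq (by fun_prop) (by fun_prop)).inter (isClosed_iInter fun γ =>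
          isClosed_iInter fun _ => isClosed_iInter fun u =>
            isClosed_eq (by fun_prop) (by fun_prop)))
    (by simp)
    (by
      rintro Y ⟨h1, h2⟩
      refine ⟨fun u v => ?_, fun γ hγ u => ?_⟩
      · simp only [smul_apply, sub_apply, mul_apply_eq_comp, inner_smul_left, inner_smul_right,
          inner_sub_left, inner_sub_right, Xs, h1, conj_trivial]
      · simp only [smul_apply, sub_apply, mul_apply_eq_comp, map_smul, map_sub, Xc γ hγ,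
          h2 γ hγ])
  have LL : ∀ u v, ⟪(1 + Y) u, (1 + Y) v⟫ = B u v := fun u v => by
    have e := congrArg (fun L : E4 →L[ℝ] E4 => ⟪L u, v⟫) hY
    simp only [mul_apply_eq_comp, add_apply, one_apply_eq_self, inner_add_left, Xa, map_add,
      hYs] at e
    simp only [add_apply, one_apply_eq_self, inner_add_left, inner_add_right, hYs]
    linarith
  refine ⟨1 + Y, fun u => ?_, fun γ hγ u => ?_, fun x hx u v => ?_⟩
  · have b1 := Y.le_opNorm u
    have b2 := norm_add_le u (Y u)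
    have b3 : ‖Y‖ * ‖u‖ ≤ 1 / 4 * ‖u‖ := by gcongr; linarith
    simp only [add_apply, one_apply_eq_self]
    linarith [norm_nonneg u]
  · simp only [add_apply, one_apply_eq_self, map_add, hYc γ hγ]
  · rw [LL, Ba, ← Real.norm_eq_abs]
    refine norm_av_sub_le fun γ => ?_
    have b1 := met hR hab hl hp hη (by linarith) hx (m := γ.1 m) (by rw [γ.1.norm_map, hm])
      (θ x u) (θ x v)
    rw [hl.iv_mul hx, hl.iv_mul hx, abs_sub_comm] at b1
    refine b1.trans ?_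
    have := wt_nonneg a b x
    calc _ ≤ 34 * (256 * η * (2 * ‖u‖) * (2 * ‖v‖)) * wt a b x := by
          gcongr; exacts [hp.up x hx u, hp.up x hx v]
      _ = 34816 * (η * wt a b x * ‖u‖ * ‖v‖) := by ring
      _ ≤ 40000 * (η * wt a b x * ‖u‖ * ‖v‖) := by gcongr; norm_num
      _ = _ := by ring

end Crest.Agent.N207.H.Frb

namespace Crest.Agent.N207.H

open Frb

theorem frb : FRB := by
  intro η hη
  refine ⟨min (η / 40000) (1 / 10000), by positivity, fun G Γ a b θ hab h => ?_⟩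
  set η0 := min (η / 40000) (1 / 10000) with h0
  have p0 : 0 < η0 := by positivity
  have p1 : η0 ≤ η / 40000 := min_le_left _ _
  have p2 : η0 ≤ 1 / 10000 := min_le_right _ _
  obtain ⟨θ', m, hp, hl, he, hm, h1⟩ := step1 h hab p0.le p2
  obtain ⟨L, L1, L2, L3⟩ := step2 h.toRM hab p0.le p2 hp hl he hm h1
  refine ⟨fun y => cj L 1 (θ' y), rm_mono h.toRM (by linarith),
    (cj L 1).contDiff.comp_contDiffOn hp.sm, fun γ hγ x hx v => ?_, fun x hx u v => ?_,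
    fun x hx u v => ?_⟩
  · change L (θ' (γ x) (γ v)) = γ (L (θ' x v))
    rw [he γ hγ x hx, L2 γ hγ]
  · have d := (cj L 1).hasFDerivAt.comp x (hp.diff hx).hasFDerivAt
    have e : fderiv ℝ (fun y => cj L 1 (θ' y)) x u v - cj L 1 (θ' x) (Gam G x u v) =
        L (fderiv ℝ θ' x u v - θ' x (Gam G x u v)) := by
      rw [show fderiv ℝ (fun y => cj L 1 (θ' y)) x = _ from d.fderiv, map_sub]
      rfl
    have := wt_nonneg a b x
    rw [e]
    calc _ ≤ 2 * (‖fderiv ℝ θ' x u v - θ' x (Gam G x u v)‖ * ‖x‖) := by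
          rw [← mul_assoc]; gcongr; exact L1 _
      _ ≤ 2 * (η0 * wt a b x * ‖u‖ * ‖v‖) := 
          mul_le_mul_of_nonneg_left (hp.par x hx u v) (by norm_num)
      _ = 2 * η0 * wt a b x * ‖u‖ * ‖v‖ := by ring
      _ ≤ _ := by gcongr; linarith
  · have := wt_nonneg a b x
    exact (L3 x hx u v).trans (by gcongr; linarith)

end Crest.Agent.N207.H

end
end

-- ▼ part N207/H/Smooth1
section

/-!
# Row 207, block H (helper45): `SMOOTH`, part 1: scaled jets, two charts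
-/

set_option autoImplicit false
set_option linter.unusedSectionVars false

open scoped ContDiff Topology
open Set Filter Metric
open Crest.GeometryTopology.CoordMetric
open Crest.Agent.R202.Tens Crest.Agent.N207.Sk Crest.Agent.N207.Jt

noncomputable section

namespace Crest.Agent.N207.H.Sm

variable {ι Y Z : Type} [NormedAddCommGroup Y] [NormedSpace ℝ Y] [NormedAddCommGroup Z]
  [NormedSpace ℝ Z]

/-- smooth at `x`, all jets at scale `s` at most `C k * c` -/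
def JB (C : ℕ → ℝ) (f : E4 → Y) (x : E4) (s c : ℝ) : Prop :=
  ContDiffAt ℝ ∞ f x ∧ ∀ k, J1 k f x s (C k * c)

theorem norm_itd_scale (f : E4 → Y) {s : ℝ} (hs : 0 < s) (k : ℕ) (y : E4) :
    ‖iteratedFDeriv ℝ k (fun z => f (s • z)) y‖ = ‖iteratedFDeriv ℝ k f (s • y)‖ * s ^ k := by
  let g : E4 ≃L[ℝ] E4 := ContinuousLinearEquiv.smulLeft (Units.mk0 s hs.ne')
  have h := g.iteratedFDerivWithin_comp_right f uniqueDiffOn_univ (x := y) (mem_univ _) k
  simp only [preimage_univ, iteratedFDerivWithin_univ] at h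
  have e : iteratedFDeriv ℝ k (fun z => f (s • z)) y = s ^ k • iteratedFDeriv ℝ k f (s • y) := by
    refine h.trans ?_
    ext v
    have := (iteratedFDeriv ℝ k f (s • y)).map_smul_univ (fun _ => s) v
    simpa [g] using this
  rw [e, norm_smul, Real.norm_eq_abs, abs_of_pos (pow_pos hs k), mul_comm]

theorem contDiffAt_scale {f : E4 → Y} {s : ℝ} {y : E4} (h : ContDiffAt ℝ ∞ f (s • y)) :
    ContDiffAt ℝ ∞ (fun z => f (s • z)) y :=
  h.comp y (f := fun z : E4 => s • z) (by fun_prop)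

/-- from explicit constants to `GB` -/
theorem gb_of_jb {C : ℕ → ℝ} {f : ι → E4 → Y} {y : ι → E4} {s c : ι → ℝ}
    (h : ∀ j, 0 < s j ∧ 0 < c j ∧ JB C (f j) (s j • y j) (s j) (c j)) :
    GB ⊤ (fun j z => (c j)⁻¹ • f j (s j • z)) y := by
  refine ⟨Eventually.of_forall fun j => (contDiffAt_scale (h j).2.2.1).const_smul _,
    fun k => ⟨C k, Eventually.of_forall fun j => ?_⟩⟩
  obtain ⟨hs, hc, h1, h2⟩ := h j
  rw [iteratedFDeriv_const_smul_apply' ((contDiffAt_scale h1).of_le (kle k)), norm_smul,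
    norm_itd_scale _ hs, Real.norm_eq_abs, abs_of_pos (inv_pos.2 hc), inv_mul_le_iff₀ hc, mul_comm (c j)]
  exact h2 k

/-- from `GB` to explicit constants -/
theorem jb_of_gb {f : ι → E4 → Y} {y : ι → E4} {s c : ι → ℝ} (h0 : ∀ j, 0 < s j ∧ 0 < c j)
    (h : GB ⊤ (fun j z => (c j)⁻¹ • f j (s j • z)) y) :
    ∃ C : ℕ → ℝ, ∀ j, JB C (f j) (s j • y j) (s j) (c j) := by
  choose C hC using h.bd
  refine ⟨C, fun j => ?_⟩
  obtain ⟨hs, hc⟩ := h0 j
  have h1 : ContDiffAt ℝ ∞ (fun z => f j (s j • z)) (y j) := by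
    have := (eventually_top.1 h.sm j).const_smul (c j)
    simpa [smul_smul, hc.ne'] using this
  refine ⟨?_, fun k => ?_⟩
  · have h2 : ContDiffAt ℝ ∞ (fun z => f j (s j • z)) ((s j)⁻¹ • s j • y j) := by
      simpa [smul_smul, hs.ne'] using h1
    simpa [smul_smul, hs.ne'] using contDiffAt_scale h2
  · have := eventually_top.1 (hC k) j
    rw [iteratedFDeriv_const_smul_apply' (h1.of_le (kle k)), norm_smul,
      norm_itd_scale _ hs, Real.norm_eq_abs, abs_of_pos (inv_pos.2 hc), inv_mul_le_iff₀ hc,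
      mul_comm (c j)] at this
    exact this

theorem gb_of_fderiv {X : Type} [NormedAddCommGroup X] [NormedSpace ℝ X] {l : Filter ι}
    {f : ι → X → Y} {x : ι → X} (hs : ∀ᶠ j in l, ContDiffAt ℝ ∞ (f j) (x j))
    (h0 : ∃ C, ∀ᶠ j in l, ‖f j (x j)‖ ≤ C) (h1 : GB l (fun j => fderiv ℝ (f j)) x) : GB l f x := by
  refine ⟨hs, fun k => ?_⟩
  cases k with
  | zero => simpa using h0
  | succ k => simpa only [norm_iteratedFDeriv_fderiv] using h1.bd k

theorem JB.congr {C : ℕ → ℝ} {f g : E4 → Y} {x : E4} {s c : ℝ} (h : JB C f x s c)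
    (e : g =ᶠ[𝓝 x] f) : JB C g x s c :=
  ⟨h.1.congr_of_eventuallyEq e, fun k => by
    rw [J1, (e.iteratedFDeriv ℝ k).eq_of_nhds]; exact h.2 k⟩

theorem JB.zero (C : ℕ → ℝ) (x : E4) (s : ℝ) {c : ℝ} (hc : 0 ≤ c) :
    JB (fun k => |C k|) (fun _ => (0 : Y)) x s c :=
  ⟨contDiffAt_const, fun k => by
    simp only [J1, iteratedFDeriv_fun_zero, Pi.zero_apply, norm_zero, zero_mul]; positivity⟩

theorem JB.abs {C : ℕ → ℝ} {f : E4 → Y} {x : E4} {s c : ℝ} (h : JB C f x s c) (hc : 0 ≤ c) :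
    JB (fun k => |C k|) f x s c :=
  ⟨h.1, fun k => (h.2 k).trans (mul_le_mul_of_nonneg_right (le_abs_self _) hc)⟩

theorem JB.sum {α : Type} {C : ℕ → ℝ} {f : α → E4 → Y} {x : E4} {s c : ℝ} (I : Finset α)
    (hs : 0 ≤ s) (h : ∀ i ∈ I, JB C (f i) x s c) :
    JB (fun k => I.card * C k) (fun y => ∑ i ∈ I, f i y) x s c := by
  refine ⟨ContDiffAt.sum fun i hi => (h i hi).1, fun k => ?_⟩
  rw [J1, iteratedFDeriv_fun_sum_apply fun i hi => (h i hi).1.of_le (kle k)]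
  calc _ ≤ (∑ i ∈ I, ‖iteratedFDeriv ℝ k (f i) x‖) * s ^ k := by gcongr; exact norm_sum_le _ _
    _ ≤ ∑ _i ∈ I, C k * c := by
        rw [Finset.sum_mul]; exact Finset.sum_le_sum fun i hi => (h i hi).2 k
    _ = _ := by simp [mul_assoc]

theorem JB.mono {C C' : ℕ → ℝ} {f : E4 → Y} {x : E4} {s c : ℝ} (h : JB C f x s c) (hc : 0 ≤ c)
    (hC : ∀ k, C k ≤ C' k) : JB C' f x s c :=
  ⟨h.1, fun k => (h.2 k).trans (mul_le_mul_of_nonneg_right (hC k) hc)⟩

/-- quotients -/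
theorem jb_div (C : ℕ → ℝ) (N : ℝ) : ∃ C' : ℕ → ℝ, ∀ (u : E4 → ℝ) (v : E4 → E4) (s c : ℝ), 0 < s →
    0 < c → JB C u 0 s 1 → JB C v 0 s c → u 0 ∈ Icc 1 N →
    JB C' (fun y => (u y)⁻¹ • v y) 0 s c := by
  let ι := {t : (E4 → ℝ) × (E4 → E4) × ℝ × ℝ // 0 < t.2.2.1 ∧ 0 < t.2.2.2 ∧ JB C t.1 0 t.2.2.1 1 ∧
    JB C t.2.1 0 t.2.2.1 t.2.2.2 ∧ t.1 0 ∈ Icc 1 N}
  have h1 := gb_of_jb (ι := ι) (C := C) (f := fun j => j.1.1) (y := fun _ => 0)
    (s := fun j => j.1.2.2.1) (c := fun _ => 1) fun j => ⟨j.2.1, one_pos, by simpa using j.2.2.2.1⟩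
  have h2 := gb_of_jb (ι := ι) (C := C) (f := fun j => j.1.2.1) (y := fun _ => 0)
    (s := fun j => j.1.2.2.1) (c := fun j => j.1.2.2.2)
    fun j => ⟨j.2.1, j.2.2.1, by simpa using j.2.2.2.2.1⟩
  have h3 := (h1.smoothOn (Φ := fun t : ℝ => t⁻¹) (isCompact_Icc (a := 1) (b := N))
    (fun z hz => contDiffAt_id.inv (by have := hz.1; positivity))
    (Eventually.of_forall fun j => by simpa using j.2.2.2.2.2)).smul h2
  obtain ⟨C', hC'⟩ := jb_of_gb (ι := ι) (f := fun j y => (j.1.1 y)⁻¹ • j.1.2.1 y) (y := fun _ => 0)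
    (s := fun j => j.1.2.2.1) (c := fun j => j.1.2.2.2) (fun j => ⟨j.2.1, j.2.2.1⟩)
    (by simpa only [inv_one, one_smul, smul_comm (_ : ℝ) (_ : ℝ) (_ : E4)] using h3)
  exact ⟨C', fun u v s c a b d e f => by simpa using hC' ⟨(u, v, s, c), a, b, d, e, f⟩⟩

theorem fderiv_scale {T : E4 → E4} {s : ℝ} (hs : s ≠ 0) {y : E4}
    (h : DifferentiableAt ℝ T (s • y)) :
    fderiv ℝ (fun z => s⁻¹ • T (s • z)) y = fderiv ℝ T (s • y) := by
  have h1 : HasFDerivAt (fun z : E4 => s • z) (s • ContinuousLinearMap.id ℝ E4) y :=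
    (hasFDerivAt_id y).const_smul s
  refine ((h.hasFDerivAt.comp y h1).const_smul s⁻¹).fderiv.trans ?_
  ext1 v
  simp [smul_smul, hs]

theorem pull_scale {G1 G2 : MetricField 4} {T : E4 → E4} {V W : Set E4} (h : Pull G1 G2 T V W)
    {s : ℝ} (hs : s ≠ 0) : Pull (fun y => G1 (s • y)) (fun y => G2 (s • y))
      (fun z => s⁻¹ • T (s • z)) {y | s • y ∈ V} {y | s • y ∈ W} := by
  have hc : ContDiff ℝ ∞ fun z : E4 => s • z := by fun_prop
  have e : ∀ y, s • y ∈ V → fderiv ℝ (fun z => s⁻¹ • T (s • z)) y = fderiv ℝ T (s • y) :=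
    fun y hy => fderiv_scale hs ((h.contDiffAt hy).differentiableAt (by simp))
  refine ⟨h.isOpen.preimage hc.continuous, ⟨h.riem.isOpen.preimage hc.continuous,
    fun i j => (h.riem.contDiffOn i j).comp hc.contDiffOn fun _ hy => hy,
    fun y hy => h.riem.posDef _ hy⟩, fun y hy => ?_,
    (h.smooth.comp hc.contDiffOn fun _ hy => hy).const_smul _, fun y hy i j => ?_,
    fun y hy => ?_⟩
  · simpa [smul_smul, hs] using h.maps _ hy
  · rw [e y hy, smul_smul, mul_inv_cancel₀ hs, one_smul]; exact h.pull _ hy i j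
  · rw [e y hy]; exact h.inj _ hy

/-- metrics `δ + O(w)`: the Christoffel symbols are `O(w)` -/
theorem gam_w {l : Filter ι} {g : ι → MetricField 4} {x : ι → E4} {w : ι → ℝ}
    (hw : ∀ j, 0 < w j ∧ w j ≤ 2) (h : ∀ a b, GB l (fun j y => (w j)⁻¹ • dv (g j) a b y) x)
    (hp : ∀ j, Pos (1 / 2) (g j (x j))) :
    MB l g x ∧ GB l (fun j y => (w j)⁻¹ • Gam (g j) y) x := by
  have hwc : GB l (fun j (_ : E4) => w j) x := GB.const ⟨2, Eventually.of_forall fun j => by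
    rw [Real.norm_eq_abs, abs_of_pos (hw j).1]; exact (hw j).2⟩
  have hm : MB l g x := by
    refine ⟨fun a b => ?_, 1 / 2, by norm_num, Eventually.of_forall hp⟩
    have := (hwc.mul (h a b)).add (GB.const' ((1 : Matrix (Fin 4) (Fin 4) ℝ) a b))
    refine this.congr (Eventually.of_forall fun j => ⟨rfl, Eventually.of_forall fun y => ?_⟩)
    simp [dv, (hw j).1.ne']
  refine ⟨hm, ?_⟩
  have hd : ∀ i a b, GB l (fun j y => (w j)⁻¹ * pderiv i (fun z => g j z a b) y) x := fun i a b => by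
    refine ((h a b).ge.pd i).left.congr (Eventually.of_forall fun j =>
      ⟨rfl, Eventually.of_forall fun y => ?_⟩)
    have : fderiv ℝ (dv (g j) a b) y = fderiv ℝ (fun z => g j z a b) y := fderiv_sub_const _
    simp only [pderiv]
    rw [← this, show (fun y => (w j)⁻¹ • dv (g j) a b y) = (w j)⁻¹ • dv (g j) a b from rfl,
      fderiv_const_smul_field]
    simp
  have hc : ∀ c a b, GB l (fun j y => (w j)⁻¹ * christoffel (g j) y c a b) x := fun c a b => by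
    have := (GE.cmul (1 / 2) (GB.sum Finset.univ fun d _ => (hm.me.inv c d).left.mul
      (((hd a b d).add (hd b a d)).sub (hd d a b))).ge).left
    refine this.congr (Eventually.of_forall fun j => ⟨rfl, Eventually.of_forall fun y => ?_⟩)
    simp only [christoffel, inverseField, Finset.mul_sum]
    exact Finset.sum_congr rfl fun d _ => by ring
  have := GB.sum Finset.univ fun a _ => GB.sum Finset.univ fun b _ => GB.sum Finset.univ
    fun c (_ : c ∈ Finset.univ) => (hc c a b).smul (GB.const' (eijk a b c))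
  refine this.congr (Eventually.of_forall fun j => ⟨rfl, Eventually.of_forall fun y => ?_⟩)
  simp only [Gam, eijk, Finset.smul_sum, smul_smul]

/-- the right hand side of the equation for the second derivative -/
def isoS (p : (E4 →L[ℝ] E4 →L[ℝ] E4) × (E4 →L[ℝ] E4 →L[ℝ] E4) × (E4 →L[ℝ] E4)) :
    E4 →L[ℝ] E4 →L[ℝ] E4 := (ContinuousLinearMap.snd ℝ _ _).comp (isoR p)

theorem isoS_smooth : ContDiff ℝ ∞ isoS := contDiff_const.clm_comp isoR_smooth

/-- the data of the two chart lemma -/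
structure Tw (Cs : ℕ → ℝ) (B : ℝ) where
  G1 : MetricField 4
  G2 : MetricField 4
  T : E4 → E4
  V : Set E4
  W : Set E4
  s : ℝ
  w : ℝ
  r : ℝ
  d : E4
  L : E4 →L[ℝ] E4
  L2 : E4 →L[ℝ] E4
  hs : 0 < s
  hw : 0 < w
  hw2 : w ≤ 2
  pull : Pull G1 G2 T V W
  mem : 0 ∈ V
  z : ‖T 0‖ ≤ B * s
  j1 : JAll Cs G1 0 s w
  j2 : JAll Cs G2 (T 0) s w
  p1 : Pos (1 / 2) (G1 0)
  p2 : Pos (1 / 2) (G2 (T 0))
  hr : |r * s| ≤ B
  hL2 : ‖L2‖ ≤ B
  h0 : ‖d + L2 (T 0)‖ ≤ B * (w * s)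
  h1 : ‖L2.comp (fderiv ℝ T 0) - L‖ ≤ B * w

theorem gb_dv {Cs : ℕ → ℝ} {G : ι → MetricField 4} {U : ι → Set E4} {y : ι → E4} {s w : ι → ℝ}
    (h : ∀ j, 0 < s j ∧ 0 < w j ∧ IsRiemannianOn (G j) (U j) ∧ s j • y j ∈ U j ∧
      JAll Cs (G j) (s j • y j) (s j) (w j)) (a b : Fin 4) :
    GB ⊤ (fun j z => (w j)⁻¹ • dv (fun y => G j (s j • y)) a b z) y :=
  gb_of_jb (C := Cs) (f := fun j => dv (G j) a b) fun j => ⟨(h j).1, (h j).2.1,
    (((h j).2.2.1.contDiffOn a b).contDiffAt ((h j).2.2.1.isOpen.mem_nhds (h j).2.2.2.1)).sub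
      contDiffAt_const, fun k => (h j).2.2.2.2 k a b⟩

/-- **two charts** -/
theorem two (Cs : ℕ → ℝ) (B : ℝ) {χ : E4 → ℝ} (hχ : ContDiff ℝ ∞ χ) : ∃ C : ℕ → ℝ, ∀ t : Tw Cs B,
    JB C (fun y => χ (t.r • t.T y)) 0 t.s 1 ∧
      JB C (fun y => χ (t.r • t.T y) • (t.d + t.L2 (t.T y) - t.L y)) 0 t.s (t.w * t.s) := by
  set τ : Tw Cs B → E4 → E4 := fun t z => t.s⁻¹ • t.T (t.s • z) with hτ
  have P := fun t : Tw Cs B => pull_scale t.pull t.hs.ne'
  have m0 : ∀ t : Tw Cs B, (0 : E4) ∈ {y | t.s • y ∈ t.V} := fun t => by simpa using t.mem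
  have e0 : ∀ t : Tw Cs B, t.s • τ t 0 = t.T 0 := fun t => by simp [hτ, smul_smul, t.hs.ne']
  obtain ⟨a1, g1⟩ := gam_w (l := ⊤) (g := fun (t : Tw Cs B) y => t.G1 (t.s • y)) (x := fun _ => 0)
    (w := fun t => t.w) (fun t => ⟨t.hw, t.hw2⟩) (gb_dv (Cs := Cs) (U := fun t => t.V) fun t =>
      ⟨t.hs, t.hw, t.pull.riem', m0 t, by simpa using t.j1⟩) fun t => by simpa using t.p1
  obtain ⟨a2, g2⟩ := gam_w (l := ⊤) (g := fun (t : Tw Cs B) y => t.G2 (t.s • y))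
    (x := fun t => τ t 0) (w := fun t => t.w) (fun t => ⟨t.hw, t.hw2⟩)
    (gb_dv (Cs := Cs) (U := fun t => t.W) fun t => ⟨t.hs, t.hw, t.pull.riem, by
      rw [e0]; exact t.pull.maps _ t.mem, by rw [e0]; exact t.j2⟩) fun t => by
      simp only [e0]; exact t.p2
  have hT : GB ⊤ τ fun _ => 0 := iso_gb (Eventually.of_forall fun t => ⟨_, _, m0 t, P t⟩) a1 a2
    ⟨0, by simp⟩ ⟨B, Eventually.of_forall fun t => by
      have := t.z
      rw [← e0, norm_smul, Real.norm_eq_abs, abs_of_pos t.hs, mul_comm] at this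
      exact le_of_mul_le_mul_right this t.hs⟩
  have g2' := GB.comp (g := fun (t : Tw Cs B) y => t.w⁻¹ • Gam (fun y => t.G2 (t.s • y)) y) g2 hT
  have h2 : GB ⊤ (fun t z => t.w⁻¹ • fderiv ℝ (fderiv ℝ (τ t)) z) fun _ => 0 := by
    refine ((g1.prodMk (g2'.prodMk hT.fderiv)).smooth isoS_smooth).congr
      (Eventually.of_forall fun t => ⟨rfl, ?_⟩)
    filter_upwards [(P t).isOpen.mem_nhds (m0 t)] with z hz
    refine ContinuousLinearMap.ext fun X => ContinuousLinearMap.ext fun Y => ?_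
    have := (P t).gam_eq hz X Y
    simp only [isoS, isoR, hτ]
    simp [this, smul_add]
  have cL : GB ⊤ (fun (t : Tw Cs B) (_ : E4) => t.L2) fun _ => 0 :=
    GB.const ⟨B, Eventually.of_forall fun t => t.hL2⟩
  have hb : GB ⊤ (fun t z => χ ((t.r * t.s) • τ t z)) fun _ => 0 :=
    ((GB.const ⟨B, Eventually.of_forall fun t => t.hr⟩).smul hT).smooth hχ
  set D : Tw Cs B → E4 → E4 := fun t z => (t.w * t.s)⁻¹ • t.d + t.w⁻¹ • (t.L2 (τ t z) - t.L z)
  have sm : ∀ t : Tw Cs B, ∀ z, t.s • z ∈ t.V → ContDiffAt ℝ ∞ (τ t) z :=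
    fun t z hz => (P t).contDiffAt hz
  have smD : ∀ t : Tw Cs B, ContDiffAt ℝ ∞ (D t) 0 := fun t => contDiffAt_const.add
    (((t.L2.contDiff.contDiffAt.comp _ (sm t 0 (m0 t))).sub t.L.contDiff.contDiffAt).const_smul _)
  have dD : ∀ t : Tw Cs B, ∀ z, t.s • z ∈ t.V →
      fderiv ℝ (D t) z = t.w⁻¹ • (t.L2.comp (fderiv ℝ (τ t) z) - t.L) := fun t z hz =>
    ((((t.L2.hasFDerivAt.comp z ((sm t z hz).differentiableAt (by simp)).hasFDerivAt).sub
      t.L.hasFDerivAt).const_smul t.w⁻¹).const_add ((t.w * t.s)⁻¹ • t.d)).fderiv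
  have hD : GB ⊤ D fun _ => 0 := by
    refine gb_of_fderiv (Eventually.of_forall smD) ⟨B, Eventually.of_forall fun t => ?_⟩
      (gb_of_fderiv (Eventually.of_forall fun t => (smD t).fderiv_right (by simp))
        ⟨B, Eventually.of_forall fun t => ?_⟩ ?_)
    · have e : D t 0 = (t.w * t.s)⁻¹ • (t.d + t.L2 (t.T 0)) := by
        simp [D, hτ, smul_smul, mul_comm]
      rw [e, norm_smul, Real.norm_eq_abs, abs_of_pos (inv_pos.2 (mul_pos t.hw t.hs)),
        inv_mul_le_iff₀ (mul_pos t.hw t.hs), mul_comm]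
      exact t.h0
    · rw [dD t 0 (m0 t), fderiv_scale t.hs.ne'
        ((t.pull.contDiffAt (m0 t)).differentiableAt (by simp)), norm_smul, Real.norm_eq_abs,
        abs_of_pos (inv_pos.2 t.hw), inv_mul_le_iff₀ t.hw, mul_comm, smul_zero]
      exact t.h1
    · refine ((cL.prodMk h2).smooth (Φ := fun p => (ContinuousLinearMap.compL ℝ E4 E4 E4 p.1).comp
        p.2) (((ContinuousLinearMap.contDiff _).comp contDiff_fst).clm_comp contDiff_snd)).congr
        (Eventually.of_forall fun t => ⟨rfl, ?_⟩)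
      filter_upwards [(P t).isOpen.mem_nhds (m0 t)] with z hz
      have e : fderiv ℝ (D t) =ᶠ[𝓝 z] fun z => t.w⁻¹ • (t.L2.comp (fderiv ℝ (τ t) z) - t.L) := by
        filter_upwards [(P t).isOpen.mem_nhds hz] with y hy using dD t y hy
      have d2 : DifferentiableAt ℝ (fderiv ℝ (τ t)) z :=
        ((sm t z hz).fderiv_right (m := ∞) (by simp)).differentiableAt (by simp)
      rw [e.fderiv_eq]
      refine ((((ContinuousLinearMap.compL ℝ E4 E4 E4 t.L2).hasFDerivAt.comp z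
        d2.hasFDerivAt).sub_const t.L).const_smul t.w⁻¹).fderiv.trans ?_
      simp
  obtain ⟨C1, c1⟩ := jb_of_gb (f := fun (t : Tw Cs B) y => χ (t.r • t.T y)) (y := fun _ => 0)
    (s := fun t => t.s) (c := fun _ => 1) (fun t => ⟨t.hs, one_pos⟩)
    (hb.congr (Eventually.of_forall fun t => ⟨rfl, Eventually.of_forall fun z => by
      simp [hτ, smul_smul, t.hs.ne']⟩))
  obtain ⟨C2, c2⟩ := jb_of_gb (f := fun (t : Tw Cs B) y => χ (t.r • t.T y) •
      (t.d + t.L2 (t.T y) - t.L y)) (y := fun _ => 0)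
    (s := fun t => t.s) (c := fun t => t.w * t.s) (fun t => ⟨t.hs, mul_pos t.hw t.hs⟩)
    ((hb.smul hD).congr (Eventually.of_forall fun t => ⟨rfl, Eventually.of_forall fun z => by
      have e1 : (t.r * t.s) • τ t z = t.r • t.T (t.s • z) := by
        simp [hτ, smul_smul, t.hs.ne']
      have e2 : D t z = (t.w * t.s)⁻¹ • (t.d + t.L2 (t.T (t.s • z)) - t.L (t.s • z)) := by
        simp only [D, hτ, map_smul, smul_sub, smul_add, smul_smul, mul_inv, add_sub_assoc]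
        rw [mul_assoc, inv_mul_cancel₀ t.hs.ne', mul_one]
      simp only [e1, e2]
      rw [smul_comm]⟩))
  refine ⟨fun k => max (C1 k) (C2 k), fun t => ⟨?_, ?_⟩⟩
  · simpa using (c1 t).mono zero_le_one fun k => le_max_left _ (C2 k)
  · simpa using (c2 t).mono (mul_pos t.hw t.hs).le fun k => le_max_right (C1 k) _

end Crest.Agent.N207.H.Sm

end
end

-- ▼ part N207/H/Smooth2
section

/-!
# Row 207, block H (helper45): `SMOOTH`, part 2: one chart
-/

set_option autoImplicit false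
set_option linter.unusedSectionVars false

open scoped ContDiff Topology
open Set Filter Metric
open Crest.GeometryTopology.CoordMetric
open Crest.Agent.R202.Tens Crest.Agent.N207.Sk Crest.Agent.N207.Jt

noncomputable section

namespace Crest.Agent.N207.H.Sm

theorem wt_pos {a : ℝ} (b : ℝ) (ha : 0 < a) {x : E4} (hx : x ≠ 0) : 0 < wt a b x :=
  add_pos_of_pos_of_nonneg (Real.sqrt_pos.2 (div_pos ha (norm_pos_iff.2 hx))) (Real.sqrt_nonneg _)

theorem wt_le_two {a b : ℝ} (ha : 0 < a) {x : E4} (hx : x ∈ shell a b) : wt a b x ≤ 2 := by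
  have h0 : 0 < ‖x‖ := ha.trans hx.1
  have h1 : √(a / ‖x‖) ≤ 1 := Real.sqrt_le_one.2 ((div_le_one h0).2 hx.1.le)
  have h2 : √(‖x‖ / b) ≤ 1 := Real.sqrt_le_one.2 ((div_le_one (h0.trans hx.2)).2 hx.2.le)
  rw [wt]; linarith

theorem wt_cmp {a b : ℝ} (ha : 0 < a) (hb : 0 < b) {x y : E4} (hy : 0 < ‖y‖)
    (h1 : ‖x‖ ≤ 4 * ‖y‖) (h2 : ‖y‖ ≤ 4 * ‖x‖) : wt a b x ≤ 2 * wt a b y := by
  have hx : 0 < ‖x‖ := by linarith
  have k : ∀ {u v : ℝ}, u ≤ 4 * v → √u ≤ 2 * √v := fun {u v} h => by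
    rw [show (2 : ℝ) = √4 by rw [show (4 : ℝ) = 2 ^ 2 by norm_num, Real.sqrt_sq zero_le_two],
      ← Real.sqrt_mul (by norm_num)]
    exact Real.sqrt_le_sqrt h
  have a1 := k (u := a / ‖x‖) (v := a / ‖y‖) (by
    rw [← mul_div_assoc, div_le_div_iff₀ hx hy]; nlinarith)
  have a2 := k (u := ‖x‖ / b) (v := ‖y‖ / b) (by rw [← mul_div_assoc]; gcongr)
  rw [wt, wt]; linarith

theorem ball_sub_shell {a b : ℝ} (ha : 0 < a) {p x : E4} (hp : p ∈ shell (2 * a) (b / 2))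
    (hx : x ∈ ball p (‖p‖ / 4)) : x ∈ shell a b ∧ ‖p‖ ≤ 2 * ‖x‖ ∧ ‖x‖ ≤ 2 * ‖p‖ := by
  have h := abs_lt.1 ((abs_norm_sub_norm_le x p).trans_lt (mem_ball_iff_norm.1 hx))
  have h1 := hp.1
  have h2 := hp.2
  exact ⟨⟨by linarith [h.1], by linarith [h.2]⟩, by linarith [h.1], by linarith [h.2]⟩

theorem le_two_mul {u v : ℝ} (hv : 0 ≤ v) (h : u ^ 2 ≤ 4 * v ^ 2) : u ≤ 2 * v :=
  (abs_le_of_sq_le_sq' (by linarith [mul_pow 2 v 2]) (by positivity)).2

theorem norm_gam_le {G : MetricField 4} {x : E4} {c : ℝ} (h : ∀ k i j, |christoffel G x k i j| ≤ c) :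
    ‖Gam G x‖ ≤ 32 * c := by
  have hc : 0 ≤ c := (abs_nonneg _).trans (h 0 0 0)
  refine ContinuousLinearMap.opNorm_le_bound₂ _ (by positivity) fun X Y => ?_
  have h1 : ∀ k, Gam G x X Y k ^ 2 ≤ (16 * c * (‖X‖ * ‖Y‖)) ^ 2 := fun k => by
    have := abs_bil_le (A := Matrix.of fun i j => christoffel G x k i j) (h k) X Y
    rw [bil_apply] at this
    rw [Gam_apply]
    refine sq_le_sq' (abs_le.1 (this.trans_eq ?_)).1 (abs_le.1 (this.trans_eq ?_)).2 <;> norm_num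
  have := le_two_mul (u := ‖Gam G x X Y‖) (v := 16 * c * (‖X‖ * ‖Y‖)) (by positivity) (by
    rw [EuclideanSpace.real_norm_sq_eq, Fin.sum_univ_four]
    linarith [h1 0, h1 1, h1 2, h1 3])
  linarith

/-- the coframe read in the chart -/
def Th (θ : E4 → E4 →L[ℝ] E4) (φ : E4 → E4) (z : E4) : E4 →L[ℝ] E4 :=
  (θ (φ z)).comp (fderiv ℝ φ z)

/-- the output of the one chart lemma -/
structure OC (θ : E4 → E4 →L[ℝ] E4) (Y : E4 → E4) (ρ w : ℝ) (p : E4) (φ : E4 → E4)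
    (G' : MetricField 4) (ψ : E4 → E4) : Prop where
  up : ∀ z ∈ ball (0 : E4) ρ, ‖fderiv ℝ φ z‖ ≤ 2
  low : ∀ z ∈ ball (0 : E4) ρ, ∀ X, ‖X‖ ≤ 2 * ‖fderiv ℝ φ z X‖
  pos : ∀ z ∈ ball (0 : E4) ρ, Pos (1 / 2) (G' z)
  th : ∀ z ∈ ball (0 : E4) ρ, ‖Th θ φ 0 - Th θ φ z‖ ≤ w
  val : ∀ z ∈ ball (0 : E4) ρ, ‖Y p - Y (φ z) + Th θ φ 0 z‖ ≤ 2 * (w * ρ)
  nth : ‖Th θ φ 0‖ ≤ 4
  opn : IsOpen (φ '' ball 0 ρ)
  sm : ContDiffOn ℝ ∞ ψ (φ '' ball 0 ρ)
  inv : ∀ z ∈ ball (0 : E4) ρ, ψ (φ z) = z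
  surj : ∀ x, ‖x - p‖ ≤ ρ / 16 → ∃ z, ‖z‖ ≤ ρ / 4 ∧ φ z = x

/-- inverse of an almost linear map on a ball -/
theorem exists_inv {φ : E4 → E4} {ρ : ℝ} (hρ : 0 < ρ)
    (hs : ∀ z ∈ ball (0 : E4) ρ, ContDiffAt ℝ ∞ φ z)
    (hl : ∀ z ∈ ball (0 : E4) ρ, ∀ X, ‖X‖ ≤ 2 * ‖fderiv ℝ φ z X‖)
    (hn : ∀ z ∈ ball (0 : E4) ρ, ‖fderiv ℝ φ z - fderiv ℝ φ 0‖ ≤ 1 / 4) :
    ∃ ψ : E4 → E4, IsOpen (φ '' ball 0 ρ) ∧ ContDiffOn ℝ ∞ ψ (φ '' ball 0 ρ) ∧
      (∀ z ∈ ball (0 : E4) ρ, ψ (φ z) = z) ∧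
      ∀ x, ‖x - φ 0‖ ≤ ρ / 16 → ∃ z, ‖z‖ ≤ ρ / 4 ∧ φ z = x := by
  have h0 : (0 : E4) ∈ ball (0 : E4) ρ := mem_ball_self hρ
  have hi : ∀ z ∈ ball (0 : E4) ρ, Function.Injective (fderiv ℝ φ z) := fun z hz =>
    (injective_iff_map_eq_zero _).2 fun X hX => by simpa [hX] using hl z hz X
  have ap : ∀ x ∈ ball (0 : E4) ρ, ∀ y ∈ ball (0 : E4) ρ,
      ‖φ x - φ y - fderiv ℝ φ 0 (x - y)‖ ≤ 1 / 4 * ‖x - y‖ := fun x hx y hy =>
    (convex_ball 0 ρ).norm_image_sub_le_of_norm_fderiv_le'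
      (fun z hz => (hs z hz).differentiableAt (by simp)) hn hy hx
  have inj : InjOn φ (ball 0 ρ) := fun x hx y hy e => by
    have h1 := ap x hx y hy
    have h2 := hl 0 h0 (x - y)
    rw [e, sub_self, zero_sub, norm_neg] at h1
    exact sub_eq_zero.1 (norm_le_zero_iff.1 (by linarith))
  have loc : ∀ z ∈ ball (0 : E4) ρ, ∃ (S : E4 → E4) (W : Set E4), IsOpen W ∧ φ z ∈ W ∧
      S (φ z) = z ∧ ContDiffOn ℝ ∞ S W ∧ ∀ w ∈ W, S w ∈ ball (0 : E4) ρ ∧ φ (S w) = w :=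
    fun z hz => Gs.exists_loc_inv isOpen_ball hs hi hz
  refine ⟨Function.invFunOn φ (ball 0 ρ), isOpen_iff_mem_nhds.2 ?_, ?_,
    fun z hz => inj.leftInvOn_invFunOn hz, fun x hx => ?_⟩
  · rintro _ ⟨z, hz, rfl⟩
    obtain ⟨S, W, a, b, -, -, e⟩ := loc z hz
    exact mem_of_superset (a.mem_nhds b) fun w hw => ⟨S w, e w hw⟩
  · rintro _ ⟨z, hz, rfl⟩
    obtain ⟨S, W, a, b, -, d, e⟩ := loc z hz
    refine ((d.contDiffAt (a.mem_nhds b)).congr_of_eventuallyEq ?_).contDiffWithinAt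
    filter_upwards [a.mem_nhds b] with w hw
    have := inj.leftInvOn_invFunOn (e w hw).1
    rwa [(e w hw).2] at this
  · have su : Function.Surjective (fderiv ℝ φ 0) := (LinearMap.injective_iff_surjective
      (f := (fderiv ℝ φ 0 : E4 →ₗ[ℝ] E4))).1 (hi 0 h0)
    choose R hR using su
    let N : (fderiv ℝ φ 0).NonlinearRightInverse :=
      ⟨R, 2, fun y => by simpa [hR] using hl 0 h0 (R y), hR⟩
    have hA : ApproximatesLinearOn φ (fderiv ℝ φ 0) (ball 0 ρ) (1 / 4) := fun x hx y hy => by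
      simpa using ap x hx y hy
    obtain ⟨z, hz, e⟩ := hA.surjOn_closedBall_of_nonlinearRightInverse N (ε := ρ / 4) (b := 0)
      (by positivity) (closedBall_subset_ball (by linarith)) (a := x) (by
        rw [mem_closedBall_iff_norm]
        refine hx.trans (le_of_eq ?_)
        simp only [N]; push_cast; ring)
    exact ⟨z, by simpa using hz, e⟩

variable {Cs : ℕ → ℝ} {G G' : MetricField 4} {Γ : Subgroup (E4 ≃ₗᵢ[ℝ] E4)} {a b c e : ℝ}
  {θ : E4 → E4 →L[ℝ] E4} {Y φ : E4 → E4} {p : E4}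

theorem norm_theta (h : FD G Γ a b (1 / 100) θ Y) {x : E4} (hx : x ∈ shell a b) : ‖θ x‖ ≤ 2 := by
  refine ContinuousLinearMap.opNorm_le_bound _ zero_le_two fun u => le_two_mul (norm_nonneg _) ?_
  have h1 := (abs_le.1 (h.iso x hx u u)).2
  have h2 := (abs_le.1 (h.near x hx u u)).2
  rw [real_inner_self_eq_norm_sq] at h1 h2
  have := wt_le_two h.a_pos hx
  nlinarith [mul_le_mul_of_nonneg_right this (mul_self_nonneg ‖u‖), sq_nonneg ‖u‖]

/-- the chart metric on a small ball -/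
theorem lch_jg {w : ℝ} (k : LCh Cs G c w p φ G') (hw : 0 < w) (hp : 0 < ‖p‖) (hec : e ≤ c)
    (he : 0 < e) {z : E4} (hz : z ∈ ball (0 : E4) (e * ‖p‖)) :
    JG 1 G' z (e * ‖p‖) ((|Cs 1| + 1) * w * e) := by
  have sub : ball (0 : E4) (e * ‖p‖) ⊆ ball 0 (c * ‖p‖) := ball_subset_ball (by gcongr)
  have d1 : ∀ i j, ∀ y ∈ ball (0 : E4) (e * ‖p‖),
      ‖fderiv ℝ (dv G' i j) y‖ ≤ (|Cs 1| + 1) * w / ‖p‖ := fun i j y hy => by
    have := k.jet y (sub hy) 1 i j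
    rw [J1, ← norm_iteratedFDeriv_fderiv, norm_iteratedFDeriv_zero, pow_one] at this
    rw [le_div_iff₀ hp]
    exact this.trans (mul_le_mul_of_nonneg_right (by linarith [le_abs_self (Cs 1)]) hw.le)
  intro m hm i j
  interval_cases m
  · have := (convex_ball (0 : E4) (e * ‖p‖)).norm_image_sub_le_of_norm_fderiv_le (f := dv G' i j)
      (fun y hy => (differentiableAt_entry k.pull.riem' (sub hy) i j).sub_const _) (d1 i j)
      (mem_ball_self (by positivity)) hz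
    have e0 : dv G' i j 0 = 0 := by simp [dv, k.one]
    rw [J1, norm_iteratedFDeriv_zero, pow_zero, mul_one]
    rw [e0, sub_zero, sub_zero] at this
    refine this.trans ?_
    calc _ ≤ (|Cs 1| + 1) * w / ‖p‖ * (e * ‖p‖) := by gcongr; exact (mem_ball_zero_iff.1 hz).le
      _ = _ := by field_simp
  · rw [J1, ← norm_iteratedFDeriv_fderiv, norm_iteratedFDeriv_zero, pow_one]
    calc _ ≤ (|Cs 1| + 1) * w / ‖p‖ * (e * ‖p‖) := by gcongr; exact d1 i j z hz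
      _ = _ := by field_simp

set_option maxHeartbeats 1000000 in
/-- **one chart** -/
theorem one (h : FD G Γ a b (1 / 100) θ Y) (hp : p ∈ shell (2 * a) (b / 2))
    (k : LCh Cs G c (wt a b p) p φ G') (hec : e ≤ c) (he : 0 < e)
    (heA : (|Cs 1| + 1) * e ≤ 1 / 20000) : ∃ ψ, OC θ Y (e * ‖p‖) (wt a b p) p φ G' ψ := by
  have ha := h.a_pos
  have hs : 0 < ‖p‖ := lt_trans (by linarith) hp.1
  have hb : 0 < b := by linarith [hp.2]
  have hp' : p ∈ shell a b := (ball_sub_shell ha hp (mem_ball_self (by positivity))).1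
  set w := wt a b p with hwd
  set A := |Cs 1| + 1 with hA
  have hA1 : 1 ≤ A := by linarith [abs_nonneg (Cs 1)]
  have hw : 0 < w := wt_pos b ha (norm_pos_iff.1 hs)
  have hw2 : w ≤ 2 := wt_le_two ha hp'
  have sub : ball (0 : E4) (e * ‖p‖) ⊆ ball 0 (c * ‖p‖) := ball_subset_ball (by gcongr)
  have h0 : (0 : E4) ∈ ball (0 : E4) (e * ‖p‖) := mem_ball_self (by positivity)
  have hη : A * w * e ≤ 1 / 100 := by nlinarith
  have jg := fun z hz => lch_jg k hw hs hec he (z := z) hz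
  have sh := fun z hz => ball_sub_shell ha hp (k.pull.maps z (sub hz))
  have wx : ∀ z ∈ ball (0 : E4) (e * ‖p‖), wt a b (φ z) ≤ 2 * w := fun z hz =>
    wt_cmp ha hb hs (by linarith [(sh z hz).2.2]) (by linarith [(sh z hz).2.1])
  have bl : ∀ z ∈ ball (0 : E4) (e * ‖p‖), ∀ X, ‖X‖ ^ 2 ≤ 4 * ‖fderiv ℝ φ z X‖ ^ 2 ∧
      ‖fderiv ℝ φ z X‖ ^ 2 ≤ 4 * ‖X‖ ^ 2 := fun z hz X => by
    have h1 := Rad.jg_low (jg z hz) hη X
    have h2 := Rad.jg_up (jg z hz) hη X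
    have h3 := abs_le.1 (h.near _ (sh z hz).1 (fderiv ℝ φ z X) (fderiv ℝ φ z X))
    rw [← k.pull.bil_eq (sub hz), real_inner_self_eq_norm_sq] at h3
    constructor <;> nlinarith [h3.1, h3.2, sq_nonneg ‖fderiv ℝ φ z X‖]
  have upX := fun z hz X => le_two_mul (norm_nonneg _) (bl z hz X).2
  have up : ∀ z ∈ ball (0 : E4) (e * ‖p‖), ‖fderiv ℝ φ z‖ ≤ 2 := fun z hz =>
    ContinuousLinearMap.opNorm_le_bound _ zero_le_two (upX z hz)
  have low := fun z hz X => le_two_mul (norm_nonneg _) (bl z hz X).1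
  have gm : ∀ z ∈ ball (0 : E4) (e * ‖p‖), ∀ X Y,
      ‖fderiv ℝ φ z (Gam G' z X Y)‖ ≤ 768 * A * w / ‖p‖ * ‖X‖ * ‖Y‖ := fun z hz X Y => by
    have h1 := norm_gam_le (Rad.jg_chr k.pull.riem' (sub hz) (jg z hz) hη le_rfl (by positivity))
    have h2 := (Gam G' z).le_opNorm₂ X Y
    refine (upX z hz _).trans ?_
    calc _ ≤ 2 * (32 * (12 * (A * w * e / (e * ‖p‖))) * ‖X‖ * ‖Y‖) := by
          refine mul_le_mul_of_nonneg_left (h2.trans ?_) zero_le_two
          gcongr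
      _ = _ := by field_simp; ring
  have sm := fun z hz => k.pull.contDiffAt (y := z) (sub hz)
  have d1 := fun z hz => (sm z hz).differentiableAt (by simp)
  have d2 : ∀ z ∈ ball (0 : E4) (e * ‖p‖), DifferentiableAt ℝ (fderiv ℝ φ) z := fun z hz =>
    ((sm z hz).fderiv_right (m := ∞) (by simp)).differentiableAt (by simp)
  have mv : ∀ {f : E4 → E4 →L[ℝ] E4} {K : ℝ}, 0 ≤ K →
      (∀ z ∈ ball (0 : E4) (e * ‖p‖), DifferentiableAt ℝ f z ∧
        ∀ X Y, ‖fderiv ℝ f z X Y‖ ≤ K / ‖p‖ * ‖X‖ * ‖Y‖) →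
      ∀ z ∈ ball (0 : E4) (e * ‖p‖), ‖f z - f 0‖ ≤ K * e := fun {f K} hK hf z hz => by
    have := (convex_ball (0 : E4) (e * ‖p‖)).norm_image_sub_le_of_norm_fderiv_le
      (fun y hy => (hf y hy).1) (fun y hy => ContinuousLinearMap.opNorm_le_bound₂ _
        (by positivity) (hf y hy).2) h0 hz
    refine this.trans ?_
    rw [sub_zero]
    calc _ ≤ K / ‖p‖ * (e * ‖p‖) := by gcongr; exact (mem_ball_zero_iff.1 hz).le
      _ = _ := by field_simp
  have nr : ∀ z ∈ ball (0 : E4) (e * ‖p‖), ‖fderiv ℝ φ z - fderiv ℝ φ 0‖ ≤ 1 / 4 := fun z hz => by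
    refine (mv (K := 2000 * A) (by positivity) (fun z hz => ⟨d2 z hz, fun X Y => ?_⟩) z hz).trans
      (by linarith)
    rw [eq_sub_of_add_eq' (k.pull.gam_eq (sub hz) X Y).symm]
    have h1 : ‖Gam G (φ z)‖ ≤ 1 / ‖p‖ := by
      rw [le_div_iff₀ hs]
      nlinarith [h.gam _ (sh z hz).1, (sh z hz).2.1, norm_nonneg (Gam G (φ z))]
    have h2 : ‖Gam G (φ z) (fderiv ℝ φ z X) (fderiv ℝ φ z Y)‖ ≤ 1 / ‖p‖ * (2 * ‖X‖) * (2 * ‖Y‖) :=
      ((Gam G (φ z)).le_opNorm₂ _ _).trans (by gcongr; exacts [upX z hz X, upX z hz Y])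
    refine (norm_sub_le _ _).trans ((add_le_add (gm z hz X Y) h2).trans ?_)
    have : 0 ≤ ‖X‖ * ‖Y‖ / ‖p‖ := by positivity
    calc _ = (768 * A * w + 4) * (‖X‖ * ‖Y‖ / ‖p‖) := by ring
      _ ≤ (2000 * A) * (‖X‖ * ‖Y‖ / ‖p‖) := by gcongr; nlinarith
      _ = _ := by ring
  have th : ∀ z ∈ ball (0 : E4) (e * ‖p‖), ‖Th θ φ z - Th θ φ 0‖ ≤ w := fun z hz => by
    refine (mv (K := 2000 * A * w) (by positivity) (fun z hz => ?_) z hz).trans (by nlinarith)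
    have hd := ((h.dθ _ (sh z hz).1).hasFDerivAt.comp z (d1 z hz).hasFDerivAt).clm_comp
      (d2 z hz).hasFDerivAt
    refine ⟨hd.differentiableAt, fun X Y => ?_⟩
    have e1 : fderiv ℝ (Th θ φ) z X Y = (fderiv ℝ θ (φ z) (fderiv ℝ φ z X) (fderiv ℝ φ z Y) -
        θ (φ z) (Gam G (φ z) (fderiv ℝ φ z X) (fderiv ℝ φ z Y))) +
          θ (φ z) (fderiv ℝ φ z (Gam G' z X Y)) := by
      rw [show fderiv ℝ (Th θ φ) z = _ from hd.fderiv, k.pull.gam_eq (sub hz) X Y]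
      simp only [map_add, add_apply, ContinuousLinearMap.comp_apply,
        ContinuousLinearMap.compL_apply, ContinuousLinearMap.flip_apply, Function.comp]
      abel
    have h1 : ‖fderiv ℝ θ (φ z) (fderiv ℝ φ z X) (fderiv ℝ φ z Y) -
        θ (φ z) (Gam G (φ z) (fderiv ℝ φ z X) (fderiv ℝ φ z Y))‖ ≤ w / ‖p‖ * ‖X‖ * ‖Y‖ := by
      have h2 := (h.par _ (sh z hz).1 (fderiv ℝ φ z X) (fderiv ℝ φ z Y)).trans
        (show _ ≤ 1 / 100 * (2 * w) * (2 * ‖X‖) * (2 * ‖Y‖) by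
          gcongr; exacts [wx z hz, upX z hz X, upX z hz Y])
      rw [div_mul_eq_mul_div, div_mul_eq_mul_div, le_div_iff₀ hs]
      have h3 : 0 ≤ w * ‖X‖ * ‖Y‖ := by positivity
      nlinarith [mul_le_mul_of_nonneg_left (sh z hz).2.1 (norm_nonneg (fderiv ℝ θ (φ z)
        (fderiv ℝ φ z X) (fderiv ℝ φ z Y) -
          θ (φ z) (Gam G (φ z) (fderiv ℝ φ z X) (fderiv ℝ φ z Y))))]
    have h2 : ‖θ (φ z) (fderiv ℝ φ z (Gam G' z X Y))‖ ≤ 2 * (768 * A * w / ‖p‖ * ‖X‖ * ‖Y‖) :=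
      ((θ (φ z)).le_opNorm _).trans (by gcongr; exacts [norm_theta h (sh z hz).1, gm z hz X Y])
    rw [e1]
    refine (norm_add_le _ _).trans ((add_le_add h1 h2).trans ?_)
    have : 0 ≤ w * ‖X‖ * ‖Y‖ / ‖p‖ := by positivity
    calc _ = (1 + 1536 * A) * (w * ‖X‖ * ‖Y‖ / ‖p‖) := by ring
      _ ≤ (2000 * A) * (w * ‖X‖ * ‖Y‖ / ‖p‖) := by gcongr; linarith
      _ = _ := by ring
  obtain ⟨ψ, a1, a2, a3, a4⟩ := exists_inv (by positivity) sm low nr
  refine ⟨ψ, up, low, fun z hz => ⟨metric_symm k.pull.riem' (sub hz), fun v => ?_⟩,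
    fun z hz => by rw [norm_sub_rev]; exact th z hz, fun z hz => ?_, ?_, a1, a2, a3,
    by simpa only [k.ctr] using a4⟩
  · linarith [Rad.jg_low (jg z hz) hη v]
  · have hd := fun y hy => (h.dY _ (sh y hy).1).hasFDerivAt.comp y (d1 y hy).hasFDerivAt
    have := (convex_ball (0 : E4) (e * ‖p‖)).norm_image_sub_le_of_norm_fderiv_le' (C := 2 * w)
      (φ := Th θ φ 0) (fun y hy => (hd y hy).differentiableAt) (fun y hy => ?_) h0 hz
    · simp only [Function.comp, k.ctr, sub_zero] at this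
      rw [← norm_neg, show -(Y p - Y (φ z) + Th θ φ 0 z) = Y (φ z) - Y p - Th θ φ 0 z by abel]
      refine this.trans ?_
      rw [mul_assoc]; gcongr; exact (mem_ball_zero_iff.1 hz).le
    · rw [(hd y hy).fderiv, show (fderiv ℝ Y (φ y)).comp (fderiv ℝ φ y) - Th θ φ 0 =
        (fderiv ℝ Y (φ y) - θ (φ y)).comp (fderiv ℝ φ y) + (Th θ φ y - Th θ φ 0) by
          rw [ContinuousLinearMap.sub_comp]; exact (sub_add_sub_cancel _ _ _).symm]
      have h1 : ‖(fderiv ℝ Y (φ y) - θ (φ y)).comp (fderiv ℝ φ y)‖ ≤ 1 / 100 * (2 * w) * 2 :=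
        (ContinuousLinearMap.opNorm_comp_le _ _).trans (mul_le_mul ((h.der _ (sh y hy).1).trans
          (by gcongr; exact wx y hy)) (up y hy) (norm_nonneg _) (by positivity))
      exact (norm_add_le _ _).trans (by linarith [th y hy])
  · exact (ContinuousLinearMap.opNorm_comp_le _ _).trans ((mul_le_mul (norm_theta h (sh 0 h0).1)
      (up 0 h0) (norm_nonneg _) zero_le_two).trans (by norm_num))

end Crest.Agent.N207.H.Sm

end
end

-- ▼ part N207/H/Smooth3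
section

/-!
# Row 207, block H (helper45): `SMOOTH`, part 3: the cover, the bump functions, pairs of charts
-/

set_option autoImplicit false
set_option linter.unusedSectionVars false

open scoped ContDiff Topology
open Set Filter Metric
open Crest.GeometryTopology.CoordMetric
open Crest.Agent.R202.Tens Crest.Agent.N207.Sk Crest.Agent.N207.Jt

noncomputable section

namespace Crest.Agent.N207.H.Sm

/-- a scale invariant cover of bounded multiplicity -/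
theorem cover {ε : ℝ} (hε : 0 < ε) : ∃ N : ℕ, ∀ a b : ℝ, 0 < a → ∃ I : Finset E4,
    (∀ p ∈ I, p ∈ shell (2 * a) (b / 2)) ∧
    (∀ x ∈ shell (4 * a) (b / 4), ∃ p ∈ I, ‖x - p‖ ≤ ε * ‖p‖) ∧
    ∀ (x : E4) (J : Finset E4), J ⊆ I → (∀ p ∈ J, x ∈ ball p (‖p‖ / 4)) → J.card ≤ N := by
  classical
  obtain ⟨Q, hQ, fQ, cQ⟩ := finite_cover_balls_of_compact
    ((isCompact_closedBall (0 : E4) 2).diff (isOpen_ball (x := 0) (ε := 1))) hε
  have nQ : ∀ q ∈ Q, 1 ≤ ‖q‖ ∧ ‖q‖ ≤ 2 := fun q hq => by simpa [and_comm] using hQ hq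
  let F : ℤ → ℤ → Finset E4 := fun m n =>
    (Finset.Icc m n ×ˢ fQ.toFinset).image fun t => (2 : ℝ) ^ t.1 • t.2
  have mF : ∀ m n x, x ∈ F m n ↔ ∃ j, m ≤ j ∧ j ≤ n ∧ ∃ q ∈ Q, (2 : ℝ) ^ j • q = x :=
    fun m n x => by simp [F, and_assoc]
  have lt : ∀ {i j : ℤ}, (2 : ℝ) ^ i < 2 ^ j → i < j := fun h =>
    (zpow_lt_zpow_iff_right₀ one_lt_two).1 h
  have ns : ∀ (j : ℤ) (q : E4), ‖(2 : ℝ) ^ j • q‖ = 2 ^ j * ‖q‖ := fun j q => by
    rw [norm_smul, Real.norm_eq_abs, abs_of_pos (by positivity)]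
  refine ⟨3 * fQ.toFinset.card, fun a b ha => ?_⟩
  obtain ⟨m0, h0, -⟩ := exists_mem_Ico_zpow ha one_lt_two
  obtain ⟨n0, -, h1⟩ := exists_mem_Ico_zpow (show 0 < |b| + 1 by positivity) one_lt_two
  refine ⟨(F m0 n0).filter (· ∈ shell (2 * a) (b / 2)), fun p hp => (Finset.mem_filter.1 hp).2,
    fun x hx => ?_, fun x J hJ hx => ?_⟩
  · have hx0 : 0 < ‖x‖ := lt_trans (by linarith) hx.1
    obtain ⟨m, a1, a2⟩ := exists_mem_Ico_zpow hx0 one_lt_two
    have hm : (0 : ℝ) < 2 ^ m := by positivity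
    rw [zpow_add_one₀ two_ne_zero] at a2
    have e : (2 : ℝ) ^ m • (2 : ℝ) ^ (-m) • x = x := by simp [smul_smul, hm.ne']
    have hn : 2 ^ m * ‖(2 : ℝ) ^ (-m) • x‖ = ‖x‖ := by rw [← ns, e]
    obtain ⟨q, hq, hxq⟩ : ∃ q ∈ Q, (2 : ℝ) ^ (-m) • x ∈ ball q ε := by
      simpa using cQ (a := (2 : ℝ) ^ (-m) • x) ⟨mem_closedBall_zero_iff.2 (by nlinarith),
        fun h => by have := mem_ball_zero_iff.1 h; nlinarith⟩
    obtain ⟨q1, q2⟩ := nQ q hq
    refine ⟨(2 : ℝ) ^ m • q, Finset.mem_filter.2 ⟨(mF _ _ _).2 ⟨m, ?_, ?_, q, hq, rfl⟩, ?_, ?_⟩, ?_⟩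
    · exact Int.lt_add_one_iff.1 (lt (by rw [zpow_add_one₀ two_ne_zero]; linarith [hx.1]))
    · exact Int.lt_add_one_iff.1 (lt (by linarith [hx.2, le_abs_self b, abs_nonneg b]))
    · rw [ns]; nlinarith [hx.1]
    · rw [ns]; nlinarith [hx.2]
    · rw [← e, ← smul_sub, ns, ns, mul_left_comm]
      have := mem_ball_iff_norm.1 hxq
      gcongr
      nlinarith
  · rcases J.eq_empty_or_nonempty with rfl | ⟨p0, hp0⟩
    · simp
    have cm : ∀ p ∈ J, 3 * ‖p‖ < 4 * ‖x‖ ∧ 4 * ‖x‖ < 5 * ‖p‖ := fun p hp => by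
      have h := abs_lt.1 ((abs_norm_sub_norm_le x p).trans_lt (mem_ball_iff_norm.1 (hx p hp)))
      exact ⟨by linarith [h.1], by linarith [h.2]⟩
    have hx0 : 0 < ‖x‖ := by linarith [(cm p0 hp0).1, norm_nonneg p0]
    obtain ⟨m, a1, a2⟩ := exists_mem_Ico_zpow hx0 one_lt_two
    have : J ⊆ F (m - 1) (m + 1) := fun p hp => by
      obtain ⟨j, -, -, q, hq, rfl⟩ := (mF _ _ _).1 (Finset.mem_filter.1 (hJ hp)).1
      obtain ⟨q1, q2⟩ := nQ q hq
      obtain ⟨c1, c2⟩ := cm _ hp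
      rw [ns] at c1 c2
      have hj : (0 : ℝ) < 2 ^ j := by positivity
      refine (mF _ _ _).2 ⟨j, ?_, ?_, q, hq, rfl⟩
      · have : m < j + 1 + 1 := lt (by
          rw [zpow_add_one₀ two_ne_zero, zpow_add_one₀ two_ne_zero]; nlinarith)
        omega
      · exact Int.lt_add_one_iff.1 (lt (by rw [zpow_add_one₀ two_ne_zero]; nlinarith))
    refine (Finset.card_le_card this).trans (Finset.card_image_le.trans ?_)
    rw [Finset.card_product, Int.card_Icc, show m + 1 + 1 - (m - 1) = 3 by ring]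
    rfl

/-- the model bump -/
def chi : ContDiffBump (0 : E4) := ⟨1 / 4, 1 / 2, by norm_num, by norm_num⟩

/-- the bump of a chart -/
def bet (ρ : ℝ) (φ ψ : E4 → E4) : E4 → ℝ := (φ '' ball 0 ρ).indicator fun x => chi (ρ⁻¹ • ψ x)

section
variable {θ : E4 → E4 →L[ℝ] E4} {Y φ ψ : E4 → E4} {ρ w : ℝ} {p x : E4} {G' : MetricField 4}

theorem bet_nonneg (ρ : ℝ) (φ ψ : E4 → E4) (x : E4) : 0 ≤ bet ρ φ ψ x :=
  indicator_nonneg (fun _ _ => chi.nonneg) x

theorem OC.bet_eq (o : OC θ Y ρ w p φ G' ψ) (hx : x ∈ φ '' ball 0 ρ) :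
    bet ρ φ ψ =ᶠ[𝓝 x] fun x => chi (ρ⁻¹ • ψ x) := by
  filter_upwards [o.opn.mem_nhds hx] with y hy using indicator_of_mem hy _

theorem OC.bet_zero (o : OC θ Y ρ w p φ G' ψ) (hρ : 0 < ρ) (hφ : ContinuousOn φ (ball 0 ρ))
    (hx : x ∉ φ '' closedBall 0 (ρ / 2)) : ∀ᶠ y in 𝓝 x, bet ρ φ ψ y = 0 := by
  have hK : IsCompact (φ '' closedBall 0 (ρ / 2)) := (isCompact_closedBall _ _).image_of_continuousOn
    (hφ.mono (closedBall_subset_ball (by linarith)))
  filter_upwards [hK.isClosed.isOpen_compl.mem_nhds hx] with y hy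
  refine indicator_apply_eq_zero.2 ?_
  rintro ⟨z, hz, rfl⟩
  have : ρ / 2 < ‖z‖ := not_le.1 fun h => hy ⟨z, mem_closedBall_zero_iff.2 h, rfl⟩
  refine chi.zero_of_le_dist ?_
  rw [o.inv z hz, dist_zero_right, norm_smul, Real.norm_eq_abs, abs_of_pos (inv_pos.2 hρ),
    le_inv_mul_iff₀ hρ]
  simp only [chi]; linarith

theorem OC.bet_one (o : OC θ Y ρ w p φ G' ψ) (hρ : 0 < ρ) (hx : ‖x - p‖ ≤ ρ / 16) :
    bet ρ φ ψ x = 1 := by
  obtain ⟨z, hz, rfl⟩ := o.surj x hx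
  have hz' : z ∈ ball (0 : E4) ρ := mem_ball_zero_iff.2 (by linarith)
  rw [bet, indicator_of_mem (mem_image_of_mem φ hz'), o.inv z hz']
  refine chi.one_of_mem_closedBall ?_
  rw [mem_closedBall_zero_iff, norm_smul, Real.norm_eq_abs, abs_of_pos (inv_pos.2 hρ),
    inv_mul_le_iff₀ hρ]
  simp only [chi]; linarith

theorem OC.bet_smul (o : OC θ Y ρ w p φ G' ψ) (hρ : 0 < ρ) (hφ : ContinuousOn φ (ball 0 ρ))
    {F : Type} [NormedAddCommGroup F] [NormedSpace ℝ F] {f : E4 → F} (hf : ContDiff ℝ ∞ f) (x : E4) :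
    ContDiffAt ℝ ∞ (fun y => bet ρ φ ψ y • f (ψ y)) x := by
  by_cases hx : x ∈ φ '' closedBall 0 (ρ / 2)
  · have hx' : x ∈ φ '' ball 0 ρ := image_mono (closedBall_subset_ball (by linarith)) hx
    have h1 := o.sm.contDiffAt (o.opn.mem_nhds hx')
    exact ((chi.contDiff.contDiffAt.comp x (h1.const_smul ρ⁻¹)).congr_of_eventuallyEq
      (o.bet_eq hx')).smul (hf.contDiffAt.comp x h1)
  · refine (contDiffAt_const (c := 0)).congr_of_eventuallyEq ?_
    filter_upwards [o.bet_zero hρ hφ hx] with y hy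
    rw [hy, zero_smul]

end

/-- lifting a chart through another one -/
theorem pull_lift {G G1 G2 : MetricField 4} {φ φ2 T : E4 → E4} {V V2 V0 U U2 : Set E4}
    (h1 : Pull G1 G φ V U) (h2 : Pull G2 G φ2 V2 U2) (h0 : IsOpen V0) (hV : V0 ⊆ V)
    (hT : ContDiffOn ℝ ∞ T V0) (hm : ∀ y ∈ V0, T y ∈ V2 ∧ φ2 (T y) = φ y) :
    Pull G1 G2 T V0 V2 ∧ ∀ y ∈ V0, (fderiv ℝ φ2 (T y)).comp (fderiv ℝ T y) = fderiv ℝ φ y := by
  have e : ∀ y ∈ V0, (fderiv ℝ φ2 (T y)).comp (fderiv ℝ T y) = fderiv ℝ φ y := fun y hy => by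
    rw [← fderiv_comp y ((h2.contDiffAt (hm y hy).1).differentiableAt (by simp))
      ((hT.contDiffAt (h0.mem_nhds hy)).differentiableAt (by simp))]
    refine EventuallyEq.fderiv_eq ?_
    filter_upwards [h0.mem_nhds hy] with z hz using (hm z hz).2
  refine ⟨⟨h0, h2.riem', fun y hy => (hm y hy).1, hT, fun y hy i j => ?_, fun y hy => ?_⟩, e⟩
  · rw [← bil_apply, h2.bil_eq (hm y hy).1, (hm y hy).2, ← Gs.bil_single (G1 y), h1.bil_eq (hV hy),
      ← e y hy]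
    rfl
  · have := h1.inj y (hV hy)
    rw [← e y hy] at this
    exact Function.Injective.of_comp (f := fderiv ℝ φ2 (T y)) this

theorem jall_scale {Cs : ℕ → ℝ} {G : MetricField 4} {x : E4} {s s' w w' : ℝ} (h : JAll Cs G x s w)
    (h0 : 0 ≤ s') (hs : s' ≤ 2 * s) (hw0 : 0 ≤ w) (hw : w ≤ 2 * w') :
    JAll (fun k => 2 ^ (k + 1) * |Cs k|) G x s' w' := fun k i j => by
  have := h k i j
  rw [J1] at this ⊢
  calc _ ≤ ‖iteratedFDeriv ℝ k (dv G i j) x‖ * (2 * s) ^ k := by gcongr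
    _ = 2 ^ k * (‖iteratedFDeriv ℝ k (dv G i j) x‖ * s ^ k) := by ring
    _ ≤ 2 ^ k * (|Cs k| * (2 * w')) := mul_le_mul_of_nonneg_left
        (this.trans (mul_le_mul (le_abs_self _) hw hw0 (abs_nonneg _))) (by positivity)
    _ = _ := by ring

/-- **pairs of charts** -/
theorem pair (Cs : ℕ → ℝ) {c e : ℝ} (hec : e ≤ c) (he : 0 < e)
    (heA : (|Cs 1| + 1) * e ≤ 1 / 20000) : ∃ C : ℕ → ℝ, ∀ {G G1 G2 : MetricField 4}
    {Γ : Subgroup (E4 ≃ₗᵢ[ℝ] E4)} {a b : ℝ} {θ : E4 → E4 →L[ℝ] E4} {Y φ φ2 ψ2 : E4 → E4}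
    {p p2 : E4}, FD G Γ a b (1 / 100) θ Y → p ∈ shell (2 * a) (b / 2) →
    p2 ∈ shell (2 * a) (b / 2) → LCh Cs G c (wt a b p) p φ G1 → LCh Cs G c (wt a b p2) p2 φ2 G2 →
    OC θ Y (e * ‖p2‖) (wt a b p2) p2 φ2 G2 ψ2 → p ∈ φ2 '' ball 0 (e * ‖p2‖) →
    JB C (fun y => bet (e * ‖p2‖) φ2 ψ2 (φ y)) 0 ‖p‖ 1 ∧
      JB C (fun y => bet (e * ‖p2‖) φ2 ψ2 (φ y) •
        (Y p2 + Th θ φ2 0 (ψ2 (φ y)) - (Y p + Th θ φ 0 y))) 0 ‖p‖ (wt a b p * ‖p‖) := by
  obtain ⟨C, hC⟩ := two (fun k => 2 ^ (k + 1) * |Cs k|) (8 + 2 / e) (χ := chi) chi.contDiff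
  refine ⟨C, fun {G G1 G2 Γ a b θ Y φ φ2 ψ2 p p2} h hp hp2 k k2 o2 hm => ?_⟩
  obtain ⟨ψ, o⟩ := one h hp k hec he heA
  obtain ⟨z, hz, ez⟩ := hm
  have ha := h.a_pos
  have hs : 0 < ‖p‖ := lt_trans (by linarith) hp.1
  have hs2 : 0 < ‖p2‖ := lt_trans (by linarith) hp2.1
  have hb : 0 < b := by linarith [hp.2]
  have he1 : e ≤ 1 := by nlinarith [abs_nonneg (Cs 1)]
  have he2 : 0 < 2 / e := by positivity
  have sub : ball (0 : E4) (e * ‖p2‖) ⊆ ball 0 (c * ‖p2‖) := ball_subset_ball (by gcongr)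
  have h0 : (0 : E4) ∈ ball (0 : E4) (c * ‖p‖) := mem_ball_self (mul_pos (he.trans_le hec) hs)
  have h0' : (0 : E4) ∈ ball (0 : E4) (e * ‖p‖) := mem_ball_self (mul_pos he hs)
  obtain ⟨s1, s2, s3⟩ := ball_sub_shell ha hp2 (k2.pull.maps z (sub hz))
  rw [ez] at s1 s2 s3
  have hw := wt_pos b ha (norm_pos_iff.1 hs)
  have hw2 := wt_pos b ha (norm_pos_iff.1 hs2)
  have wc : wt a b p2 ≤ 2 * wt a b p := wt_cmp ha hb hs (by linarith) (by linarith)
  have m0 : (0 : E4) ∈ ball 0 (c * ‖p‖) ∩ φ ⁻¹' (φ2 '' ball 0 (e * ‖p2‖)) :=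
    ⟨h0, z, hz, ez.trans k.ctr.symm⟩
  have hO := k.pull.smooth.continuousOn.isOpen_inter_preimage isOpen_ball o2.opn
  obtain ⟨P, dP⟩ := pull_lift (T := fun y => ψ2 (φ y)) k.pull k2.pull hO inter_subset_left
    (o2.sm.comp (k.pull.smooth.mono inter_subset_left) fun y hy => hy.2) (by
      rintro y ⟨-, u, hu, eu⟩
      rw [← eu, o2.inv u hu]; exact ⟨sub hu, rfl⟩)
  have T0 : ψ2 (φ 0) = z := by rw [k.ctr, ← ez, o2.inv z hz]
  have dT : ‖fderiv ℝ (fun y => ψ2 (φ y)) 0‖ ≤ 4 := by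
    refine ContinuousLinearMap.opNorm_le_bound _ (by norm_num) fun X => (o2.low z hz _).trans ?_
    have := dP 0 m0
    simp only [T0] at this
    rw [← ContinuousLinearMap.comp_apply, this]
    nlinarith [(fderiv ℝ φ 0).le_of_opNorm_le (o.up 0 h0') X]
  obtain ⟨c1, c2⟩ := hC ⟨G1, G2, fun y => ψ2 (φ y), _, _, ‖p‖, wt a b p, (e * ‖p2‖)⁻¹,
    Y p2 - Y p, Th θ φ 0, Th θ φ2 0, hs, hw, wt_le_two ha s1, P, m0, by
      rw [T0]; nlinarith [mem_ball_zero_iff.1 hz],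
    jall_scale (k.jet 0 h0) hs.le (by linarith) hw.le (by linarith), by
      rw [T0]; exact jall_scale (k2.jet z (sub hz)) hs.le s3 hw2.le wc, o.pos 0 h0', by
      rw [T0]; exact o2.pos z hz, by
      rw [abs_of_pos (by positivity), inv_mul_le_iff₀ (by positivity)]
      have : e * ‖p2‖ * (8 + 2 / e) = 8 * (e * ‖p2‖) + 2 * ‖p2‖ := by field_simp
      rw [this]; nlinarith, by linarith [o2.nth], by
      have := o2.val z hz
      rw [ez] at this
      rw [T0]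
      refine this.trans ?_
      calc _ ≤ 2 * (2 * wt a b p * (1 * (2 * ‖p‖))) := by gcongr
        _ ≤ _ := by nlinarith [mul_pos hw hs], by
      have e1 : Th θ φ 0 = (Th θ φ2 z).comp (fderiv ℝ (fun y => ψ2 (φ y)) 0) := by
        have := dP 0 m0
        simp only [T0] at this
        rw [Th, Th, ContinuousLinearMap.comp_assoc, this, ez, k.ctr]
      rw [e1, ← ContinuousLinearMap.sub_comp]
      refine (ContinuousLinearMap.opNorm_comp_le _ _).trans ((mul_le_mul (o2.th z hz) dT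
        (norm_nonneg _) hw2.le).trans (by nlinarith))⟩
  have ev : ∀ᶠ y in 𝓝 (0 : E4), bet (e * ‖p2‖) φ2 ψ2 (φ y) = chi ((e * ‖p2‖)⁻¹ • ψ2 (φ y)) :=
    (k.pull.contDiffAt h0).continuousAt.eventually (o2.bet_eq m0.2)
  refine ⟨c1.congr ev, c2.congr (ev.mono fun y hy => ?_)⟩
  simp only [hy]
  congr 1
  abel

end Crest.Agent.N207.H.Sm

end
end

-- ▼ part N207/H/Smooth4

/-!
# Row 207, block H (helper45): `SMOOTH`
-/

set_option autoImplicit false
set_option linter.unusedSectionVars false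

open scoped ContDiff Topology
open Set Filter Metric
open Crest.GeometryTopology.CoordMetric
open Crest.Agent.R202.Tens Crest.Agent.N207.Sk Crest.Agent.N207.Jt

noncomputable section

namespace Crest.Agent.N207.H.Sm

theorem shell_sub {a b : ℝ} (ha : 0 < a) : shell (4 * a) (b / 4) ⊆ shell (2 * a) (b / 2) :=
  fun _ hx => ⟨by linarith [hx.1], by linarith [hx.1, hx.2]⟩

/-- **the non equivariant core** -/
theorem core (Cs : ℕ → ℝ) {c e : ℝ} (hec : e ≤ c) (he : 0 < e)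
    (heA : (|Cs 1| + 1) * e ≤ 1 / 20000) : ∃ C : ℕ → ℝ, ∀ {G : MetricField 4}
    {Γ : Subgroup (E4 ≃ₗᵢ[ℝ] E4)} {a b : ℝ} {θ : E4 → E4 →L[ℝ] E4} {Y : E4 → E4},
    FD G Γ a b (1 / 100) θ Y →
    (∀ p ∈ shell (2 * a) (b / 2), ∃ φ G', LCh Cs G c (wt a b p) p φ G') →
    ∃ Y0 : E4 → E4, (∀ x ∈ shell (4 * a) (b / 4), ContDiffAt ℝ ∞ Y0 x) ∧
      ∀ p ∈ shell (4 * a) (b / 4), ∀ φ G', LCh Cs G c (wt a b p) p φ G' →
        JB C (fun y => Y0 (φ y) - (Y p + Th θ φ 0 y)) 0 ‖p‖ (wt a b p * ‖p‖) := by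
  classical
  obtain ⟨N, hN⟩ := cover (ε := e / 16) (by positivity)
  obtain ⟨C1, h1⟩ := pair Cs hec he heA
  obtain ⟨C2, h2⟩ := jb_div (fun k => N * |C1 k|) (N * |C1 0|)
  refine ⟨C2, fun {G Γ a b θ Y} h hch => ?_⟩
  have ha := h.a_pos
  obtain ⟨I, i1, i2, i3⟩ := hN a b ha
  choose! φ G' hk using hch
  choose! ψ ho using fun p hp => one h hp (hk p hp) hec he heA
  have ρ0 : ∀ i ∈ I, 0 < e * ‖i‖ := fun i hi => mul_pos he (lt_trans (by linarith) (i1 i hi).1)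
  have sub : ∀ i : E4, ball (0 : E4) (e * ‖i‖) ⊆ ball 0 (c * ‖i‖) := fun i =>
    ball_subset_ball (by gcongr)
  have cφ : ∀ i ∈ I, ContinuousOn (φ i) (ball 0 (e * ‖i‖)) := fun i hi =>
    (hk i (i1 i hi)).pull.smooth.continuousOn.mono (sub i)
  set β : E4 → E4 → ℝ := fun i => bet (e * ‖i‖) (φ i) (ψ i) with hβ
  have s1 : ∀ x ∈ shell (4 * a) (b / 4), 1 ≤ ∑ i ∈ I, β i x := fun x hx => by
    obtain ⟨i, hi, hx'⟩ := i2 x hx
    rw [← (ho i (i1 i hi)).bet_one (ρ0 i hi) (x := x) (by linarith)]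
    exact Finset.single_le_sum (f := fun i => β i x) (fun j _ => bet_nonneg _ _ _ _) hi
  have sβ : ∀ x, ContDiffAt ℝ ∞ (fun x => ∑ i ∈ I, β i x) x := fun x => ContDiffAt.sum fun i hi => by
    simpa using (ho i (i1 i hi)).bet_smul (ρ0 i hi) (cφ i hi) (f := fun _ => (1 : ℝ))
      contDiff_const x
  refine ⟨fun x => (∑ i ∈ I, β i x)⁻¹ • ∑ i ∈ I, β i x • (Y i + Th θ (φ i) 0 (ψ i x)),
    fun x hx => ((sβ x).inv (by linarith [s1 x hx])).smul (ContDiffAt.sum fun i hi =>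
      (ho i (i1 i hi)).bet_smul (ρ0 i hi) (cφ i hi) (f := fun z => Y i + Th θ (φ i) 0 z)
        (contDiff_const.add (ContinuousLinearMap.contDiff _)) x), fun p hp φ0 G0 k => ?_⟩
  have hp' := shell_sub ha hp
  have hs : 0 < ‖p‖ := lt_trans (by linarith) hp.1
  have hw := wt_pos b ha (norm_pos_iff.1 hs)
  have ct : Tendsto φ0 (𝓝 0) (𝓝 p) := by
    rw [← k.ctr]
    exact (k.pull.contDiffAt (mem_ball_self (mul_pos (he.trans_le hec) hs))).continuousAt
  set J := I.filter fun i => p ∈ φ i '' closedBall 0 (e * ‖i‖ / 2) with hJ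
  have JI : J ⊆ I := Finset.filter_subset _ _
  have mJ : ∀ i ∈ J, p ∈ φ i '' ball 0 (e * ‖i‖) := fun i hi =>
    image_mono (closedBall_subset_ball (by linarith [ρ0 i (JI hi)])) (Finset.mem_filter.1 hi).2
  have cJ : (J.card : ℝ) ≤ N := by
    exact_mod_cast i3 p J JI fun i hi => by
      obtain ⟨z, hz, ez⟩ := mJ i hi
      rw [← ez]; exact (hk i (i1 i (JI hi))).pull.maps z (sub i hz)
  have z0 : ∀ᶠ y in 𝓝 (0 : E4), ∀ i ∈ I, i ∉ J → β i (φ0 y) = 0 :=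
    (eventually_all_finset I).2 fun i hi => by
      by_cases hj : i ∈ J
      · simp [hj]
      · exact (ct.eventually ((ho i (i1 i hi)).bet_zero (ρ0 i hi) (cφ i hi)
          fun h' => hj (Finset.mem_filter.2 ⟨hi, h'⟩))).mono fun y hy _ => hy
  have pr := fun i hi => h1 h hp' (i1 i (JI hi)) k (hk i (i1 i (JI hi))) (ho i (i1 i (JI hi)))
    (mJ i hi)
  have hu : JB (fun k => N * |C1 k|) (fun y => ∑ i ∈ I, β i (φ0 y)) 0 ‖p‖ 1 :=
    ((JB.sum J hs.le fun i hi => (pr i hi).1.abs zero_le_one).mono zero_le_one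
      fun k => by gcongr).congr (z0.mono fun y hy => (Finset.sum_subset JI hy).symm)
  have hv : JB (fun k => N * |C1 k|) (fun y => ∑ i ∈ I, β i (φ0 y) •
      (Y i + Th θ (φ i) 0 (ψ i (φ0 y)) - (Y p + Th θ φ0 0 y))) 0 ‖p‖ (wt a b p * ‖p‖) :=
    ((JB.sum J hs.le fun i hi => (pr i hi).2.abs (mul_pos hw hs).le).mono (mul_pos hw hs).le
      fun k => by gcongr).congr (z0.mono fun y hy => (Finset.sum_subset JI fun i hi hj => by
        rw [hy i hi hj, zero_smul]).symm)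
  have u1 : 1 ≤ ∑ i ∈ I, β i (φ0 0) := by rw [k.ctr]; exact s1 p hp
  refine (h2 _ _ _ _ hs (mul_pos hw hs) hu hv ⟨u1, ?_⟩).congr ?_
  · have := hu.2 0
    rw [J1, norm_iteratedFDeriv_zero, pow_zero, mul_one, mul_one] at this
    exact (le_abs_self _).trans this
  · filter_upwards [hu.1.continuousAt.eventually_ne (y := 0) (by positivity)] with y hy
    simp only [smul_sub, Finset.sum_sub_distrib, ← Finset.sum_smul, smul_smul,
      inv_mul_cancel₀ hy, one_smul]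

/-- rotating a chart by a deck transformation -/
theorem lch_rot {Cs : ℕ → ℝ} {G G' : MetricField 4} {Γ : Subgroup (E4 ≃ₗᵢ[ℝ] E4)} {a b c η : ℝ}
    {φ : E4 → E4} {p : E4} (h : RM G Γ a b η) (hp : p ∈ shell (2 * a) (b / 2))
    (k : LCh Cs G c (wt a b p) p φ G') {γ : E4 ≃ₗᵢ[ℝ] E4} (hγ : γ ∈ Γ) :
    LCh Cs G c (wt a b (γ p)) (γ p) (fun y => γ (φ y)) G' := by
  have e : ∀ y, fderiv ℝ (fun y => γ (φ y)) y = (γ : E4 →L[ℝ] E4).comp (fderiv ℝ φ y) :=
    fun y => γ.comp_fderiv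
  have hp' : γ p ∈ shell (2 * a) (b / 2) := by simpa [shell] using hp
  have sb : ball (γ p) (‖γ p‖ / 4) ⊆ shell a b := fun x hx => (ball_sub_shell h.a_pos hp' hx).1
  refine ⟨⟨isOpen_ball, ⟨isOpen_ball, fun i j => (h.riem.contDiffOn i j).mono sb,
    fun x hx => h.riem.posDef x (sb hx)⟩, fun y hy => ?_, ?_, fun y hy i j => ?_, fun y hy => ?_⟩,
    by rw [k.ctr], k.one, ?_⟩ <;> simp only [γ.norm_map] at *
  · rw [mem_ball, γ.dist_map]; exact k.pull.maps y hy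
  · exact γ.contDiff.comp_contDiffOn k.pull.smooth
  · rw [← bil_apply, e, ← Gs.bil_single (G' y), k.pull.bil_eq hy]
    exact (h.inv γ hγ _ (ball_sub_shell h.a_pos hp (k.pull.maps y hy)).1 _ _).symm
  · rw [e]; exact γ.injective.comp (k.pull.inj y hy)
  · simpa only [wt, γ.norm_map] using k.jet

end Crest.Agent.N207.H.Sm

namespace Crest.Agent.N207.H

open Sm

/-- **(SMOOTH)** -/
theorem smooth : SMOOTH := by
  refine ⟨1 / 100, by norm_num, fun c Cs hc => ?_⟩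
  have hA : 0 < |Cs 1| + 1 := by positivity
  have hec : min c (1 / 20000 / (|Cs 1| + 1)) ≤ c := min_le_left _ _
  have he : 0 < min c (1 / 20000 / (|Cs 1| + 1)) := by positivity
  have heA : (|Cs 1| + 1) * min c (1 / 20000 / (|Cs 1| + 1)) ≤ 1 / 20000 := by
    rw [mul_comm, ← le_div_iff₀ hA]; exact min_le_right _ _
  obtain ⟨C, hC⟩ := core Cs hec he heA
  refine ⟨fun k => |C k| + |Cs k| + 2 * |C 1| + 1, fun G Γ a b θ Y h hch => ?_⟩
  obtain ⟨Y0, s0, j0⟩ := hC h hch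
  have ha := h.a_pos
  have := h.fin
  let _ := Fintype.ofFinite Γ
  have hn : (0 : ℝ) < (Finset.univ : Finset Γ).card := by exact_mod_cast Finset.card_pos.2 ⟨1, by simp⟩
  set n : ℝ := ((Finset.univ : Finset Γ).card : ℝ) with hnd
  have rot : ∀ (γ : E4 ≃ₗᵢ[ℝ] E4) {x}, x ∈ shell (4 * a) (b / 4) → γ x ∈ shell (4 * a) (b / 4) :=
    fun γ x hx => by simpa [shell] using hx
  set Yt : E4 → E4 := fun x => n⁻¹ • ∑ γ : Γ, γ.1.symm (Y0 (γ.1 x)) with hYt
  have sY : ∀ x ∈ shell (4 * a) (b / 4), ContDiffAt ℝ ∞ Yt x := fun x hx =>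
    (ContDiffAt.sum fun (γ : Γ) _ => γ.1.symm.contDiff.contDiffAt.comp x
      ((s0 _ (rot γ.1 hx)).comp x γ.1.contDiff.contDiffAt)).const_smul _
  refine ⟨Yt, fun x hx => (sY x hx).contDiffWithinAt, fun δ hδ x _ => ?_, fun p hp => ?_⟩
  · simp only [hYt, map_smul, map_sum]
    congr 1
    refine Fintype.sum_equiv (Equiv.mulRight (⟨δ, hδ⟩ : Γ)) _ _ fun γ => ?_
    apply γ.1.injective
    have : ∀ v, γ.1 (δ ((γ.1 * δ).symm v)) = v := fun v => (γ.1 * δ).apply_symm_apply v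
    simpa using (this _).symm
  have hp' := shell_sub ha hp
  have hp0 : p ∈ shell a b := ⟨by linarith [hp.1], by linarith [hp.1, hp.2]⟩
  have hs : 0 < ‖p‖ := lt_trans (by linarith) hp.1
  have hw := wt_pos b ha (norm_pos_iff.1 hs)
  obtain ⟨φ, G', k⟩ := hch p hp'
  obtain ⟨ψ, o⟩ := one h hp' k hec he heA
  have h0 : (0 : E4) ∈ ball (0 : E4) (c * ‖p‖) := mem_ball_self (mul_pos hc hs)
  have h0' := mem_ball_self (x := (0 : E4)) (mul_pos he hs)
  have jγ : ∀ γ : Γ, JB C (fun y => γ.1.symm (Y0 (γ.1 (φ y))) - (Y p + Th θ φ 0 y)) 0 ‖p‖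
      (wt a b p * ‖p‖) := fun γ => by
    have h1 := j0 _ (rot γ.1 hp) _ _ (lch_rot h.toRM hp' k γ.2)
    have e : (fun y => γ.1.symm (Y0 (γ.1 (φ y))) - (Y p + Th θ φ 0 y)) = γ.1.symm ∘ fun y =>
        Y0 (γ.1 (φ y)) - (Y (γ.1 p) + Th θ (fun y => γ.1 (φ y)) 0 y) := by
      funext y
      have e1 : fderiv ℝ (fun y => γ.1 (φ y)) 0 = (γ.1 : E4 →L[ℝ] E4).comp (fderiv ℝ φ 0) :=
        γ.1.comp_fderiv
      simp [Th, e1, k.ctr, h.eY _ γ.2 p hp0, h.eθ _ γ.2 p hp0]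
    rw [e]
    refine ⟨γ.1.symm.contDiff.contDiffAt.comp _ h1.1, fun m => ?_⟩
    rw [J1, LinearIsometryEquiv.norm_iteratedFDeriv_comp_left]
    simpa only [wt, γ.1.norm_map, J1] using h1.2 m
  have jt : JB C (fun y => Yt (φ y) - (Y p + Th θ φ 0 y)) 0 ‖p‖ (wt a b p * ‖p‖) := by
    have h1 := JB.sum Finset.univ hs.le fun γ _ => jγ γ
    have e : (fun y => Yt (φ y) - (Y p + Th θ φ 0 y)) = fun y => n⁻¹ • ∑ γ : Γ,
        (γ.1.symm (Y0 (γ.1 (φ y))) - (Y p + Th θ φ 0 y)) := by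
      funext y
      rw [Finset.sum_sub_distrib, Finset.sum_const, smul_sub, ← Nat.cast_smul_eq_nsmul ℝ, smul_smul,
        inv_mul_cancel₀ hn.ne', one_smul]
    rw [e]
    refine ⟨h1.1.const_smul _, fun m => ?_⟩
    rw [J1, iteratedFDeriv_const_smul_apply' (h1.1.of_le (kle m)), norm_smul, Real.norm_eq_abs,
      abs_of_pos (inv_pos.2 hn), mul_assoc, inv_mul_le_iff₀ hn, ← mul_assoc]
    exact h1.2 m
  have c0 := abs_nonneg (C 0)
  have c1 := abs_nonneg (C 1)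
  have c2 := abs_nonneg (Cs 0)
  refine ⟨?_, ?_, φ, G', Th θ φ 0, ⟨_, _, h0, k.pull⟩, k.ctr, fun m i j => (k.jet 0 h0 m i j).trans
    (mul_le_mul_of_nonneg_right (by linarith [le_abs_self (Cs m), abs_nonneg (C m)]) hw.le),
    fun u v => ?_, fun m => (jt.2 m).trans ?_⟩
  · have := jt.2 0
    simp only [J1, norm_iteratedFDeriv_zero, pow_zero, mul_one, k.ctr, map_zero, add_zero] at this
    rw [mul_assoc]
    exact this.trans (mul_le_mul_of_nonneg_right (by linarith [le_abs_self (C 0)])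
      (mul_pos hw hs).le)
  · have := jt.2 1
    have d1 : HasFDerivAt Yt (fderiv ℝ Yt p) (φ 0) := by
      rw [k.ctr]; exact ((sY p hp).differentiableAt (by simp)).hasFDerivAt
    have d2 := (d1.comp 0 ((k.pull.contDiffAt h0).differentiableAt (by simp)).hasFDerivAt).sub
      ((Th θ φ 0).hasFDerivAt.const_add (Y p))
    rw [J1, ← norm_iteratedFDeriv_fderiv, norm_iteratedFDeriv_zero, pow_one, ← mul_assoc,
      mul_le_mul_iff_left₀ hs, show fderiv ℝ (fun y => Yt (φ y) - (Y p + Th θ φ 0 y)) 0 = _ from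
        d2.fderiv, Th, k.ctr, ← ContinuousLinearMap.sub_comp] at this
    refine ContinuousLinearMap.opNorm_le_bound _ (by positivity) fun X => ?_
    obtain ⟨X', rfl⟩ := k.pull.surj h0 X
    refine (ContinuousLinearMap.le_of_opNorm_le _ this X').trans ?_
    calc _ ≤ |C 1| * wt a b p * (2 * ‖fderiv ℝ φ 0 X'‖) := by
          gcongr; exacts [le_abs_self _, o.low 0 h0' X']
      _ = 2 * |C 1| * wt a b p * ‖fderiv ℝ φ 0 X'‖ := by ring
      _ ≤ _ := by gcongr; linarith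
  · have h1 := h.iso p hp0 (fderiv ℝ φ 0 u) (fderiv ℝ φ 0 v)
    have h2 := k.pull.bil_eq h0 u v
    have h3 : bil (1 : Matrix (Fin 4) (Fin 4) ℝ) u v = inner ℝ u v := by
      simp [bil_apply, Matrix.one_apply, PiLp.inner_apply, mul_comm]
    rw [k.one, k.ctr, h3] at h2
    rw [← h2] at h1
    simp only [Th, ContinuousLinearMap.comp_apply, k.ctr]
    refine h1.trans ?_
    have : 0 ≤ wt a b p * ‖u‖ * ‖v‖ := by positivity
    calc _ ≤ 1 / 100 * wt a b p * (2 * ‖u‖) * (2 * ‖v‖) := by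
          gcongr <;> exact (fderiv ℝ φ 0).le_of_opNorm_le (o.up 0 h0') _
      _ ≤ 1 * wt a b p * ‖u‖ * ‖v‖ := by linarith
      _ ≤ _ := by gcongr; linarith
  · rw [mul_assoc]
    exact mul_le_mul_of_nonneg_right (by linarith [le_abs_self (C m), abs_nonneg (Cs m)])
      (mul_pos hw hs).le

end Crest.Agent.N207.H

end
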