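import Mathlib
import Crest.Agent.Lib.ODEFlow

-- ▼ part N207/H/Tr1
section

/-!
# Row 207, block H: transport along straight segments

`Γ : E → E →L 𝔸` is a connection form with values in a Banach algebra, smooth on the open set `U`.
`trp Γ (p, x)` is the value at `t = 1` of the solution of `Θ' = Θ * Γ(p + t(x-p))(x-p)`, `Θ 0 = 1`.
It is smooth on `segD U = {(p, x) | [p, x] ⊆ U}`.
-/

set_option autoImplicit false
set_option linter.unusedSectionVars false

open Set Filter Topology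
open scoped ContDiff
open Crest.Agent.Lib.ODEFlow

noncomputable section

namespace Crest.Agent.N207.H

variable {E 𝔸 : Type} [NormedAddCommGroup E] [NormedSpace ℝ E] [NormedRing 𝔸]
  [NormedAlgebra ℝ 𝔸] [CompleteSpace 𝔸]

/-- the identity function of the unit interval -/
def idI : C(I, ℝ) := ⟨fun t => t, continuous_subtype_val⟩

/-- `v ↦ (t ↦ t • v)` -/
def linL : E →L[ℝ] C(I, E) :=
  LinearMap.mkContinuous
    { toFun := fun v => ⟨fun t => (t : ℝ) • v, continuous_subtype_val.smul continuous_const⟩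
      map_add' := by intro v w; ext t; simp
      map_smul' := by intro c v; ext t; simp [smul_comm c] } 1 (by
    intro v
    rw [ContinuousMap.norm_le _ (by positivity)]
    intro t
    change ‖(t : ℝ) • v‖ ≤ 1 * ‖v‖
    rw [norm_smul, Real.norm_of_nonneg t.2.1]
    gcongr
    exact t.2.2)

/-- position and velocity along the segment -/
def segP (q : E × E) : C(I, E × E) :=
  constL (q.1, q.2 - q.1) + linL (q.2 - q.1, (0 : E))

theorem segP_apply (q : E × E) (t : I) :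
    segP q t = (q.1 + (t : ℝ) • (q.2 - q.1), q.2 - q.1) := by
  change (q.1, q.2 - q.1) + (t : ℝ) • (q.2 - q.1, (0 : E)) = _
  simp

theorem contDiff_segP : ContDiff ℝ ∞ (segP (E := E)) := by
  unfold segP
  fun_prop

/-- pairs of points whose segment lies in `U` -/
def segD (U : Set E) : Set (E × E) := {q | ∀ t ∈ Icc (0 : ℝ) 1, q.1 + t • (q.2 - q.1) ∈ U}

theorem segD_iff {U : Set E} {q : E × E} : q ∈ segD U ↔ segP q ∈ mapsIn I (U ×ˢ (univ : Set E)) :=
  ⟨fun h t => by rw [segP_apply]; exact ⟨h t t.2, trivial⟩,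
    fun h t ht => by have := h ⟨t, ht⟩; rw [segP_apply] at this; exact this.1⟩

theorem isOpen_segD {U : Set E} (hU : IsOpen U) : IsOpen (segD U) := by
  have : segD U = segP (E := E) ⁻¹' mapsIn (E := E × E) I (U ×ˢ univ) := by
    ext q; exact segD_iff
  rw [this]
  exact (isOpen_mapsIn (K := I) (E := E × E) (hU.prod isOpen_univ)).preimage
    (contDiff_segP (E := E)).continuous

theorem segD_scale {U : Set E} {p x : E} (h : (p, x) ∈ segD U) {τ : ℝ} (hτ : τ ∈ Icc (0 : ℝ) 1) :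
    (p, p + τ • (x - p)) ∈ segD U := fun t ht => by
  have := h (t * τ) (mul_mem_I ht hτ)
  simpa [mul_smul] using this

theorem segD_symm {U : Set E} {p x : E} (h : (p, x) ∈ segD U) : (x, p) ∈ segD U := fun t ht => by
  have := h (1 - t) ⟨by linarith [ht.2], by linarith [ht.1]⟩
  convert this using 1
  module

theorem segD_left {U : Set E} {p x : E} (h : (p, x) ∈ segD U) : p ∈ U := by
  simpa using h 0 ⟨le_rfl, zero_le_one⟩

theorem segD_right {U : Set E} {p x : E} (h : (p, x) ∈ segD U) : x ∈ U := segD_left (segD_symm h)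

/-- coefficient path -/
def segA (Γ : E → E →L[ℝ] 𝔸) (q : E × E) : C(I, 𝔸) := nem (fun s : E × E => Γ s.1 s.2) (segP q)

/-- right multiplication -/
def rmul : C(I, 𝔸) →L[ℝ] C(I, 𝔸) →L[ℝ] C(I, 𝔸) :=
  LinearMap.mkContinuous₂
    (LinearMap.mk₂ ℝ (fun (A h : C(I, 𝔸)) => h * A)
      (fun _ _ _ => mul_add _ _ _) (fun _ _ _ => by ext t; exact mul_smul_comm _ _ _)
      (fun _ _ _ => add_mul _ _ _) (fun _ _ _ => by ext t; exact smul_mul_assoc _ _ _)) 1 (by
    intro A h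
    change ‖h * A‖ ≤ _
    rw [one_mul, mul_comm ‖A‖]
    exact norm_mul_le _ _)

/-- the Volterra operator of the coefficient path `A` -/
def vop (A : C(I, 𝔸)) : C(I, 𝔸) →L[ℝ] C(I, 𝔸) :=
  ContinuousLinearMap.id ℝ _ - vol ∘L rmul A

theorem vop_inv (A : C(I, 𝔸)) : (vop A).IsInvertible :=
  isInvertible_id_sub_vol_comp _ (norm_nonneg A) fun h t => by
    change ‖h t * A t‖ ≤ _
    rw [mul_comm ‖A‖]
    exact (norm_mul_le _ _).trans (by gcongr; exact A.norm_coe_le_norm t)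

theorem vop_apply (A h : C(I, 𝔸)) (t : I) :
    vop A h t = h t - ∫ s in (0 : ℝ)..t, h (pr s) * A (pr s) := rfl

/-- solution of `Θ' = Θ * A`, `Θ 0 = 1` -/
def vsol (A : C(I, 𝔸)) : C(I, 𝔸) := (vop A).inverse 1

theorem vop_vsol (A : C(I, 𝔸)) : vop A (vsol A) = 1 := (vop_inv A).self_apply_inverse 1

theorem vsol_eq (A : C(I, 𝔸)) (t : I) :
    vsol A t = 1 + ∫ s in (0 : ℝ)..t, vsol A (pr s) * A (pr s) := by
  have := congrArg (fun h : C(I, 𝔸) => h t) (vop_vsol A)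
  simp only [vop_apply, ContinuousMap.one_apply] at this
  rw [← this]; abel

theorem vsol_unique {A h : C(I, 𝔸)} (e : ∀ t : I, h t = 1 + ∫ s in (0 : ℝ)..t, h (pr s) * A (pr s)) :
    vsol A = h := by
  have : vop A h = 1 := by
    ext t
    rw [vop_apply, ContinuousMap.one_apply]
    nth_rewrite 1 [e t]
    abel
  rw [vsol, ← this, (vop_inv A).inverse_apply_self]

theorem contDiff_vsol : ContDiff ℝ ∞ (vsol (𝔸 := 𝔸)) := by
  rw [contDiff_iff_contDiffAt]
  intro A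
  have h1 : ContDiff ℝ ∞ (vop (𝔸 := 𝔸)) := by
    unfold vop
    refine contDiff_const.sub ?_
    have : ContDiff ℝ ∞ (fun A : C(I, 𝔸) => rmul A) := by fun_prop
    exact contDiff_const.clm_comp this
  have h2 := (vop_inv A).contDiffAt_map_inverse (n := ∞)
  exact (h2.comp A h1.contDiffAt).clm_apply contDiffAt_const

/-- transport along the segment from `q.1` to `q.2` -/
def trp (Γ : E → E →L[ℝ] 𝔸) (q : E × E) : 𝔸 := vsol (segA Γ q) 1

variable {Γ : E → E →L[ℝ] 𝔸} {U : Set E}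

theorem contDiffOn_ev (hΓ : ContDiffOn ℝ ∞ Γ U) :
    ContDiffOn ℝ ∞ (fun s : E × E => Γ s.1 s.2) (U ×ˢ univ) :=
  (hΓ.comp contDiff_fst.contDiffOn fun _ hs => hs.1).clm_apply contDiff_snd.contDiffOn

theorem segA_apply (hΓ : ContDiffOn ℝ ∞ Γ U) {q : E × E} (hq : q ∈ segD U) (t : I) :
    segA Γ q t = Γ (q.1 + (t : ℝ) • (q.2 - q.1)) (q.2 - q.1) := by
  rw [segA, nem_apply (contDiffOn_ev hΓ).continuousOn (segD_iff.1 hq), segP_apply]

theorem contDiffOn_trp (hU : IsOpen U) (hΓ : ContDiffOn ℝ ∞ Γ U) :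
    ContDiffOn ℝ ∞ (trp Γ) (segD U) := by
  have h1 : ContDiffOn ℝ ∞ (segA Γ) (segD U) :=
    (contDiffOn_nem (n := ⊤) (hU.prod isOpen_univ) (contDiffOn_ev hΓ)).comp
      contDiff_segP.contDiffOn fun q hq => segD_iff.1 hq
  have h2 : ContDiff ℝ ∞ (fun f : C(I, 𝔸) => (ContinuousMap.evalCLM ℝ (1 : I) : C(I, 𝔸) →L[ℝ] 𝔸) f) :=
    ContinuousLinearMap.contDiff _
  exact h2.comp_contDiffOn (contDiff_vsol.comp_contDiffOn h1)

theorem contDiffAt_trp (hU : IsOpen U) (hΓ : ContDiffOn ℝ ∞ Γ U) {q : E × E} (hq : q ∈ segD U) :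
    ContDiffAt ℝ ∞ (trp Γ) q :=
  (contDiffOn_trp hU hΓ).contDiffAt ((isOpen_segD hU).mem_nhds hq)

theorem trp_scale (hΓ : ContDiffOn ℝ ∞ Γ U) {p x : E} (h : (p, x) ∈ segD U) {τ : ℝ}
    (hτ : τ ∈ Icc (0 : ℝ) 1) : trp Γ (p, p + τ • (x - p)) = vsol (segA Γ (p, x)) (pr τ) := by
  have e : vsol (segA Γ (p, p + τ • (x - p))) = scale τ (vsol (segA Γ (p, x))) := by
    refine vsol_unique fun t => ?_
    rw [scale_apply, vsol_eq, pr_of_mem (mul_mem_I hτ t.2)]
    have h2 := intervalIntegral.smul_integral_comp_mul_left (a := 0) (b := (t : ℝ))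
      (fun r => vsol (segA Γ (p, x)) (pr r) * segA Γ (p, x) (pr r)) τ
    rw [mul_zero] at h2
    rw [← h2, ← intervalIntegral.integral_smul]
    congr 1
    refine intervalIntegral.integral_congr fun s hs => ?_
    rw [uIcc_of_le t.2.1] at hs
    have hs' : s ∈ Icc (0 : ℝ) 1 := ⟨hs.1, hs.2.trans t.2.2⟩
    simp only [scale_apply]
    rw [segA_apply hΓ (segD_scale h hτ), segA_apply hΓ h, pr_of_mem hs',
      pr_of_mem (mul_mem_I hτ hs')]
    simp only [add_sub_cancel_left, map_smul, mul_smul_comm, smul_smul, mul_comm s τ]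
  rw [trp, e, scale_apply]
  simp

theorem trp_self (hΓ : ContDiffOn ℝ ∞ Γ U) {p : E} (hp : p ∈ U) : trp Γ (p, p) = 1 := by
  have h : (p, p) ∈ segD U := fun t _ => by simpa using hp
  have := trp_scale hΓ h (τ := 0) ⟨le_rfl, zero_le_one⟩
  simp only [zero_smul, add_zero] at this
  rw [this, vsol_eq, pr_of_mem ⟨le_rfl, zero_le_one⟩]
  simp

theorem fderiv_trp_seg (hU : IsOpen U) (hΓ : ContDiffOn ℝ ∞ Γ U) {p x : E} (h : (p, x) ∈ segD U)
    {τ : ℝ} (hτ : τ ∈ Icc (0 : ℝ) 1) :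
    fderiv ℝ (trp Γ) (p, p + τ • (x - p)) (0, x - p) =
      trp Γ (p, p + τ • (x - p)) * Γ (p + τ • (x - p)) (x - p) := by
  set A := segA Γ (p, x) with hA
  have hc : Continuous fun s => vsol A (pr s) * A (pr s) :=
    (continuous_comp_pr _).mul (continuous_comp_pr _)
  have h1 : HasDerivAt (fun u => 1 + ∫ s in (0 : ℝ)..u, vsol A (pr s) * A (pr s))
      (vsol A (pr τ) * A (pr τ)) τ :=
    (intervalIntegral.integral_hasDerivAt_right (hc.intervalIntegrable _ _)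
      (hc.stronglyMeasurableAtFilter _ _) hc.continuousAt).const_add 1
  have h2 : HasDerivAt (fun u : ℝ => (p, p + u • (x - p))) ((0 : E), x - p) τ := by
    have := (hasDerivAt_const τ p).prodMk (((hasDerivAt_id τ).smul_const (x - p)).const_add p)
    simpa using this
  have h3 : HasDerivAt (fun u : ℝ => trp Γ (p, p + u • (x - p)))
      (fderiv ℝ (trp Γ) (p, p + τ • (x - p)) (0, x - p)) τ :=
    HasFDerivAt.comp_hasDerivAt (l := trp Γ) τ ((contDiffAt_trp hU hΓ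
      (segD_scale h hτ)).differentiableAt (by simp)).hasFDerivAt h2
  have h4 := h1.hasDerivWithinAt.congr (s := Icc 0 1)
    (f₁ := fun u : ℝ => trp Γ (p, p + u • (x - p)))
    (fun u hu => by rw [trp_scale hΓ h hu, vsol_eq, pr_of_mem hu])
    (by rw [trp_scale hΓ h hτ, vsol_eq, pr_of_mem hτ])
  rw [(uniqueDiffOn_Icc zero_lt_one τ hτ).eq_deriv _ h3.hasDerivWithinAt h4, trp_scale hΓ h hτ,
    hA, segA_apply hΓ h, pr_of_mem hτ]

/-- the transport equation in any direction parallel to the segment -/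
theorem fderiv_trp_dir (hU : IsOpen U) (hΓ : ContDiffOn ℝ ∞ Γ U) {p v : E} {τ : ℝ}
    (h : (p, p + τ • v) ∈ segD U) :
    fderiv ℝ (trp Γ) (p, p + τ • v) (0, v) = trp Γ (p, p + τ • v) * Γ (p + τ • v) v := by
  rcases eq_or_ne τ 0 with rfl | hτ
  · simp only [zero_smul, add_zero] at h ⊢
    have hc : ContinuousAt (fun s : ℝ => (p, p + s • v)) 0 := by fun_prop
    have h1 : ∀ᶠ s : ℝ in 𝓝 0, (p, p + s • v) ∈ segD U :=
      hc.eventually ((isOpen_segD hU).mem_nhds (by simpa using h))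
    obtain ⟨s, hs, hs0⟩ := ((h1.filter_mono nhdsWithin_le_nhds).and
      (self_mem_nhdsWithin (s := {0}ᶜ) (a := (0 : ℝ)))).exists
    have h2 := fderiv_trp_seg hU hΓ hs (τ := 0) ⟨le_rfl, zero_le_one⟩
    simp only [zero_smul, add_zero, add_sub_cancel_left, map_smul, mul_smul_comm] at h2
    have e : ((0 : E), s • v) = s • ((0 : E), v) := by simp
    rw [e, map_smul] at h2
    exact smul_right_injective _ hs0 h2
  · have h2 := fderiv_trp_seg hU hΓ h (τ := 1) ⟨zero_le_one, le_rfl⟩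
    simp only [one_smul, add_sub_cancel_left, map_smul, mul_smul_comm] at h2
    have e : ((0 : E), τ • v) = τ • ((0 : E), v) := by simp
    rw [e, map_smul] at h2
    exact smul_right_injective _ hτ h2

theorem hasDerivAt_trp (hU : IsOpen U) (hΓ : ContDiffOn ℝ ∞ Γ U) {p v : E} {τ : ℝ}
    (h : (p, p + τ • v) ∈ segD U) :
    HasDerivAt (fun u : ℝ => trp Γ (p, p + u • v)) (trp Γ (p, p + τ • v) * Γ (p + τ • v) v) τ := by
  have h2 : HasDerivAt (fun u : ℝ => (p, p + u • v)) ((0 : E), v) τ := by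
    have := (hasDerivAt_const τ p).prodMk (((hasDerivAt_id τ).smul_const v).const_add p)
    simpa using this
  rw [← fderiv_trp_dir hU hΓ h]
  exact ((contDiffAt_trp hU hΓ h).differentiableAt (by simp)).hasFDerivAt.comp_hasDerivAt τ h2

end Crest.Agent.N207.H

end
end

-- ▼ part N207/H/Tr2

/-!
# Row 207, block H: defect of a transported frame, isometry, reversibility
-/

set_option autoImplicit false
set_option linter.unusedSectionVars false

open Set Filter Topology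
open scoped ContDiff

noncomputable section

namespace Crest.Agent.N207.H

variable {E X 𝔸 : Type} [NormedAddCommGroup E] [NormedSpace ℝ E] [NormedAddCommGroup X]
  [NormedSpace ℝ X] [NormedRing 𝔸] [NormedAlgebra ℝ 𝔸] [CompleteSpace 𝔸]

/-- curvature of the connection form -/
def crv (Γ : E → E →L[ℝ] 𝔸) (x u v : E) : 𝔸 :=
  fderiv ℝ Γ x u v - fderiv ℝ Γ x v u + Γ x u * Γ x v - Γ x v * Γ x u

/-- defect of the coframe `Θ` along the map `H` -/
def dfc (Γ : E → E →L[ℝ] 𝔸) (H : X → E) (Θ : X → 𝔸) (z w : X) : 𝔸 :=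
  fderiv ℝ Θ z w - Θ z * Γ (H z) (fderiv ℝ H z w)

theorem crv_smul_smul (Γ : E → E →L[ℝ] 𝔸) (x v : E) (a b : ℝ) : crv Γ x (a • v) (b • v) = 0 := by
  simp only [crv, map_smul, smul_apply, smul_mul_assoc, mul_smul_comm,
    smul_smul, mul_comm a b]
  abel

theorem gronwall_le {F : Type*} [NormedAddCommGroup F] [NormedSpace ℝ F] {f f' : ℝ → F}
    {K ρ : ℝ} (hK : 0 ≤ K) (hρ : 0 ≤ ρ) (hf : ∀ t ∈ Icc (0 : ℝ) 1, HasDerivAt f (f' t) t)
    (hb : ∀ t ∈ Icc (0 : ℝ) 1, ‖f' t‖ ≤ K * ‖f t‖ + ρ) :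
    ∀ t ∈ Icc (0 : ℝ) 1, ‖f t‖ ≤ (‖f 0‖ + ρ) * Real.exp K := by
  intro t ht
  have h := norm_le_gronwallBound_of_norm_deriv_right_le (f := f) (f' := f') (δ := ‖f 0‖) (K := K)
    (ε := ρ) (a := 0) (b := 1) (fun s hs => (hf s hs).continuousAt.continuousWithinAt)
    (fun s hs => (hf s (Ico_subset_Icc_self hs)).hasDerivWithinAt) le_rfl
    (fun s hs => hb s (Ico_subset_Icc_self hs)) t ht
  refine h.trans ?_
  rw [sub_zero]
  have e1 : Real.exp (K * t) ≤ Real.exp K := Real.exp_le_exp.2 (by nlinarith [ht.2])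
  have e0 : 1 ≤ Real.exp K := Real.one_le_exp hK
  rcases hK.eq_or_lt with rfl | hK'
  · rw [gronwallBound_K0]
    simp only [Real.exp_zero, mul_one]
    nlinarith [ht.2]
  · rw [gronwallBound_of_K_ne_0 hK'.ne']
    have h2 : Real.exp K - 1 ≤ K * Real.exp K := by
      have := Real.add_one_le_exp (-K)
      have e2 : Real.exp (-K) * Real.exp K = 1 := by rw [← Real.exp_add]; simp
      nlinarith [mul_le_mul_of_nonneg_right this (by linarith : 0 ≤ Real.exp K)]
    have h3 : ρ / K * (Real.exp (K * t) - 1) ≤ ρ * Real.exp K := by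
      rw [div_mul_eq_mul_div, div_le_iff₀ hK']
      nlinarith [mul_le_mul_of_nonneg_left (by linarith : Real.exp (K * t) - 1 ≤ K * Real.exp K) hρ]
    nlinarith [mul_le_mul_of_nonneg_left e1 (norm_nonneg (f 0))]

variable {Γ : E → E →L[ℝ] 𝔸} {U : Set E}

theorem hasFDerivAt_dfc {H : X → E} {Θ : X → 𝔸} {y : X} (hΓ : DifferentiableAt ℝ Γ (H y))
    (hH : ContDiffAt ℝ 2 H y) (hΘ : ContDiffAt ℝ 2 Θ y) (w : X) :
    DifferentiableAt ℝ (fun z => dfc Γ H Θ z w) y ∧ ∀ e, fderiv ℝ (fun z => dfc Γ H Θ z w) y e =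
      fderiv ℝ (fderiv ℝ Θ) y e w - (fderiv ℝ Θ y e * Γ (H y) (fderiv ℝ H y w) +
        Θ y * (fderiv ℝ Γ (H y) (fderiv ℝ H y e) (fderiv ℝ H y w) +
          Γ (H y) (fderiv ℝ (fderiv ℝ H) y e w))) := by
  have h1 := (hH.differentiableAt (by norm_num)).hasFDerivAt
  have h2 := (hΘ.differentiableAt (by norm_num)).hasFDerivAt
  have h3 := ((hH.fderiv_right (m := 1) (by norm_num)).differentiableAt (by norm_num)).hasFDerivAt
  have h4 := ((hΘ.fderiv_right (m := 1) (by norm_num)).differentiableAt (by norm_num)).hasFDerivAt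
  have h5 := (hΓ.hasFDerivAt.comp y h1).clm_apply (h3.clm_apply (hasFDerivAt_const w y))
  have h6 := (h4.clm_apply (hasFDerivAt_const w y)).sub (h2.mul' h5)
  refine ⟨h6.differentiableAt, fun e => ?_⟩
  have h7 : fderiv ℝ (fun z => dfc Γ H Θ z w) y = _ := h6.fderiv
  rw [h7]
  simp [add_comm, mul_add]

theorem fderiv_dfc {H : X → E} {Θ : X → 𝔸} {y : X} (hΓ : DifferentiableAt ℝ Γ (H y))
    (hH : ContDiffAt ℝ 2 H y) (hΘ : ContDiffAt ℝ 2 Θ y) (w e : X)
    (h0 : ∀ᶠ z in 𝓝 y, dfc Γ H Θ z e = 0) :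
    fderiv ℝ (fun z => dfc Γ H Θ z w) y e = dfc Γ H Θ y w * Γ (H y) (fderiv ℝ H y e) +
      Θ y * crv Γ (H y) (fderiv ℝ H y w) (fderiv ℝ H y e) := by
  have a1 := (hasFDerivAt_dfc hΓ hH hΘ w).2 e
  have a2 := (hasFDerivAt_dfc hΓ hH hΘ e).2 w
  have a3 : fderiv ℝ (fun z => dfc Γ H Θ z e) y = 0 := by
    rw [Filter.EventuallyEq.fderiv_eq (f := fun _ => (0 : 𝔸)) h0]; simp
  have a4 : fderiv ℝ Θ y e = Θ y * Γ (H y) (fderiv ℝ H y e) := sub_eq_zero.1 h0.self_of_nhds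
  have s1 := (hΘ.isSymmSndFDerivAt (by simp)) e w
  have s2 := (hH.isSymmSndFDerivAt (by simp)) e w
  rw [a3, zero_apply, eq_comm, sub_eq_zero] at a2
  rw [a1, s1, s2, a2, a4, dfc, crv]
  noncomm_ring

/-- **step lemma** -/
theorem dfc_step (hU : IsOpen U) (hΓ : ContDiffOn ℝ ∞ Γ U) {p q : X → E} {φ : X → 𝔸} {z : X}
    (hp : ContDiffAt ℝ ∞ p z) (hq : ContDiffAt ℝ ∞ q z) (hφ : ContDiffAt ℝ ∞ φ z)
    (hs : (p z, q z) ∈ segD U) (v : X) {K ρ : ℝ} (hK : 0 ≤ K) (hρ : 0 ≤ ρ)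
    (h1 : ∀ t ∈ Icc (0 : ℝ) 1, ‖Γ (p z + t • (q z - p z)) (q z - p z)‖ ≤ K)
    (h2 : ∀ t ∈ Icc (0 : ℝ) 1, ‖φ z * trp Γ (p z, p z + t • (q z - p z)) *
      crv Γ (p z + t • (q z - p z)) (fderiv ℝ p z v + t • (fderiv ℝ q z v - fderiv ℝ p z v))
        (q z - p z)‖ ≤ ρ) :
    ‖dfc Γ q (fun z => φ z * trp Γ (p z, q z)) z v‖ ≤ (‖dfc Γ p φ z v‖ + ρ) * Real.exp K := by
  set H : ℝ × X → E := fun y => p y.2 + y.1 • (q y.2 - p y.2) with hH
  set Θ : ℝ × X → 𝔸 := fun y => φ y.2 * trp Γ (p y.2, H y) with hΘ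
  have sm : ∀ y : ℝ × X, ContDiffAt ℝ ∞ p y.2 → ContDiffAt ℝ ∞ q y.2 → ContDiffAt ℝ ∞ φ y.2 →
      (p y.2, H y) ∈ segD U → ContDiffAt ℝ ∞ H y ∧ ContDiffAt ℝ ∞ Θ y := by
    intro y a b c d
    have a' : ContDiffAt ℝ ∞ (fun y : ℝ × X => p y.2) y := a.comp y contDiffAt_snd
    have b' : ContDiffAt ℝ ∞ (fun y : ℝ × X => q y.2) y := b.comp y contDiffAt_snd
    have hH' : ContDiffAt ℝ ∞ H y := a'.add (contDiffAt_fst.smul (b'.sub a'))
    exact ⟨hH', (c.comp y contDiffAt_snd).mul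
      (ContDiffAt.comp (g := trp Γ) y (contDiffAt_trp hU hΓ d) (a'.prodMk hH'))⟩
  have dt : ∀ {F : Type} [NormedAddCommGroup F] [NormedSpace ℝ F] (f : ℝ × X → F) (y : ℝ × X),
      DifferentiableAt ℝ f y → HasDerivAt (fun s => f (s, y.2)) (fderiv ℝ f y (1, 0)) y.1 := by
    intro F _ _ f y hf
    exact HasFDerivAt.comp_hasDerivAt (l := f) (f := fun s => (s, y.2)) y.1 hf.hasFDerivAt
      ((hasDerivAt_id y.1).prodMk (hasDerivAt_const y.1 y.2))
  have dz : ∀ {F : Type} [NormedAddCommGroup F] [NormedSpace ℝ F] (f : ℝ × X → F) (t : ℝ),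
      DifferentiableAt ℝ f (t, z) → fderiv ℝ f (t, z) (0, v) = fderiv ℝ (fun z => f (t, z)) z v := by
    intro F _ _ f t hf
    have := HasFDerivAt.comp (g := f) (f := fun z => (t, z)) z hf.hasFDerivAt
      (hasFDerivAt_prodMk_right t z)
    rw [show (fun z => f (t, z)) = f ∘ fun z => (t, z) from rfl, this.fderiv]
    simp
  have hHt : ∀ y : ℝ × X, DifferentiableAt ℝ H y → fderiv ℝ H y (1, 0) = q y.2 - p y.2 := by
    intro y hy
    refine (dt H y hy).unique ?_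
    have := ((hasDerivAt_id y.1).smul_const (q y.2 - p y.2)).const_add (p y.2)
    rw [one_smul] at this
    exact this
  have ok : ∀ t ∈ Icc (0 : ℝ) 1, (p z, H (t, z)) ∈ segD U := fun t ht => segD_scale hs ht
  have hpd := hp.differentiableAt (by simp)
  have hqd := hq.differentiableAt (by simp)
  have hHz : ∀ t ∈ Icc (0 : ℝ) 1, fderiv ℝ H (t, z) (0, v) =
      fderiv ℝ p z v + t • (fderiv ℝ q z v - fderiv ℝ p z v) := by
    intro t ht
    rw [dz H t ((sm (t, z) hp hq hφ (ok t ht)).1.differentiableAt (by simp))]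
    have := (hpd.hasFDerivAt.add ((hqd.hasFDerivAt.sub hpd.hasFDerivAt).const_smul t)).fderiv
    exact congrArg (fun L => L v) this
  have key : ∀ t ∈ Icc (0 : ℝ) 1, HasDerivAt (fun s => dfc Γ H Θ (s, z) (0, v))
      (dfc Γ H Θ (t, z) (0, v) * Γ (H (t, z)) (q z - p z) + Θ (t, z) * crv Γ (H (t, z))
        (fderiv ℝ p z v + t • (fderiv ℝ q z v - fderiv ℝ p z v)) (q z - p z)) t := by
    intro t ht
    obtain ⟨s1, s2⟩ := sm (t, z) hp hq hφ (ok t ht)
    have hΓd : DifferentiableAt ℝ Γ (H (t, z)) :=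
      (hΓ.contDiffAt (hU.mem_nhds (segD_right (ok t ht)))).differentiableAt (by simp)
    have s1' : ContDiffAt ℝ 2 H (t, z) := s1.of_le (by norm_cast)
    have s2' : ContDiffAt ℝ 2 Θ (t, z) := s2.of_le (by norm_cast)
    have h0 : ∀ᶠ y in 𝓝 (t, z), dfc Γ H Θ y (1, 0) = 0 := by
      have c1 : ContinuousAt (fun y : ℝ × X => (p y.2, H y)) (t, z) :=
        (ContinuousAt.comp (g := p) hp.continuousAt continuousAt_snd).prodMk s1.continuousAt
      filter_upwards [c1.eventually ((isOpen_segD hU).mem_nhds (ok t ht)),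
        s1'.eventually (by simp), s2'.eventually (by simp)] with y y1 y2 y3
      rw [dfc, hHt y (y2.differentiableAt (by simp)), sub_eq_zero]
      refine (dt Θ y (y3.differentiableAt (by simp))).unique ?_
      rw [hΘ, mul_assoc]
      exact (hasDerivAt_trp hU hΓ y1).const_mul (φ y.2)
    have e := fderiv_dfc hΓd s1' s2' (0, v) (1, 0) h0
    rw [hHt _ (s1.differentiableAt (by simp)), hHz t ht] at e
    rw [← e]
    exact dt (fun y => dfc Γ H Θ y (0, v)) (t, z) (hasFDerivAt_dfc hΓd s1' s2' (0, v)).1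
  have g := gronwall_le hK hρ key (fun t ht => (norm_add_le _ _).trans (add_le_add
    ((norm_mul_le _ _).trans (by rw [mul_comm]; gcongr; exact h1 t ht)) (h2 t ht)))
    1 ⟨zero_le_one, le_rfl⟩
  have i0 : (0 : ℝ) ∈ Icc (0 : ℝ) 1 := ⟨le_rfl, zero_le_one⟩
  have i1 : (1 : ℝ) ∈ Icc (0 : ℝ) 1 := ⟨zero_le_one, le_rfl⟩
  have e1 : dfc Γ H Θ (1, z) (0, v) = dfc Γ q (fun z => φ z * trp Γ (p z, q z)) z v := by
    rw [dfc, dfc, hHz 1 i1, dz Θ 1 ((sm (1, z) hp hq hφ (ok 1 i1)).2.differentiableAt (by simp))]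
    simp [hΘ, hH]
  have e0 : dfc Γ H Θ (0, z) (0, v) = dfc Γ p φ z v := by
    have hpU : p z ∈ U := segD_left hs
    have e : (fun z => Θ (0, z)) =ᶠ[𝓝 z] φ := by
      filter_upwards [hp.continuousAt.eventually (hU.mem_nhds hpU)] with y hy
      simp [hΘ, hH, trp_self hΓ hy]
    rw [dfc, dfc, hHz 0 i0, dz Θ 0 ((sm (0, z) hp hq hφ (ok 0 i0)).2.differentiableAt (by simp)),
      e.fderiv_eq, show Θ (0, z) = φ z from e.self_of_nhds]
    simp [hH]
  rwa [e1, e0] at g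

/-- reversibility -/
theorem trp_mul_symm (hU : IsOpen U) (hΓ : ContDiffOn ℝ ∞ Γ U) {p x : E} (h : (p, x) ∈ segD U) :
    trp Γ (p, x) * trp Γ (x, p) = 1 := by
  -- `f t = T(x,p)-path reversed`: `D t = T(p,x) T(x, H t) - T(p, H t)` solves `D' = D Γ`
  have hc : ContinuousOn (fun t : ℝ => Γ (x + t • (p - x)) (p - x)) (Icc 0 1) :=
    (hΓ.continuousOn.comp (by fun_prop) fun t ht => segD_symm h t ht).clm_apply continuousOn_const
  obtain ⟨K, hK⟩ := isCompact_Icc.exists_bound_of_continuousOn hc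
  have hK0 : 0 ≤ K := (norm_nonneg _).trans (hK 0 ⟨le_rfl, zero_le_one⟩)
  have e : ∀ t : ℝ, p + (1 - t) • (x - p) = x + t • (p - x) := fun t => by module
  have key : ∀ t ∈ Icc (0 : ℝ) 1, HasDerivAt
      (fun s : ℝ => trp Γ (p, x) * trp Γ (x, x + s • (p - x)) - trp Γ (p, p + (1 - s) • (x - p)))
      ((trp Γ (p, x) * trp Γ (x, x + t • (p - x)) - trp Γ (p, p + (1 - t) • (x - p))) *
        Γ (x + t • (p - x)) (p - x)) t := by
    intro t ht
    have a := (hasDerivAt_trp hU hΓ (segD_scale (segD_symm h) ht)).const_mul (trp Γ (p, x))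
    have b := (hasDerivAt_trp hU hΓ (segD_scale h (τ := 1 - t)
      ⟨by linarith [ht.2], by linarith [ht.1]⟩)).scomp t ((hasDerivAt_id t).const_sub 1)
    refine (a.sub b).congr_deriv ?_
    rw [e t, show p - x = -(x - p) by abel, map_neg]
    simp only [neg_smul, one_smul]
    noncomm_ring
  have g := gronwall_le hK0 le_rfl key (fun t ht => (norm_mul_le _ _).trans
    (by rw [add_zero, mul_comm]; gcongr; exact hK t ht)) 1 ⟨zero_le_one, le_rfl⟩
  simp only [zero_smul, add_zero, sub_zero, one_smul, add_sub_cancel, sub_self,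
    trp_self hΓ (segD_right h), trp_self hΓ (segD_left h), mul_one, norm_zero, zero_mul,
    norm_le_zero_iff, sub_eq_zero] at g
  exact g

end Crest.Agent.N207.H

end
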